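import Crest.Agent.X212.Sob92.Fun
import Crest.Agent.X212.Wz78.Int
import Crest.Agent.X212.Wz78.Var

/-! Row 212, RESP (helper69): integration by parts without compact support, weighted norms and the
weighted energy estimate for `1 + ∇*∇` on any tame manifold. -/

set_option autoImplicit false
set_option linter.unusedSectionVars false
noncomputable section
open scoped Manifold ContDiff Topology InnerProductSpace
open MeasureTheory Set Function Filter

namespace Crest.Agent.X212.Rsp69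
open An Sob92 Wz78

variable {E : Type} [NormedAddCommGroup E] [NormedSpace ℝ E] [FiniteDimensional ℝ E]
  [MeasurableSpace E] [BorelSpace E]
  {HM : Type} [TopologicalSpace HM] {I : ModelWithCorners ℝ E HM}
  {M : Type} [TopologicalSpace M] [ChartedSpace HM M] [IsManifold I ∞ M]
  [MeasurableSpace M] [T2Space M] [BorelSpace M] [SecondCountableTopology M]
  {ι : Type} [Fintype ι]
  {N N' N'' : Type} [NormedAddCommGroup N] [NormedSpace ℝ N] [NormedAddCommGroup N']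
  [NormedSpace ℝ N'] [NormedAddCommGroup N''] [NormedSpace ℝ N'']
  {V : Type} [NormedAddCommGroup V] [InnerProductSpace ℝ V]

theorem md {f : M → N} (h : Sm I f) (x : M) : MDifferentiableAt I 𝓘(ℝ, N) f x :=
  h.mdifferentiableAt (by simp)

theorem Cb.sm {F : Pre I M ι} {f : M → N} (h : F.Cb f) : Sm I f := h.choose_spec.1

theorem Cb.bd {F : Pre I M ι} {f : M → N} (h : F.Cb f) : ∃ C, 0 ≤ C ∧ ∀ x, ‖f x‖ ≤ C :=
  let ⟨C, h⟩ := h; ⟨|C 0|, abs_nonneg _, CB_bound (CB_abs (h.2 0))⟩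

theorem Cb.sub {F : Pre I M ι} {f g : M → N} (hf : F.Cb f) (hg : F.Cb g) :
    F.Cb fun x => f x - g x := Cb_sub hf hg

theorem Cb.add {F : Pre I M ι} {f g : M → N} (hf : F.Cb f) (hg : F.Cb g) :
    F.Cb fun x => f x + g x := Cb_add hf hg

theorem Cb.neg {F : Pre I M ι} {f : M → N} (hf : F.Cb f) : F.Cb fun x => -f x := Cb_neg hf

theorem Cb.nab {F : Pre I M ι} {A : ι → M → N →L[ℝ] N} (hA : ∀ a, F.Cb (A a)) {f : M → N}
    (hf : F.Cb f) (a : ι) : F.Cb (nab I F.e A a f) := Cb_add (Cb_D hf a) (Cb_app (hA a) hf)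

theorem Cb.inner {F : Pre I M ι} {f g : M → V} (hf : F.Cb f) (hg : F.Cb g) :
    F.Cb fun x => ⟪f x, g x⟫_ℝ := Cb_bil (innerSL ℝ (E := V)) hf hg

theorem Cb.lap {F : Fr I M ι} {C : ℕ → ℝ} (hF : F.Tame C) {A : ι → M → N →L[ℝ] N}
    (hA : ∀ a, F.Cb (A a)) {f : M → N} (hf : F.Cb f) : F.Cb (lap I F.e F.dv A f) :=
  Cb.neg (Cb_sum _ fun a _ => Cb.add (Cb.nab hA (Cb.nab hA hf a) a)
    (Cb_smul ⟨C, hF.dv a⟩ (Cb.nab hA hf a)))

/-- integration by parts for integrable functions -/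
theorem ibp_int {F : Fr I M ι} {C : ℕ → ℝ} (hF : F.Tame C) {f : M → ℝ} (hf : Sm I f)
    (hi : Integrable f F.μ) (a : ι) (hD : Integrable (F.D a f) F.μ) :
    ∫ x, (F.D a f x + F.dv a x * f x) ∂F.μ = 0 := by
  obtain ⟨χ, S, hχ, ha, hS⟩ := (Exh.of_tame hF).seq
  have hdv : ∀ x, ‖F.dv a x‖ ≤ C 0 := CB_bound ((hF.dv a).2 0)
  have h1 : ∀ n, ∫ x, (F.D a (χ n) x * f x + χ n x * (F.D a f x + F.dv a x * f x)) ∂F.μ = 0 := by
    intro n
    have hs : Sm I fun x => χ n x * f x := fun x => SA.mul ((hχ n).1.1 x) (hf x)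
    have hc : HasCompactSupport fun x => χ n x * f x := (hχ n).2.1.mul_right
    have := F.ibp a _ hs hc
    rw [← add_eq_zero_iff_eq_neg, ← integral_add (integ (F.sm_D hs a) (F.hcs_D hc a))
      (integ_dvg_aux hs hc a)] at this
    rw [← this]
    refine integral_congr_ae (.of_forall fun x => ?_)
    have : F.D a (fun x => χ n x * f x) x = F.D a (χ n) x * f x + χ n x * F.D a f x :=
      dv_mul ((hχ n).1.1 x) (hf x)
    simp only [this]; ring
  have hg : Integrable (fun x => F.D a f x + F.dv a x * f x) F.μ :=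
    hD.add (hi.bdd_mul (F.dv_sm a).continuous.aestronglyMeasurable (c := C 0) (.of_forall hdv))
  have h2 := tendsto_integral_of_dominated_convergence (μ := F.μ)
    (F := fun n x => F.D a (χ n) x * f x + χ n x * (F.D a f x + F.dv a x * f x))
    (f := fun x => F.D a f x + F.dv a x * f x)
    (fun x => C 1 * ‖f x‖ + ‖F.D a f x + F.dv a x * f x‖)
    (fun n => (((F.sm_D (hχ n).1.1 a).continuous.mul hf.continuous).aestronglyMeasurable.add
      ((hχ n).1.1.continuous.aestronglyMeasurable.mul hg.1)))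
    ((hi.norm.const_mul _).add hg.norm)
    (fun n => .of_forall fun x => by
      refine (norm_add_le _ _).trans (add_le_add ?_ ?_)
      · rw [norm_mul]
        exact mul_le_mul_of_nonneg_right (CB_bound (CB_D ((hχ n).1.2 1) a) x) (norm_nonneg _)
      · rw [norm_mul]
        exact mul_le_of_le_one_left (norm_nonneg _)
          (by rw [Real.norm_of_nonneg ((hχ n).2.2.1 x).1]; exact ((hχ n).2.2.1 x).2))
    (.of_forall fun x => by
      obtain ⟨n, hn⟩ : ∃ n, x ∉ S n := by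
        by_contra h
        push Not at h
        exact (hS ▸ mem_iInter.2 h : x ∈ (∅ : Set M))
      refine tendsto_const_nhds.congr' (eventually_atTop.2 ⟨n, fun m hm => ?_⟩)
      have hx : x ∉ S m := fun h => hn (ha hm h)
      have he : χ m =ᶠ[𝓝 x] fun _ => 1 :=
        Filter.mem_of_superset ((hχ m).2.2.2.1.isOpen_compl.mem_nhds hx) (hχ m).2.2.2.2
      have : F.D a (χ m) x = 0 := by rw [Pre.D_def, dv_congr he, dv_const]; rfl
      simp only [this, he.self_of_nhds, zero_mul, one_mul, zero_add])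
  simp only [h1] at h2
  exact tendsto_nhds_unique h2 tendsto_const_nhds

/-! ### norms for a finite measure -/

section fin
variable {F : Pre I M ι} {ν : Measure M} [IsFiniteMeasure ν] {k : ℕ}

theorem memLp_bd {f : M → N} (hf : Continuous f) {C : ℝ} (h : ∀ x, ‖f x‖ ≤ C) : MemLp f 2 ν :=
  MemLp.of_bound hf.aestronglyMeasurable C (.of_forall h)

theorem int_bd {f : M → N} (hf : Continuous f) {C : ℝ} (h : ∀ x, ‖f x‖ ≤ C) : Integrable f ν :=
  Integrable.of_bound hf.aestronglyMeasurable C (.of_forall h)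

theorem Cb.ml (ν : Measure M) [IsFiniteMeasure ν] (k : ℕ) :
    ∀ {f : M → N}, F.Cb f → ML I F.e ν k f := by
  have h0 : ∀ {f : M → N}, F.Cb f → MemLp f 2 ν := fun hf =>
    let ⟨_, _, h⟩ := Cb.bd hf; memLp_bd (Cb.sm hf).continuous h
  induction k with
  | zero => exact h0
  | succ k ih => exact fun hf => ⟨h0 hf, fun a => ih (Cb_D hf a)⟩

theorem Cb.isq {f : M → N} (hf : F.Cb f) : Integrable (fun x => ‖f x‖ ^ 2) ν :=
  int_sq (Cb.ml ν 0 hf)

theorem n2_add {f g : M → N} (hf : F.Cb f) (hg : F.Cb g) :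
    n2 I F.e ν k (fun x => f x + g x) ≤ 2 * n2 I F.e ν k f + 2 * n2 I F.e ν k g :=
  n2_add_le F.sm k (Cb.sm hf) (Cb.sm hg) (Cb.ml ν k hf) (Cb.ml ν k hg)

theorem n2_clm (L : N →L[ℝ] N') {f : M → N} (hf : F.Cb f) :
    n2 I F.e ν k (fun x => L (f x)) ≤ ‖L‖ ^ 2 * n2 I F.e ν k f :=
  n2_clm_le F.sm L k (Cb.sm hf) (Cb.ml ν k hf)

theorem n2_mul (B : N →L[ℝ] N' →L[ℝ] N'') {f : M → N} {g : M → N'} {C : ℝ} (hf : Sm I f)
    (hC : F.CB k f C) (hg : F.Cb g) :
    n2 I F.e ν k (fun x => B (f x) (g x)) ≤ (cK ι k * ‖B‖ * C) ^ 2 * n2 I F.e ν k g := by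
  have := n2_bil (μ := ν) F.sm B (A := C) (C := 0) k (k + 1) 0 rfl hf (Cb.sm hg) (CB_iff.1 hC)
    trivial (fun h => absurd h (by omega)) fun _ => Cb.ml ν k hg
  refine this.2.trans (le_of_eq ?_)
  rw [mul_pow, mul_pow, cK_sq]; ring

omit [IsFiniteMeasure ν] in
theorem n2_zero_eq (f : M → N) : n2 I F.e ν 0 f = ∫ x, ‖f x‖ ^ 2 ∂ν := rfl

omit [IsFiniteMeasure ν] in
theorem n2_zero (k : ℕ) : n2 I F.e ν k (fun _ => (0 : N)) = 0 := by
  induction k with
  | zero => simp [n2]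
  | succ k ih =>
    rw [n2_succ]
    simp only [dv_const]
    exact (congrArg₂ (· + ·) (by simp [n2]) (Finset.sum_eq_zero fun _ _ => ih)).trans (add_zero 0)

/-- a bound by the mass -/
theorem n2_le_CB (k : ℕ) : ∀ {f : M → N} {C : ℝ}, Sm I f → F.CB k f C →
    n2 I F.e ν k f ≤ (Fintype.card ι + 1) ^ k * C ^ 2 * ν.real univ := by
  have h0 : ∀ {f : M → N} {C : ℝ}, Sm I f → (∀ x, ‖f x‖ ≤ C) →
      n2 I F.e ν 0 f ≤ C ^ 2 * ν.real univ := fun {f C} hf h => by
    rw [n2_zero_eq, mul_comm, ← smul_eq_mul, ← integral_const]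
    exact integral_mono (int_sq (memLp_bd hf.continuous h)) (integrable_const _)
      fun x => pow_le_pow_left₀ (norm_nonneg _) (h x) 2
  induction k with
  | zero => exact fun hf h => by simpa using h0 hf (CB_bound h)
  | succ k ih =>
    intro f C hf h
    have h1 := h0 hf (CB_bound h)
    have h2 : ∑ a, n2 I F.e ν k (dv I (F.e a) f)
        ≤ Fintype.card ι * ((Fintype.card ι + 1) ^ k * C ^ 2 * ν.real univ) := by
      refine (Finset.sum_le_sum fun a _ => ih (F.sm_D hf a) (CB_D h a)).trans ?_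
      simp
    have h3 : C ^ 2 * ν.real univ ≤ (Fintype.card ι + 1) ^ k * C ^ 2 * ν.real univ := by
      rw [mul_assoc]
      exact le_mul_of_one_le_left (by positivity) (one_le_pow₀ (by simp))
    rw [n2_succ, pow_succ]
    nlinarith

end fin

/-! ### weights -/

/-- the measure with density `θ` -/
def wm (μ : Measure M) (θ : M → ℝ) : Measure M := μ.withDensity fun x => ENNReal.ofReal (θ x)

theorem integral_wm {μ : Measure M} {θ : M → ℝ} (hθ : Continuous θ) (h0 : ∀ x, 0 ≤ θ x)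
    (g : M → N) : ∫ x, g x ∂wm μ θ = ∫ x, θ x • g x ∂μ := by
  rw [wm, integral_withDensity_eq_integral_toReal_smul hθ.measurable.ennreal_ofReal
    (.of_forall fun _ => ENNReal.ofReal_lt_top)]
  simp only [ENNReal.toReal_ofReal (h0 _)]

theorem fin_wm {μ : Measure M} {θ : M → ℝ} (h : Integrable θ μ) : IsFiniteMeasure (wm μ θ) :=
  isFiniteMeasure_withDensity_ofReal h.2

theorem wm_le {μ : Measure M} {θ θ' : M → ℝ} (hθ' : Continuous θ') {K : ℝ} (hK : 0 ≤ K)
    (h : ∀ x, θ x ≤ K * θ' x) : wm μ θ ≤ ENNReal.ofReal K • wm μ θ' := by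
  rw [wm, wm, ← withDensity_smul _ hθ'.measurable.ennreal_ofReal]
  refine withDensity_mono (.of_forall fun x => ?_)
  simp only [Pi.smul_apply, smul_eq_mul, ← ENNReal.ofReal_mul hK]
  exact ENNReal.ofReal_le_ofReal (h x)

theorem n2_smul_measure {F : Pre I M ι} {ν : Measure M} {K : ℝ} (hK : 0 ≤ K) (k : ℕ) :
    ∀ f : M → N, n2 I F.e (ENNReal.ofReal K • ν) k f = K * n2 I F.e ν k f := by
  have h0 : ∀ f : M → N, n2 I F.e (ENNReal.ofReal K • ν) 0 f = K * n2 I F.e ν 0 f := fun f => by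
    rw [n2_zero_eq, n2_zero_eq, integral_smul_measure, ENNReal.toReal_ofReal hK, smul_eq_mul]
  induction k with
  | zero => exact h0
  | succ k ih => intro f; simp only [n2_succ, h0, ih, mul_add, Finset.mul_sum]

theorem n2_wm_le {F : Pre I M ι} {μ : Measure M} {θ θ' : M → ℝ} (hθ' : Continuous θ')
    (hi : Integrable θ' μ) {K : ℝ} (hK : 0 ≤ K) (h : ∀ x, θ x ≤ K * θ' x) (k : ℕ) {f : M → N}
    (hf : F.Cb f) : n2 I F.e (wm μ θ) k f ≤ K * n2 I F.e (wm μ θ') k f := by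
  have := fin_wm hi
  have : IsFiniteMeasure (ENNReal.ofReal K • wm μ θ') :=
    Measure.smul_finite _ ENNReal.ofReal_ne_top
  rw [← n2_smul_measure hK]
  exact n2_mono_measure (wm_le hθ' hK h) k (Cb.ml _ k hf)

/-- log-Lipschitz integrable weights -/
structure Wm (F : Pre I M ι) (c : ℝ) (θ : M → ℝ) : Prop where
  sm : Sm I θ
  nn : ∀ x, 0 ≤ θ x
  D : ∀ x, ∑ a, |F.D a θ x| ≤ c * θ x
  int : Integrable θ F.μ

theorem Wm.D1 {F : Pre I M ι} {c : ℝ} {θ : M → ℝ} (h : Wm F c θ) (a : ι) (x : M) :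
    |F.D a θ x| ≤ c * θ x :=
  (Finset.single_le_sum (f := fun a => |F.D a θ x|) (fun _ _ => abs_nonneg _)
    (Finset.mem_univ a)).trans (h.D x)

theorem Wm.int_mul {F : Pre I M ι} {c : ℝ} {θ : M → ℝ} (h : Wm F c θ) {g : M → ℝ} (hg : F.Cb g) :
    Integrable (fun x => θ x * g x) F.μ :=
  let ⟨_, _, hC⟩ := Cb.bd hg
  h.int.mul_bdd (Cb.sm hg).continuous.aestronglyMeasurable (.of_forall hC)

theorem Wm.int_D {F : Pre I M ι} {c : ℝ} {θ : M → ℝ} (h : Wm F c θ) (a : ι) :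
    Integrable (F.D a θ) F.μ :=
  (h.int.const_mul c).mono' (F.sm_D h.sm a).continuous.aestronglyMeasurable
    (.of_forall fun x => h.D1 a x)

/-- weighted integration by parts -/
theorem Wm.ibp {F : Fr I M ι} {C : ℕ → ℝ} (hF : F.Tame C) {c : ℝ} {θ : M → ℝ}
    (h : Wm F.toPre c θ) {g : M → ℝ} (hg : F.Cb g) (a : ι) :
    Integrable (fun x => F.D a θ x * g x + θ x * (F.D a g x + F.dv a x * g x)) F.μ ∧
      ∫ x, (F.D a θ x * g x + θ x * (F.D a g x + F.dv a x * g x)) ∂F.μ = 0 := by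
  obtain ⟨K, -, hK⟩ := Cb.bd hg
  have h1 : Integrable (fun x => F.D a θ x * g x) F.μ :=
    (h.int_D a).mul_bdd (Cb.sm hg).continuous.aestronglyMeasurable (.of_forall hK)
  have e : F.D a (fun x => θ x * g x) = fun x => F.D a θ x * g x + θ x * F.D a g x :=
    funext fun x => dv_mul (h.sm x) (Cb.sm hg x)
  refine ⟨h1.add (h.int_mul (Cb.add (Cb_D hg a) (Cb_smul ⟨C, hF.dv a⟩ hg))), ?_⟩
  rw [← ibp_int hF (f := fun x => θ x * g x) (fun x => SA.mul (h.sm x) (Cb.sm hg x)) (h.int_mul hg)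
    a (by rw [e]; exact h1.add (h.int_mul (Cb_D hg a))), e]
  exact integral_congr_ae (.of_forall fun x => by ring)

/-- **the weighted energy estimate** -/
theorem Wm.energy {F : Fr I M ι} {C : ℕ → ℝ} (hF : F.Tame C) {c : ℝ} (hc : c ≤ 1 / 2) {θ : M → ℝ}
    (h : Wm F.toPre c θ) {A : ι → M → V →L[ℝ] V} (hA : ∀ a, F.Cb (A a)) (hs : ∀ a x, Skew (A a x))
    {K : ℝ} (hK : ∀ a x, ‖A a x‖ ≤ K) {R : M → V} (hR : F.Cb R) :
    n2 I F.e (wm F.μ θ) 1 R ≤ (5 + 4 * Fintype.card ι * K ^ 2) *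
      n2 I F.e (wm F.μ θ) 0 fun x => R x + lap I F.e F.dv A R x := by
  have := fin_wm h.int
  have hf : F.Cb fun x => R x + lap I F.e F.dv A R x := Cb.add hR (Cb.lap hF hA hR)
  have hg : ∀ a, F.Cb fun x => ⟪nab I F.e A a R x, R x⟫_ℝ := fun a => Cb.inner (Cb.nab hA hR a) hR
  have h1 := fun a => h.ibp hF (hg a) a
  have h2 : n2 I F.e (wm F.μ θ) 1 R
      = ∫ x, θ x * (‖R x‖ ^ 2 + ∑ a, ‖F.D a R x‖ ^ 2) ∂F.μ := by
    rw [n2_succ]
    simp only [n2_zero_eq, ← Pre.D_def]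
    rw [← integral_finsetSum _ fun a _ => Cb.isq (Cb_D hR a),
      ← integral_add (Cb.isq hR) (integrable_finsetSum _ fun a _ => Cb.isq (Cb_D hR a)),
      integral_wm h.sm.continuous h.nn]
    rfl
  have h3 : Integrable (fun x => θ x * ‖R x + lap I F.e F.dv A R x‖ ^ 2) F.μ := by
    simpa only [real_inner_self_eq_norm_sq] using h.int_mul (Cb.inner hf hf)
  have h4 := integrable_finsetSum Finset.univ fun a _ => (h1 a).1
  have h5 := integral_finsetSum Finset.univ fun a _ => (h1 a).1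
  simp only [fun a => (h1 a).2, Finset.sum_const_zero] at h5
  rw [h2, n2_zero_eq, integral_wm h.sm.continuous h.nn]
  simp only [smul_eq_mul]
  rw [← add_zero (∫ x, θ x * ‖R x + _‖ ^ 2 ∂F.μ), ← h5, ← integral_add h3 h4, ← integral_const_mul]
  refine integral_mono_of_nonneg (.of_forall fun x => mul_nonneg (h.nn x) (by positivity))
    ((h3.add h4).const_mul _) (.of_forall fun x => ?_)
  have k1 := (frm F).inner_lap (g := F.dv) (fun a => Cb.sm (hA a) x) (fun a => hs a x) (Cb.sm hR x)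
    (Cb.sm hR x)
  simp only [real_inner_self_eq_norm_sq, dvg] at k1
  have k2 : ⟪R x + lap I F.e F.dv A R x, R x⟫_ℝ
      ≤ ‖R x + lap I F.e F.dv A R x‖ ^ 2 + ‖R x‖ ^ 2 / 4 := by
    nlinarith [real_inner_le_norm (R x + lap I F.e F.dv A R x) (R x),
      sq_nonneg (‖R x + lap I F.e F.dv A R x‖ - ‖R x‖ / 2)]
  rw [inner_add_left, real_inner_self_eq_norm_sq, k1] at k2
  have k3 : -∑ a, F.D a θ x * ⟪nab I F.e A a R x, R x⟫_ℝ
      ≤ θ x * (∑ a, ‖nab I F.e A a R x‖ ^ 2 + ‖R x‖ ^ 2) / 4 := by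
    have h6 : ∀ a, -(F.D a θ x * ⟪nab I F.e A a R x, R x⟫_ℝ)
        ≤ θ x * ‖nab I F.e A a R x‖ ^ 2 / 4 + |F.D a θ x| * ‖R x‖ ^ 2 / 2 := fun a => by
      have t1 : -(F.D a θ x * ⟪nab I F.e A a R x, R x⟫_ℝ)
          ≤ |F.D a θ x| * (‖nab I F.e A a R x‖ * ‖R x‖) := by
        refine (neg_le_abs _).trans ?_
        rw [abs_mul]
        exact mul_le_mul_of_nonneg_left (abs_real_inner_le_norm _ _) (abs_nonneg _)
      have t2 : |F.D a θ x| ≤ θ x / 2 := (h.D1 a x).trans (by nlinarith [h.nn x])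
      have t3 := mul_le_mul_of_nonneg_right t2 (sq_nonneg ‖nab I F.e A a R x‖)
      have t4 := mul_nonneg (abs_nonneg (F.D a θ x)) (sq_nonneg (‖nab I F.e A a R x‖ - ‖R x‖))
      nlinarith
    have h7 : ∑ a, |F.D a θ x| ≤ θ x / 2 := (h.D x).trans (by nlinarith [h.nn x])
    have h8 := mul_le_mul_of_nonneg_right h7 (sq_nonneg ‖R x‖)
    rw [← Finset.sum_neg_distrib]
    refine (Finset.sum_le_sum fun a _ => h6 a).trans ?_
    simp only [Finset.sum_add_distrib, ← Finset.sum_div, ← Finset.mul_sum, ← Finset.sum_mul]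
    nlinarith
  have k4 : ∑ a, ‖F.D a R x‖ ^ 2
      ≤ 2 * ∑ a, ‖nab I F.e A a R x‖ ^ 2 + 2 * Fintype.card ι * K ^ 2 * ‖R x‖ ^ 2 := by
    have h6 : ∀ a, ‖F.D a R x‖ ^ 2 ≤ 2 * ‖nab I F.e A a R x‖ ^ 2 + 2 * K ^ 2 * ‖R x‖ ^ 2 :=
      fun a => by
      have t1 : F.D a R x = nab I F.e A a R x - A a x (R x) := by simp [nab, Pre.D_def]
      have t2 : ‖A a x (R x)‖ ≤ K * ‖R x‖ := (A a x).le_of_opNorm_le (hK a x) _
      have t3 := norm_sub_le (nab I F.e A a R x) (A a x (R x))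
      rw [t1]
      have t4 := pow_le_pow_left₀ (norm_nonneg _) (t3.trans (add_le_add le_rfl t2)) 2
      nlinarith [sq_nonneg (‖nab I F.e A a R x‖ - K * ‖R x‖)]
    refine (Finset.sum_le_sum fun a _ => h6 a).trans (le_of_eq ?_)
    simp only [Finset.sum_add_distrib, ← Finset.mul_sum, Finset.sum_const, Finset.card_univ,
      nsmul_eq_mul]
    ring
  have k5 := mul_le_mul_of_nonneg_left k2 (h.nn x)
  have k6 := mul_le_mul_of_nonneg_left k4 (h.nn x)
  have k7 : 0 ≤ θ x * ∑ a, ‖nab I F.e A a R x‖ ^ 2 := mul_nonneg (h.nn x) (by positivity)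
  have k8 : 0 ≤ θ x * ‖R x‖ ^ 2 := mul_nonneg (h.nn x) (by positivity)
  have k9 : 0 ≤ (Fintype.card ι : ℝ) * K ^ 2 := by positivity
  simp only [Finset.sum_add_distrib, ← Finset.mul_sum, Pre.D_def] at k3 k5 k6 ⊢
  set a1 := θ x * ‖R x‖ ^ 2
  set a2 := θ x * ∑ a, ‖nab I F.e A a R x‖ ^ 2
  set b := θ x * ‖R x + lap I F.e F.dv A R x‖ ^ 2 +
    (∑ a, dv I (F.e a) θ x * ⟪nab I F.e A a R x, R x⟫_ℝ + θ x *
      (∑ a, dv I (F.e a) (fun y => ⟪nab I F.e A a R y, R y⟫_ℝ) x +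
        ∑ a, F.dv a x * ⟪nab I F.e A a R x, R x⟫_ℝ)) with hb
  have k10 : a1 / 2 + 3 / 4 * a2 ≤ b := by rw [hb]; simp only [a1, a2]; nlinarith
  have k11 := mul_le_mul_of_nonneg_left (show a1 ≤ 2 * b by linarith) k9
  simp only [a1, a2] at *
  nlinarith

end Crest.Agent.X212.Rsp69
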