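import Crest.Agent.X212.Rsp69.Pr
import Crest.Agent.X212.Pj41.Cm
import Crest.Agent.X212.Dgr80.Cf

/-! Row 212, RESP (helper69): two manifolds which contain the same band; the word engine. -/

set_option autoImplicit false
set_option linter.unusedSectionVars false
noncomputable section
open scoped Manifold ContDiff Topology InnerProductSpace
open MeasureTheory Set Function Filter Real

namespace Crest.Agent.X212.Rsp69
open An Sob92 Wz78 Dgr80
open Mp86 (Mc)
open Pj41 (FRel)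

/-- manifolds with a background -/
structure Mf (ι lam : Type) [Fintype ι] [Fintype lam] : Type 1 where
  {E : Type}
  [i1 : NormedAddCommGroup E]
  [i2 : NormedSpace ℝ E]
  [i3 : FiniteDimensional ℝ E]
  [i4 : MeasurableSpace E]
  [i5 : BorelSpace E]
  {HM : Type}
  [i6 : TopologicalSpace HM]
  {I : ModelWithCorners ℝ E HM}
  {M : Type}
  [j1 : TopologicalSpace M]
  [j2 : ChartedSpace HM M]
  [j3 : IsManifold I ∞ M]
  [j4 : MeasurableSpace M]
  [j5 : T2Space M]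
  [j6 : BorelSpace M]
  [j7 : I.Boundaryless]
  [j8 : SecondCountableTopology M]
  B : Base M ι lam
  G : Geo I M ι lam

attribute [instance] Mf.i1 Mf.i2 Mf.i3 Mf.i4 Mf.i5 Mf.i6 Mf.j1 Mf.j2 Mf.j3 Mf.j4 Mf.j5 Mf.j6 Mf.j7
  Mf.j8

section lin
variable {U V : Type} [NormedAddCommGroup U] [InnerProductSpace ℝ U] [CompleteSpace U]
  [NormedAddCommGroup V] [InnerProductSpace ℝ V] [CompleteSpace V]

variable (U V) in
/-- the adjoint as a linear map -/
def adjL : CL (CL U V) (CL V U) := LinearMap.mkContinuous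
  { toFun := fun T => ContinuousLinearMap.adjoint T
    map_add' := map_add _
    map_smul' := fun c T => by simp } 1 fun T => by simp

theorem norm_adjL : ‖adjL U V‖ ≤ 1 := LinearMap.mkContinuous_norm_le _ zero_le_one _

/-- `tp` as a bilinear map -/
def tpL (r : CL U (CL V V)) : CL V (CL V U) := adjL U V ∘L r.flip

theorem norm_tpL (r : CL U (CL V V)) : ‖tpL r‖ ≤ ‖r‖ :=
  (ContinuousLinearMap.opNorm_comp_le _ _).trans (by
    rw [ContinuousLinearMap.opNorm_flip]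
    exact mul_le_of_le_one_left r.opNorm_nonneg norm_adjL)

variable {α : Type} [Fintype α] [DecidableEq α]

variable (V) in
/-- the inclusion of a component -/
def sgl (a : α) : CL V (Fm α V) :=
  (PiLp.continuousLinearEquiv 2 ℝ fun _ : α => V).symm.toContinuousLinearMap ∘L
    ContinuousLinearMap.single ℝ (fun _ : α => V) a

theorem sum_sgl (f : α → V) : ∑ a, sgl V a (f a) = WithLp.toLp 2 f := by
  ext b; simp [sgl, Pi.single_apply]

end lin

variable {E : Type} [NormedAddCommGroup E] [NormedSpace ℝ E] [FiniteDimensional ℝ E]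
  [MeasurableSpace E] [BorelSpace E]
  {HM : Type} [TopologicalSpace HM] {I : ModelWithCorners ℝ E HM} [I.Boundaryless]
  {M : Type} [TopologicalSpace M] [ChartedSpace HM M] [IsManifold I ∞ M]
  [MeasurableSpace M] [T2Space M] [BorelSpace M] [SecondCountableTopology M]
  {ι : Type} [Fintype ι] {𝒟 : Type*} {lam : Type} [Fintype lam]

/-- two uniformly tame manifolds which contain the band of `X` -/
structure Tw (X : Cx I M ι 𝒟) (lam : Type) [Fintype lam] where
  S : 𝒟 → Bool → Mf ι lam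
  ψ : ∀ d i, OpenPartialHomeomorph M (S d i).M
  κ : ℝ
  ρ : 𝒟 → ℝ → ℝ
  rt : X.Rt κ ρ
  iso : ∀ᶠ d in X.l, (X.F d).IsVol ∧ ∀ i, An.Iso (X.F d).toPre (S d i).G.F.toPre (ψ d i) ∧
    (S d i).G.F.IsVol ∧ (S d i).G.F.Tame X.C
  src : X.Ev fun d x => ∀ i, x ∈ (ψ d i).source

namespace Tw
open Cx
variable {X : Cx I M ι 𝒟} (T : Tw X lam) {k n j : ℕ}
  {V W : 𝒟 → Type} [∀ d, NormedAddCommGroup (V d)] [∀ d, InnerProductSpace ℝ (V d)]
  [∀ d, NormedAddCommGroup (W d)] [∀ d, InnerProductSpace ℝ (W d)]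
  {N N' N'' : 𝒟 → Type} [∀ d, NormedAddCommGroup (N d)] [∀ d, NormedSpace ℝ (N d)]
  [∀ d, NormedAddCommGroup (N' d)] [∀ d, NormedSpace ℝ (N' d)]
  [∀ d, NormedAddCommGroup (N'' d)] [∀ d, NormedSpace ℝ (N'' d)]

/-- the frames -/
abbrev F (d : 𝒟) (i : Bool) : Fr (T.S d i).I (T.S d i).M ι := (T.S d i).G.F

/-- pairs of sections -/
abbrev Sc (N : 𝒟 → Type) : Type _ := ∀ d i, (T.S d i).M → N d

/-- pairs of functions -/
abbrev Fn : Type _ := T.Sc fun _ => ℝ

/-- close on the band -/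
def EL (k : ℕ) (u : T.Sc N) : Prop := X.Pr T.ρ k fun d i x => u d i (T.ψ d i x)

/-- uniformly bounded -/
def U (u : T.Sc N) : Prop := ∃ K, 0 ≤ K ∧ ∀ᶠ d in X.l, ∀ i y, ‖u d i y‖ ≤ K

/-- in the class `Q`, uniformly bounded and close on the band -/
structure EP (Q : ∀ d i, ((T.S d i).M → N d) → Prop) (k : ℕ) (s : T.Sc N) : Prop where
  q : ∀ᶠ d in X.l, ∀ i, Q d i (s d i)
  u : T.U s
  el : T.EL k s

/-- the class of sections with bounded derivatives -/
abbrev EC (k : ℕ) (u : T.Sc N) : Prop := T.EP (fun d i => (T.F d i).Cb) k u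

variable {T} {u v : T.Sc N}

theorem lw : X.Lw (T.κ / 8) T.ρ := T.rt.lw

theorem rel : X.Ev fun d x => (X.F d).IsVol ∧ ∀ i, FRel (X.F d) (T.F d i) (T.ψ d i) (T.ψ d i).source ∧
    x ∈ (T.ψ d i).source ∧ (T.F d i).IsVol :=
  ((Ev.of_ev (P := fun _ _ => _) (T.iso.mono fun _ h _ => h)).and T.src).mono fun _ _ h =>
    ⟨h.1.1, fun i => ⟨Pj41.fRel_of_iso (h.1.2 i).1, h.2 i, (h.1.2 i).2.1⟩⟩

theorem tame : ∀ᶠ d in X.l, ∀ i, (T.F d i).Tame X.C := T.iso.mono fun _ h i => (h.2 i).2.2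

/-- global bounds give bounds on the band -/
theorem hk_of_CB {i : Bool} {C : ℝ}
    (h : ∀ᶠ d in X.l, Sm (T.S d i).I (u d i) ∧ (T.F d i).CB k (u d i) C) :
    X.Hk 1 k fun d x => u d i (T.ψ d i x) := by
  obtain ⟨L, hL, h1⟩ := T.rel
  refine Bd.hk lw_one ⟨L, hL, |C|, abs_nonneg _, (h.and h1).mono fun d h x hx =>
    ⟨zero_le_one, ((h.2 x hx).2 i).1.sm ((h.2 x hx).2 i).2.1 (h.1.1 _), fun w hw => ?_⟩⟩
  rw [((h.2 x hx).2 i).1.Dw ((h.2 x hx).2 i).2.1 w (u' := u d i) (.of_forall fun _ => rfl)]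
  simpa using CB_abs h.1.2 w hw _

theorem U.hk (h : T.U u) (hs : ∀ᶠ d in X.l, ∀ i, Sm (T.S d i).I (u d i)) (i : Bool) :
    X.Hk 1 0 fun d x => u d i (T.ψ d i x) :=
  let ⟨_, _, h⟩ := h
  hk_of_CB ((h.and hs).mono fun _ h => ⟨h.2 i, CB_zero.2 (h.1 i)⟩)

namespace U

theorem congr (h : T.U u) (e : ∀ᶠ d in X.l, ∀ i, u d i = v d i) : T.U v :=
  let ⟨K, hK, h⟩ := h
  ⟨K, hK, (h.and e).mono fun _ h i => h.2 i ▸ h.1 i⟩

theorem bil {B : ∀ d, N d →L[ℝ] N' d →L[ℝ] N'' d} (hB : Ub X.l fun d => ‖B d‖) (h : T.U u)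
    {v : T.Sc N'} (h' : T.U v) : T.U fun d i x => B d (u d i x) (v d i x) :=
  let ⟨K, hK, h⟩ := h; let ⟨K', hK', h'⟩ := h'; let ⟨C, hC, hB⟩ := hB
  ⟨C * K * K', by positivity, ((h.and h').and hB).mono fun d h i y =>
    ((B d).le_opNorm₂ _ _).trans (by gcongr; exacts [h.2, h.1.1 i y, h.1.2 i y])⟩

theorem add (h : T.U u) (h' : T.U v) : T.U fun d i x => u d i x + v d i x :=
  let ⟨K, hK, h⟩ := h; let ⟨K', hK', h'⟩ := h'
  ⟨K + K', by positivity, (h.and h').mono fun _ h i y => norm_add_le_of_le (h.1 i y) (h.2 i y)⟩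

theorem const {c : ∀ d, N d} (h : Ub X.l fun d => ‖c d‖) : T.U fun d _ _ => c d :=
  let ⟨K, hK, h⟩ := h
  ⟨K, hK, h.mono fun _ h _ _ => h⟩

end U

namespace EL

theorem congr (h : T.EL k u) (e : ∀ᶠ d in X.l, ∀ i, u d i = v d i) : T.EL k v :=
  Pr.congr h (.of_ev (e.mono fun _ e _ i => by rw [e i]))

theorem congr' (h : T.EL k u) (e : ∀ d i x, u d i x = v d i x) : T.EL k v :=
  h.congr (.of_forall fun d i => funext (e d i))

theorem of_le (h : T.EL k u) (hj : j ≤ k) : T.EL j u := Pr.of_le h hj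

theorem add (h : T.EL k u) (h' : T.EL k v) : T.EL k fun d i x => u d i x + v d i x := Pr.add h h'

theorem sub (h : T.EL k u) (h' : T.EL k v) : T.EL k fun d i x => u d i x - v d i x := Pr.sub h h'

theorem neg (h : T.EL k u) : T.EL k fun d i x => -u d i x := Pr.neg h

theorem zero : T.EL k fun d _ _ => (0 : N d) := Pr.zero lw

theorem sum {α : Type*} (s : Finset α) {u : α → T.Sc N} (h : ∀ a ∈ s, T.EL k (u a)) :
    T.EL k fun d i x => ∑ a ∈ s, u a d i x := Pr.sum lw s h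

theorem clm {L : ∀ d, N d →L[ℝ] N' d} (hL : Ub X.l fun d => ‖L d‖) (h : T.EL k u) :
    T.EL k fun d i x => L d (u d i x) := Pr.clm hL h

theorem bil (hn : 7 ≤ n) (hk : k ≤ n) {B : ∀ d, N d →L[ℝ] N' d →L[ℝ] N'' d}
    (hB : Ub X.l fun d => ‖B d‖) (h : T.EL n u) {v : T.Sc N'} (h' : T.EL k v) :
    T.EL k fun d i x => B d (u d i x) (v d i x) := Pr.bilR hn hk hB h h'

theorem app (hn : 7 ≤ n) (hk : k ≤ n) {A : T.Sc fun d => N d →L[ℝ] N' d} (h : T.EL n A)
    (h' : T.EL k u) : T.EL k fun d i x => A d i x (u d i x) := Pr.app hn hk h h'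

theorem smul (hn : 7 ≤ n) (hk : k ≤ n) {f : T.Fn} (h : T.EL n f) (h' : T.EL k u) :
    T.EL k fun d i x => f d i x • u d i x := Pr.smul hn hk h h'

theorem inner (hn : 7 ≤ n) {u v : T.Sc V} (h : T.EL n u) (h' : T.EL n v) :
    T.EL (N := fun _ => ℝ) n fun d i x => ⟪u d i x, v d i x⟫_ℝ :=
  bil hn le_rfl (B := fun d => innerSL ℝ (E := V d)) (.of_le 1 fun _ => norm_innerSL_le ℝ) h h'

theorem comp {P Q : Type} [NormedAddCommGroup P] [InnerProductSpace ℝ P] [FiniteDimensional ℝ P]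
    [NormedAddCommGroup Q] [NormedSpace ℝ Q] {φ : P → Q} (hφ : ContDiff ℝ ∞ φ) (hn : 8 ≤ n)
    {u : T.Sc fun _ => P} (h : T.EL n u) : T.EL (N := fun _ => Q) n fun d i x => φ (u d i x) :=
  Pr.comp lw hφ hn h

theorem toLp {α P : Type} [Fintype α] [NormedAddCommGroup P] [InnerProductSpace ℝ P]
    [CompleteSpace P] {u : α → T.Sc fun _ => P} (h : ∀ a, T.EL k (u a)) :
    T.EL (N := fun _ => Fm α P) k fun d i x => WithLp.toLp 2 fun a => u a d i x := by
  classical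
  exact (sum Finset.univ fun a _ => (h a).clm (L := fun _ => sgl P a) (.const _)).congr'
    fun _ _ _ => sum_sgl _

theorem D (h : T.EL (k + 1) u) (a : ι) : T.EL k fun d i => (T.F d i).D a (u d i) :=
  (Pr.D h a).congr (T.rel.mono fun _ _ h i => (h.2 i).1.D (h.2 i).2.1 a (.of_forall fun _ => rfl))

theorem nab (hn : 7 ≤ n) (hk : k ≤ n) {A : ∀ d i, ι → (T.S d i).M → N d →L[ℝ] N d}
    (hA : ∀ a, T.EL n fun d i => A d i a) (h : T.EL (k + 1) u) (a : ι) :
    T.EL k fun d i => Wz78.nab (T.S d i).I (T.F d i).e (A d i) a (u d i) :=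
  (h.D a).add ((hA a).app hn hk (h.of_le k.le_succ))

/-- **the resolvent step** -/
theorem res (hn : 7 ≤ n) (hk : k ≤ n) {A : ∀ d i, ι → (T.S d i).M → V d →L[ℝ] V d}
    (hA : ∀ a, T.EL (n + 1) fun d i => A d i a) {s R : T.Sc V}
    (h : ∀ᶠ d in X.l, ∀ i, (∀ a x, Skew (A d i a x)) ∧ (T.F d i).IsRes (A d i) (s d i) (R d i))
    (h0 : ∀ i, X.Hk 1 0 fun d x => R d i (T.ψ d i x)) (hs : T.EL k s) : T.EL (k + 2) R :=
  Pr.res (A := fun d i a x => A d i a (T.ψ d i x)) T.rt hn hk hA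
    (.of_ev (h.mono fun _ h _ i a => (h i).1 a _))
    ((T.rel.and (.of_ev (P := fun d _ => _) (h.mono fun _ h _ => h))).mono fun _ _ h i => by
      rw [(h.1.2 i).1.lap (h.1.2 i).2.1 h.1.1 (h.1.2 i).2.2 (fun _ => .of_forall fun _ => rfl)
        (.of_forall fun _ => rfl)]
      exact (h.2 i).2.2.2 _) h0 hs

end EL

namespace EP
variable {Q : ∀ d i, ((T.S d i).M → N d) → Prop}

theorem congr (h : T.EP Q k u) (e : ∀ᶠ d in X.l, ∀ i, u d i = v d i) : T.EP Q k v :=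
  ⟨(h.q.and e).mono fun _ h i => h.2 i ▸ h.1 i, h.u.congr e, h.el.congr e⟩

theorem congr' (h : T.EP Q k u) (e : ∀ d i x, u d i x = v d i x) : T.EP Q k v :=
  h.congr (.of_forall fun d i => funext (e d i))

theorem of_le (h : T.EP Q k u) (hj : j ≤ k) : T.EP Q j u := ⟨h.q, h.u, h.el.of_le hj⟩

theorem imp {Q' : ∀ d i, ((T.S d i).M → N d) → Prop} (h : T.EP Q k u)
    (e : ∀ᶠ d in X.l, ∀ i, Q' d i (u d i)) : T.EP Q' k u := ⟨e, h.u, h.el⟩

end EP

namespace EC

/-- uniformly bounded fields which agree on the band -/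
theorem fixed {C : ℕ → ℝ} (h : ∀ᶠ d in X.l, ∀ i, (T.F d i).CBs (u d i) C)
    (e : X.Ev fun d x => u d true (T.ψ d true x) = u d false (T.ψ d false x)) : T.EC k u :=
  ⟨h.mono fun _ h i => ⟨C, h i⟩, ⟨|C 0|, abs_nonneg _, h.mono fun _ h i =>
    CB_bound (CB_abs ((h i).2 0))⟩,
    Pr.of_eq lw (fun i => hk_of_CB (h.mono fun _ h => ⟨(h i).1, (h i).2 k⟩)) e⟩

theorem const {c : ∀ d, N d} (h : Ub X.l fun d => ‖c d‖) : T.EC k fun d _ _ => c d :=
  ⟨.of_forall fun _ _ => Cb_const _, .const h, Pr.same lw (Hk.const h)⟩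

theorem add (h : T.EC k u) (h' : T.EC k v) : T.EC k fun d i x => u d i x + v d i x :=
  ⟨(h.q.and h'.q).mono fun _ h i => Cb.add (h.1 i) (h.2 i), h.u.add h'.u, h.el.add h'.el⟩

theorem bil (hn : 7 ≤ n) (hk : k ≤ n) {B : ∀ d, N d →L[ℝ] N' d →L[ℝ] N'' d}
    (hB : Ub X.l fun d => ‖B d‖) (h : T.EC n u) {v : T.Sc N'} (h' : T.EC k v) :
    T.EC k fun d i x => B d (u d i x) (v d i x) :=
  ⟨(h.q.and h'.q).mono fun _ h i => Cb_bil _ (h.1 i) (h.2 i), h.u.bil hB h'.u,
    h.el.bil hn hk hB h'.el⟩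

theorem app (hn : 7 ≤ n) (hk : k ≤ n) {A : T.Sc fun d => N d →L[ℝ] N' d} (h : T.EC n A)
    (h' : T.EC k u) : T.EC k fun d i x => A d i x (u d i x) :=
  bil hn hk (B := fun d => ContinuousLinearMap.id ℝ (N d →L[ℝ] N' d))
    (.of_le 1 fun _ => ContinuousLinearMap.norm_id_le) h h'

theorem smul (hn : 7 ≤ n) (hk : k ≤ n) {f : T.Fn} (h : T.EC n f) (h' : T.EC k u) :
    T.EC k fun d i x => f d i x • u d i x :=
  bil hn hk (B := fun d => ContinuousLinearMap.lsmul ℝ ℝ (E := N d))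
    (.of_le 1 fun _ => ContinuousLinearMap.opNorm_lsmul_le) h h'

theorem clm {L : ∀ d, N d →L[ℝ] N' d} (hL : Ub X.l fun d => ‖L d‖) (h : T.EC k u) :
    T.EC k fun d i x => L d (u d i x) := app (n := k + 7) (by omega) (by omega) (const hL) h

theorem neg (h : T.EC k u) : T.EC k fun d i x => -u d i x :=
  h.clm (L := fun d => -ContinuousLinearMap.id ℝ (N d))
    (.of_le 1 fun _ => by simpa using ContinuousLinearMap.norm_id_le)

theorem sub (h : T.EC k u) (h' : T.EC k v) : T.EC k fun d i x => u d i x - v d i x := by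
  simpa only [sub_eq_add_neg] using h.add h'.neg

theorem sum {α : Type*} (s : Finset α) {u : α → T.Sc N} (h : ∀ a ∈ s, T.EC k (u a)) :
    T.EC k fun d i x => ∑ a ∈ s, u a d i x := by
  classical
  induction s using Finset.induction_on with
  | empty => simpa using const (c := fun d => (0 : N d)) (.of_le 0 fun _ => by simp)
  | insert a s ha ih =>
    simp only [Finset.sum_insert ha]
    exact (h a (Finset.mem_insert_self _ _)).add (ih fun i hi => h i (Finset.mem_insert_of_mem hi))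

theorem inner (hn : 7 ≤ n) {u v : T.Sc V} (h : T.EC n u) (h' : T.EC n v) :
    T.EC (N := fun _ => ℝ) n fun d i x => ⟪u d i x, v d i x⟫_ℝ :=
  bil hn le_rfl (B := fun d => innerSL ℝ (E := V d)) (.of_le 1 fun _ => norm_innerSL_le ℝ) h h'

theorem comp {P Q : Type} [NormedAddCommGroup P] [InnerProductSpace ℝ P] [FiniteDimensional ℝ P]
    [NormedAddCommGroup Q] [NormedSpace ℝ Q] {φ : P → Q} (hφ : ContDiff ℝ ∞ φ) (hn : 8 ≤ n)
    {u : T.Sc fun _ => P} (h : T.EC n u) : T.EC (N := fun _ => Q) n fun d i x => φ (u d i x) := by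
  refine ⟨h.q.mono fun _ h i => Cb_nem hφ (h i), ?_, h.el.comp hφ hn⟩
  obtain ⟨K, -, h⟩ := h.u
  have := FiniteDimensional.proper_real P
  obtain ⟨C, hC⟩ := (isCompact_closedBall (0 : P) K).exists_bound_of_continuousOn
    hφ.continuous.continuousOn
  exact ⟨|C|, abs_nonneg _, h.mono fun d h i y => (hC _ (by simpa using h i y)).trans (le_abs_self C)⟩

end EC

/-! ### words -/

/-- families of lists all of whose letters lie in the class `P` -/
inductive Fa {β : 𝒟 → Bool → Type} (P : (∀ d i, β d i) → Prop) : (∀ d i, List (β d i)) → Prop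
  | nil : Fa P fun _ _ => []
  | cons {t w} : P t → Fa P w → Fa P fun d i => t d i :: w d i

section fa
variable {β γ : 𝒟 → Bool → Type} {P : (∀ d i, β d i) → Prop} {P' : (∀ d i, γ d i) → Prop}
  {w w' : ∀ d i, List (β d i)}

theorem Fa.list {α : Type} {L : α → ∀ d i, β d i} :
    ∀ {u : List α}, (∀ a ∈ u, P (L a)) → Fa P fun d i => u.map fun a => L a d i
  | [], _ => .nil
  | a :: _, h => .cons (h a List.mem_cons_self) (list fun b hb => h b (List.mem_cons_of_mem a hb))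

theorem Fa.map (h : Fa P w) {f : ∀ d i, β d i → γ d i} (e : ∀ t, P t → P' fun d i => f d i (t d i)) :
    Fa P' fun d i => (w d i).map (f d i) := by
  induction h with
  | nil => exact .nil
  | cons ht _ ih => exact .cons (e _ ht) ih

theorem Fa.append (h : Fa P w) (h' : Fa P w') : Fa P fun d i => w d i ++ w' d i := by
  induction h with
  | nil => exact h'
  | cons ht _ ih => exact .cons ht ih

end fa

variable [∀ d, CompleteSpace (V d)] {Q : ∀ d i, ((T.S d i).M → V d) → Prop}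

variable (T) in
/-- fields of operators that act on the class -/
def Ap (Q : ∀ d i, ((T.S d i).M → V d) → Prop) (n : ℕ) (B : T.Sc fun d => CL (V d) (V d)) : Prop :=
  ∀ w, T.EP Q n w → T.EP Q n fun d i x => B d i x (w d i x)

variable (T) in
/-- admissible semantic letters -/
def SLk (Q : ∀ d i, ((T.S d i).M → V d) → Prop) (n : ℕ) (L : ∀ d i, SL (T.S d i).M (V d)) : Prop :=
  (∃ B, (L = fun d i => .op (B d i)) ∧ T.Ap Q n B ∧
    T.Ap Q n fun d i x => ContinuousLinearMap.adjoint (B d i x)) ∨ L = fun _ _ => .G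

theorem SLk.op (hn : 7 ≤ n) {B : T.Sc fun d => CL (V d) (V d)} (h : T.EC n B) :
    T.SLk (fun d i => (T.F d i).Cb) n fun d i => .op (B d i) :=
  .inl ⟨_, rfl, fun _ => h.app hn le_rfl, fun _ =>
    (h.clm (L := fun d => adjL (V d) (V d)) (.of_le 1 fun _ => norm_adjL)).app hn le_rfl⟩

variable (T) in
/-- pairs of connections, with a class on which the resolvent is a true solution -/
structure Eng (Q : ∀ d i, ((T.S d i).M → V d) → Prop) (n : ℕ)
    (A : ∀ d i, ι → (T.S d i).M → CL (V d) (V d)) : Prop where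
  hn : 8 ≤ n
  el : ∀ a, T.EL n fun d i => A d i a
  cls : ∀ᶠ d in X.l, ∀ i, Mc (T.S d i).I (A d i) ∧ Cls (T.F d i) (A d i) (Q d i)

namespace Eng
variable {A : ∀ d i, ι → (T.S d i).M → CL (V d) (V d)} (h : T.Eng Q n A) {u v l s : T.Sc V}
  {L : ∀ d i, SL (T.S d i).M (V d)} {w : ∀ d i, List (SL (T.S d i).M (V d))}
include h

theorem h7 : 7 ≤ n := h.hn.trans' (by omega)

theorem res' (hk : k + 1 ≤ n) (hq : ∀ᶠ d in X.l, ∀ i, Q d i (s d i)) (hs : T.EL k s)
    (h0 : ∀ i, X.Hk 1 0 fun d x => (T.F d i).res (A d i) (s d i) (T.ψ d i x)) :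
    T.EL (k + 2) fun d i => (T.F d i).res (A d i) (s d i) := by
  have := h.hn
  obtain ⟨n, rfl⟩ : ∃ m, n = m + 1 := ⟨n - 1, by omega⟩
  exact EL.res (by omega) (by omega) h.el
    ((h.cls.and hq).mono fun _ h i => ⟨(h.1 i).1.sk, (h.1 i).2.res _ (h.2 i)⟩) h0 hs

theorem resU (hs : T.U s) : T.U fun d i => (T.F d i).res (A d i) (s d i) :=
  let ⟨K, hK, hs⟩ := hs
  ⟨K, hK, ((hs.and h.cls).and T.tame).mono fun _ h i =>
    Mp86.norm_res_le (Mp86.bumps_of_tame _ (h.2 i)) (h.1.2 i).1 (h.1.1 i)⟩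

theorem resQ (hq : ∀ᶠ d in X.l, ∀ i, Q d i (s d i)) :
    ∀ᶠ d in X.l, ∀ i, Q d i ((T.F d i).res (A d i) (s d i)) :=
  (h.cls.and hq).mono fun _ h i => (h.1 i).2.G _ (h.2 i)

theorem res (hs : T.EP Q n s) : T.EP Q (n + 1) fun d i => (T.F d i).res (A d i) (s d i) := by
  have := h.hn
  obtain ⟨n, rfl⟩ : ∃ m, n = m + 1 := ⟨n - 1, by omega⟩
  exact ⟨h.resQ hs.q, h.resU hs.u, h.res' le_rfl hs.q (hs.el.of_le n.le_succ)
    ((h.resU hs.u).hk (.of_forall fun _ _ => Mp86.sm_res _ _ _))⟩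

theorem sl (hL : T.SLk Q n L) (hu : T.EP Q n u) :
    T.EP Q n fun d i => sl (T.F d i) (A d i) (L d i) (u d i) := by
  rcases hL with ⟨B, rfl, h1, -⟩ | rfl
  · exact h1 _ hu
  · exact (h.res hu).of_le n.le_succ

theorem slT (hL : T.SLk Q n L) (hu : T.EP Q n u) :
    T.EP Q n fun d i => slT (T.F d i) (A d i) (L d i) (u d i) := by
  rcases hL with ⟨B, rfl, -, h1⟩ | rfl
  · exact h1 _ hu
  · exact (h.res hu).of_le n.le_succ

theorem wd (hw : Fa (T.SLk Q n) w) (hs : T.EP Q n s) :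
    T.EP Q n fun d i => Wrd81.wd (Dgr80.sl (T.F d i) (A d i)) (s d i) (w d i) := by
  induction hw with
  | nil => exact hs
  | cons ht _ ih => exact h.sl ht ih

theorem bk (hw : Fa (T.SLk Q n) w) : ∀ {l}, T.EP Q n l →
    T.EP Q n fun d i => bk (T.F d i) (A d i) (w d i) (l d i) := by
  induction hw with
  | nil => exact id
  | cons ht _ ih => exact fun hl => ih (h.slT ht hl)

variable {P : Type} [NormedAddCommGroup P] [InnerProductSpace ℝ P] [CompleteSpace P]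
  {r : ∀ d, CL P (CL (V d) (V d))} (hr : Ub X.l fun d => ‖r d‖)
include hr

theorem cur (hv : T.EL (n + 1) v) (hl : T.EL (n + 1) l) : T.EL (N := fun _ => Fm ι P) n
    fun d i => cur (T.F d i) (A d i) (r d) (v d i) (l d i) :=
  have hr' : Ub X.l fun d => ‖tpL (r d)‖ :=
    let ⟨K, hK, hr⟩ := hr; ⟨K, hK, hr.mono fun _ h => (norm_tpL _).trans h⟩
  EL.toLp fun a => ((hv.of_le n.le_succ).bil h.h7 le_rfl hr' (hl.nab h.h7 le_rfl h.el a)).add
    ((hl.of_le n.le_succ).bil h.h7 le_rfl hr' (hv.nab h.h7 le_rfl h.el a))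

theorem gc (hs : T.EP Q n s) (hw : Fa (T.SLk Q n) w) : ∀ {l}, T.EP Q n l →
    T.EL (N := fun _ => Fm ι P) n
      fun d i => gc (T.F d i) (A d i) (r d) (s d i) (w d i) (l d i) := by
  induction hw with
  | nil => exact fun _ => EL.zero
  | cons ht hw ih =>
    intro l hl
    have h1 := ih (h.slT ht hl)
    rcases ht with ⟨B, rfl, -⟩ | rfl
    · exact h1
    · exact h1.sub (h.cur hr (h.res (h.wd hw hs)).el (h.res hl).el)

end Eng

end Tw

end Crest.Agent.X212.Rsp69
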