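import Crest.Agent.X212.Rsp69.En

/-! Row 212, RESP (helper69): pointwise bounds of derivatives `PB` and uniform bounds `Bk` for
families over sets. -/

set_option autoImplicit false
set_option linter.unusedSectionVars false
noncomputable section
open scoped Manifold ContDiff Topology InnerProductSpace
open MeasureTheory Set Function Filter

namespace Crest.Agent.X212.Rsp69
open An Sob92 Wz78

variable {E : Type} [NormedAddCommGroup E] [NormedSpace ℝ E] [FiniteDimensional ℝ E]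
  [MeasurableSpace E] [BorelSpace E]
  {HM : Type} [TopologicalSpace HM] {I : ModelWithCorners ℝ E HM}
  {M : Type} [TopologicalSpace M] [ChartedSpace HM M] [IsManifold I ∞ M]
  [MeasurableSpace M] {ι : Type} [Fintype ι]

section pb
variable {N N' N'' : Type} [NormedAddCommGroup N] [NormedSpace ℝ N] [NormedAddCommGroup N']
  [NormedSpace ℝ N'] [NormedAddCommGroup N''] [NormedSpace ℝ N'']
  {F : Pre I M ι} {k : ℕ} {f g : M → N} {x : M} {A C : ℝ}

/-- bounds of the derivatives of order `≤ k` at a point -/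
def PB (F : Pre I M ι) (k : ℕ) (f : M → N) (x : M) (C : ℝ) : Prop :=
  ∀ w : List ι, w.length ≤ k → ‖F.Dw w f x‖ ≤ C

theorem PB.bd (h : PB F k f x C) : ‖f x‖ ≤ C := h [] (by simp)

theorem PB.nn (h : PB F k f x C) : 0 ≤ C := (norm_nonneg _).trans h.bd

theorem PB.D (h : PB F (k + 1) f x C) (a : ι) : PB F k (F.D a f) x C :=
  fun w hw => h (a :: w) (by simpa using hw)

theorem PB.zero' (h : ‖f x‖ ≤ C) : PB F 0 f x C := fun w hw => by
  obtain rfl : w = [] := List.length_eq_zero_iff.1 (by omega)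
  exact h

theorem PB.succ (h : ‖f x‖ ≤ C) (h' : ∀ a, PB F k (F.D a f) x C) : PB F (k + 1) f x C := by
  rintro (_ | ⟨a, w⟩) hw
  exacts [h, h' a w (by simpa using hw)]

theorem PB.of_le {j : ℕ} (h : PB F k f x C) (hj : j ≤ k) : PB F j f x C :=
  fun w hw => h w (hw.trans hj)

theorem PB.mono (h : PB F k f x A) (hC : A ≤ C) : PB F k f x C := fun w hw => (h w hw).trans hC

theorem PB.of_CB (h : F.CB k f C) (x : M) : PB F k f x C := fun w hw => h w hw x

theorem CB_of_PB (h : ∀ x, PB F k f x C) : F.CB k f C := fun w hw x => h x w hw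

theorem D_ev (h : f =ᶠ[𝓝 x] g) (a : ι) : F.D a f =ᶠ[𝓝 x] F.D a g :=
  h.eventually_nhds.mono fun _ hy => dv_congr hy

theorem Dw_ev (w : List ι) : ∀ {f g : M → N}, f =ᶠ[𝓝 x] g → F.Dw w f =ᶠ[𝓝 x] F.Dw w g := by
  induction w with
  | nil => exact fun h => h
  | cons a w ih => exact fun h => ih (D_ev h a)

theorem PB.congr (h : PB F k f x C) (e : f =ᶠ[𝓝 x] g) : PB F k g x C := fun w hw => by
  rw [← (Dw_ev w e).self_of_nhds]; exact h w hw

theorem sa_congr (h : SA I f x) (e : f =ᶠ[𝓝 x] g) : SA I g x := h.congr_of_eventuallyEq e.symm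

theorem sa_D (h : SA I f x) (a : ι) : SA I (F.D a f) x := dv_smoothAt (F.sm a x) h

theorem sa_bil (B : N →L[ℝ] N' →L[ℝ] N'') {g : M → N'} (hf : SA I f x) (hg : SA I g x) :
    SA I (fun y => B (f y) (g y)) x := (B.contMDiff.contMDiffAt.comp x hf).clm_apply hg

theorem sa_clm (L : N →L[ℝ] N') (hf : SA I f x) : SA I (fun y => L (f y)) x :=
  L.contMDiff.contMDiffAt.comp x hf

theorem PB.const (k : ℕ) (c : N) (x : M) : PB F k (fun _ => c) x ‖c‖ := PB.of_CB (CB_const k c) x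

theorem PB.add (k : ℕ) : ∀ {f g : M → N}, SA I f x → SA I g x → PB F k f x A → PB F k g x C →
    PB F k (fun y => f y + g y) x (A + C) := by
  induction k with
  | zero => exact fun _ _ h h' => .zero' ((norm_add_le _ _).trans (add_le_add h.bd h'.bd))
  | succ k ih =>
    intro f g hf hg h h'
    refine .succ ((norm_add_le _ _).trans (add_le_add h.bd h'.bd)) fun a =>
      (ih (sa_D hf a) (sa_D hg a) (h.D a) (h'.D a)).congr ?_
    filter_upwards [hf.ev, hg.ev] with y h1 h2 using (dv_add h1 h2).symm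

theorem PB.clm (L : N →L[ℝ] N') (k : ℕ) : ∀ {f : M → N}, SA I f x → PB F k f x A →
    PB F k (fun y => L (f y)) x (‖L‖ * A) := by
  induction k with
  | zero => exact fun _ h => .zero' (L.le_opNorm_of_le h.bd)
  | succ k ih =>
    intro f hf h
    refine .succ (L.le_opNorm_of_le h.bd) fun a => (ih (sa_D hf a) (h.D a)).congr ?_
    filter_upwards [hf.ev] with y h1 using (dv_clm L h1).symm

theorem PB.bil (B : N →L[ℝ] N' →L[ℝ] N'') (k : ℕ) : ∀ {f : M → N} {g : M → N'}, SA I f x →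
    SA I g x → PB F k f x A → PB F k g x C →
      PB F k (fun y => B (f y) (g y)) x (2 ^ k * ‖B‖ * A * C) := by
  have h0 : ∀ {f : M → N} {g : M → N'}, ‖f x‖ ≤ A → ‖g x‖ ≤ C →
      ‖B (f x) (g x)‖ ≤ ‖B‖ * A * C := fun h h' =>
    (B.le_opNorm₂ _ _).trans (mul_le_mul (mul_le_mul_of_nonneg_left h B.opNorm_nonneg) h'
      (norm_nonneg _) (mul_nonneg B.opNorm_nonneg ((norm_nonneg _).trans h)))
  induction k with
  | zero => exact fun _ _ h h' => .zero' (by simpa using h0 h.bd h'.bd)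
  | succ k ih =>
    intro f g hf hg h h'
    have hn : 0 ≤ ‖B‖ * A * C := mul_nonneg (mul_nonneg B.opNorm_nonneg h.nn) h'.nn
    refine .succ ((h0 h.bd h'.bd).trans ?_) fun a => ?_
    · rw [mul_assoc (2 ^ _), mul_assoc (2 ^ _)]
      exact le_mul_of_one_le_left hn (one_le_pow₀ (by norm_num))
    · refine ((PB.add k (sa_bil B (sa_D hf a) hg) (sa_bil B hf (sa_D hg a))
        (ih (sa_D hf a) hg (h.D a) (h'.of_le k.le_succ))
        (ih hf (sa_D hg a) (h.of_le k.le_succ) (h'.D a))).mono (le_of_eq (by ring))).congr ?_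
      filter_upwards [hf.ev, hg.ev] with y h1 h2 using (dv_bil B h1 h2).symm

theorem PB.smul {χ : M → ℝ} (hχ : SA I χ x) (hf : SA I f x) (h : PB F k χ x A)
    (h' : PB F k f x C) : PB F k (fun y => χ y • f y) x (2 ^ k * A * C) := by
  refine (PB.bil (ContinuousLinearMap.lsmul ℝ ℝ) k hχ hf h h').mono ?_
  have := h.nn
  have := h'.nn
  have h1 : ‖(ContinuousLinearMap.lsmul ℝ ℝ : ℝ →L[ℝ] N →L[ℝ] N)‖ ≤ 1 :=
    ContinuousLinearMap.opNorm_lsmul_le
  gcongr
  exact mul_le_of_le_one_right (by positivity) h1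

theorem PB.of_ev_zero (k : ℕ) (h : f =ᶠ[𝓝 x] fun _ => 0) (hC : 0 ≤ C) : PB F k f x C :=
  ((PB.const k (0 : N) x).congr h.symm).mono (by simpa using hC)

/-- cutting off a function which is smooth near the support of the cut-off -/
theorem cut {χ : M → ℝ} (hχ : Sm I χ) (hA : F.CB k χ A) (hC : 0 ≤ C)
    (h : ∀ x ∈ tsupport χ, SA I f x ∧ PB F k f x C) :
    Sm I (fun y => χ y • f y) ∧ F.CB k (fun y => χ y • f y) (2 ^ k * |A| * C) := by
  have e : ∀ x ∉ tsupport χ, (fun y => χ y • f y) =ᶠ[𝓝 x] fun _ => 0 := fun x hx =>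
    (notMem_tsupport_iff_eventuallyEq.1 hx).mono fun y hy => by simp [hy]
  refine ⟨fun x => ?_, CB_of_PB fun x => ?_⟩
  · by_cases hx : x ∈ tsupport χ
    exacts [SA.smul (hχ x) (h x hx).1, sa_congr contMDiffAt_const (e x hx).symm]
  · by_cases hx : x ∈ tsupport χ
    exacts [PB.smul (hχ x) (h x hx).1 (.of_CB (CB_abs hA) x) (h x hx).2,
      .of_ev_zero k (e x hx) (by positivity)]

end pb

/-! ### families -/

section fam
variable {𝒟 : Type*} {N N' N'' : 𝒟 → Type} [∀ d, NormedAddCommGroup (N d)]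
  [∀ d, NormedSpace ℝ (N d)] [∀ d, NormedAddCommGroup (N' d)] [∀ d, NormedSpace ℝ (N' d)]
  [∀ d, NormedAddCommGroup (N'' d)] [∀ d, NormedSpace ℝ (N'' d)]
  {F : 𝒟 → Pre I M ι} {l : Filter 𝒟} {S S' : 𝒟 → Set M} {w w' : 𝒟 → M → ℝ} {k : ℕ}
  {f g : ∀ d, M → N d}

/-- uniform bounds of order `k` by the weight `w` over the sets `S` -/
def Bk (F : 𝒟 → Pre I M ι) (l : Filter 𝒟) (S : 𝒟 → Set M) (w : 𝒟 → M → ℝ) (k : ℕ)
    (f : ∀ d, M → N d) : Prop :=
  ∃ K, 0 ≤ K ∧ ∀ᶠ d in l, ∀ x ∈ S d, 0 ≤ w d x ∧ SA I (f d) x ∧ PB (F d) k (f d) x (K * w d x)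

/-- uniformly bounded families of numbers -/
def Ub (l : Filter 𝒟) (r : 𝒟 → ℝ) : Prop := ∃ K, 0 ≤ K ∧ ∀ᶠ d in l, r d ≤ K

theorem Ub.of_le {r : 𝒟 → ℝ} (K : ℝ) (h : ∀ d, r d ≤ K) : Ub l r :=
  ⟨|K|, abs_nonneg _, .of_forall fun d => (h d).trans (le_abs_self _)⟩

theorem Ub.const (r : ℝ) : Ub l fun _ => r := .of_le _ fun _ => le_rfl

namespace Bk

theorem of_le {j : ℕ} (h : Bk F l S w k f) (hj : j ≤ k) : Bk F l S w j f :=
  let ⟨K, hK, h⟩ := h
  ⟨K, hK, h.mono fun _ h x hx => ⟨(h x hx).1, (h x hx).2.1, (h x hx).2.2.of_le hj⟩⟩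

theorem mono (h : Bk F l S w k f) (hS : ∀ᶠ d in l, S' d ⊆ S d) : Bk F l S' w k f :=
  let ⟨K, hK, h⟩ := h
  ⟨K, hK, (h.and hS).mono fun _ h x hx => h.1 x (h.2 hx)⟩

theorem wt (h : Bk F l S w k f) {C : ℝ}
    (hw : ∀ᶠ d in l, ∀ x ∈ S d, 0 ≤ w' d x ∧ w d x ≤ C * w' d x) : Bk F l S w' k f :=
  let ⟨K, hK, h⟩ := h
  ⟨K * |C|, by positivity, (h.and hw).mono fun d h x hx => ⟨(h.2 x hx).1, (h.1 x hx).2.1,
    (h.1 x hx).2.2.mono (by
      rw [mul_assoc]
      exact mul_le_mul_of_nonneg_left ((h.2 x hx).2.trans (mul_le_mul_of_nonneg_right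
        (le_abs_self C) (h.2 x hx).1)) hK)⟩⟩

theorem congr (h : Bk F l S w k f) (e : ∀ᶠ d in l, ∀ x ∈ S d, f d =ᶠ[𝓝 x] g d) :
    Bk F l S w k g :=
  let ⟨K, hK, h⟩ := h
  ⟨K, hK, (h.and e).mono fun _ h x hx => ⟨(h.1 x hx).1, sa_congr (h.1 x hx).2.1 (h.2 x hx),
    (h.1 x hx).2.2.congr (h.2 x hx)⟩⟩

theorem sa (h : Bk F l S w k f) : ∀ᶠ d in l, ∀ x ∈ S d, SA I (f d) x :=
  let ⟨_, _, h⟩ := h
  h.mono fun _ h x hx => (h x hx).2.1

theorem nn (h : Bk F l S w k f) : ∀ᶠ d in l, ∀ x ∈ S d, 0 ≤ w d x :=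
  let ⟨_, _, h⟩ := h
  h.mono fun _ h x hx => (h x hx).1

theorem D (h : Bk F l S w (k + 1) f) (a : ι) : Bk F l S w k fun d => (F d).D a (f d) :=
  let ⟨K, hK, h⟩ := h
  ⟨K, hK, h.mono fun _ h x hx => ⟨(h x hx).1, sa_D (h x hx).2.1 a, (h x hx).2.2.D a⟩⟩

theorem succ (h : Bk F l S w 0 f) (h' : ∀ a, Bk F l S w k fun d => (F d).D a (f d)) :
    Bk F l S w (k + 1) f := by
  obtain ⟨K, hK, h⟩ := h
  choose K' hK' h' using h'
  have h1 : 0 ≤ ∑ a, K' a := Finset.sum_nonneg fun a _ => hK' a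
  refine ⟨K + ∑ a, K' a, by positivity, (h.and (eventually_all.2 h')).mono fun d h x hx =>
    ⟨(h.1 x hx).1, (h.1 x hx).2.1, .succ ((h.1 x hx).2.2.bd.trans ?_) fun a =>
      (h.2 a x hx).2.2.mono ?_⟩⟩
  · exact mul_le_mul_of_nonneg_right (by linarith) (h.1 x hx).1
  · exact mul_le_mul_of_nonneg_right (by
      linarith [Finset.single_le_sum (f := K') (fun a _ => hK' a) (Finset.mem_univ a)]) (h.1 x hx).1

theorem add (h : Bk F l S w k f) (h' : Bk F l S w k g) :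
    Bk F l S w k fun d x => f d x + g d x :=
  let ⟨K, hK, h⟩ := h; let ⟨K', hK', h'⟩ := h'
  ⟨K + K', by positivity, (h.and h').mono fun _ h x hx => ⟨(h.1 x hx).1,
    (h.1 x hx).2.1.add (h.2 x hx).2.1, (PB.add k (h.1 x hx).2.1 (h.2 x hx).2.1 (h.1 x hx).2.2
      (h.2 x hx).2.2).mono (add_mul _ _ _).ge⟩⟩

theorem clm {L : ∀ d, N d →L[ℝ] N' d} (hL : Ub l fun d => ‖L d‖) (h : Bk F l S w k f) :
    Bk F l S w k fun d x => L d (f d x) :=
  let ⟨K, hK, h⟩ := h; let ⟨K', hK', h'⟩ := hL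
  ⟨K' * K, by positivity, (h.and h').mono fun d h x hx => ⟨(h.1 x hx).1,
    sa_clm _ (h.1 x hx).2.1, (PB.clm (L d) k (h.1 x hx).2.1 (h.1 x hx).2.2).mono (by
      rw [mul_assoc]; exact mul_le_mul_of_nonneg_right h.2 (h.1 x hx).2.2.nn)⟩⟩

theorem bil {B : ∀ d, N d →L[ℝ] N' d →L[ℝ] N'' d} (hB : Ub l fun d => ‖B d‖) {g : ∀ d, M → N' d}
    (h : Bk F l S w k f) (h' : Bk F l S w' k g) :
    Bk F l S (fun d x => w d x * w' d x) k fun d x => B d (f d x) (g d x) :=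
  let ⟨K, hK, h⟩ := h; let ⟨K', hK', h'⟩ := h'; let ⟨C, hC, hB⟩ := hB
  ⟨2 ^ k * C * K * K', by positivity, ((h.and h').and hB).mono fun d h x hx =>
    ⟨mul_nonneg (h.1.1 x hx).1 (h.1.2 x hx).1, sa_bil _ (h.1.1 x hx).2.1 (h.1.2 x hx).2.1,
      (PB.bil (B d) k (h.1.1 x hx).2.1 (h.1.2 x hx).2.1 (h.1.1 x hx).2.2 (h.1.2 x hx).2.2).mono (by
        have := (h.1.1 x hx).1
        have := (h.1.2 x hx).1
        calc _ ≤ 2 ^ k * C * (K * w d x) * (K' * w' d x) := by gcongr; exact h.2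
          _ = _ := by ring)⟩⟩

theorem bilL {B : ∀ d, N d →L[ℝ] N' d →L[ℝ] N'' d} (hB : Ub l fun d => ‖B d‖) {g : ∀ d, M → N' d}
    (h : Bk F l S w k f) (h' : Bk F l S 1 k g) :
    Bk F l S w k fun d x => B d (f d x) (g d x) := by
  simpa only [Pi.one_apply, mul_one] using bil hB h h'

theorem bilR {B : ∀ d, N d →L[ℝ] N' d →L[ℝ] N'' d} (hB : Ub l fun d => ‖B d‖) {g : ∀ d, M → N' d}
    (h : Bk F l S 1 k f) (h' : Bk F l S w k g) :
    Bk F l S w k fun d x => B d (f d x) (g d x) := by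
  simpa only [Pi.one_apply, one_mul] using bil hB h h'

theorem neg (h : Bk F l S w k f) : Bk F l S w k fun d x => -f d x :=
  h.clm (L := fun d => -ContinuousLinearMap.id ℝ (N d))
    (.of_le 1 fun _ => by simpa using ContinuousLinearMap.norm_id_le)

theorem sub (h : Bk F l S w k f) (h' : Bk F l S w k g) :
    Bk F l S w k fun d x => f d x - g d x := by
  simpa only [sub_eq_add_neg] using h.add h'.neg

theorem zero (hw : ∀ᶠ d in l, ∀ x ∈ S d, 0 ≤ w d x) : Bk F l S w k fun d _ => (0 : N d) :=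
  ⟨0, le_rfl, hw.mono fun _ h x hx => ⟨h x hx, contMDiffAt_const,
    .of_ev_zero k EventuallyEq.rfl (by simp)⟩⟩

theorem sum {κ : Type*} (s : Finset κ) {f : κ → ∀ d, M → N d}
    (hw : ∀ᶠ d in l, ∀ x ∈ S d, 0 ≤ w d x) (h : ∀ i ∈ s, Bk F l S w k (f i)) :
    Bk F l S w k fun d x => ∑ i ∈ s, f i d x := by
  classical
  induction s using Finset.induction_on with
  | empty => simpa using zero hw
  | insert a s ha ih =>
    simp only [Finset.sum_insert ha]
    exact (h a (Finset.mem_insert_self _ _)).add (ih fun i hi => h i (Finset.mem_insert_of_mem hi))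

theorem const {c : ∀ d, N d} (h : Ub l fun d => ‖c d‖) : Bk F l S 1 k fun d _ => c d :=
  let ⟨K, hK, h⟩ := h
  ⟨K, hK, h.mono fun d h x _ => ⟨zero_le_one, contMDiffAt_const,
    (PB.const k (c d) x).mono (by simpa using h)⟩⟩

theorem of_CB {C : ℝ} (h : ∀ᶠ d in l, Sm I (f d) ∧ (F d).CB k (f d) C) : Bk F l S 1 k f :=
  ⟨|C|, abs_nonneg _, h.mono fun _ h x _ => ⟨zero_le_one, h.1 x,
    (PB.of_CB (CB_abs h.2) x).mono (by simp)⟩⟩

theorem of_CBs {C : ℕ → ℝ} (h : ∀ᶠ d in l, (F d).CBs (f d) C) : Bk F l S 1 k f :=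
  of_CB (h.mono fun _ h => ⟨h.1, h.2 k⟩)

theorem of_Cb {N : Type} [NormedAddCommGroup N] [NormedSpace ℝ N] {f : M → N} {F : Pre I M ι}
    (h : F.Cb f) : Bk (N := fun _ => N) (fun _ => F) l S 1 k fun _ => f :=
  let ⟨_, h⟩ := h; of_CBs (.of_forall fun _ => h)

theorem comap {𝒟' : Type*} {l' : Filter 𝒟'} {φ : 𝒟' → 𝒟} (hφ : Tendsto φ l' l)
    (h : Bk F l S w k f) :
    Bk (fun d => F (φ d)) l' (fun d => S (φ d)) (fun d => w (φ d)) k fun d => f (φ d) :=
  let ⟨K, hK, h⟩ := h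
  ⟨K, hK, hφ.eventually h⟩

theorem appL {T : ∀ d, M → N d →L[ℝ] N' d} (h : Bk F l S w k T) (h' : Bk F l S 1 k f) :
    Bk F l S w k fun d x => T d x (f d x) :=
  bilL (B := fun d => ContinuousLinearMap.id ℝ (N d →L[ℝ] N' d))
    (.of_le 1 fun _ => ContinuousLinearMap.norm_id_le) h h'

theorem appR {T : ∀ d, M → N d →L[ℝ] N' d} (h : Bk F l S 1 k T) (h' : Bk F l S w k f) :
    Bk F l S w k fun d x => T d x (f d x) :=
  bilR (B := fun d => ContinuousLinearMap.id ℝ (N d →L[ℝ] N' d))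
    (.of_le 1 fun _ => ContinuousLinearMap.norm_id_le) h h'

theorem smulL {r : 𝒟 → M → ℝ} (h : Bk (N := fun _ => ℝ) F l S w k r) (h' : Bk F l S 1 k f) :
    Bk F l S w k fun d x => r d x • f d x :=
  bilL (B := fun d => ContinuousLinearMap.lsmul ℝ ℝ (E := N d))
    (.of_le 1 fun _ => ContinuousLinearMap.opNorm_lsmul_le) h h'

theorem smulR {r : 𝒟 → M → ℝ} (h : Bk (N := fun _ => ℝ) F l S 1 k r) (h' : Bk F l S w k f) :
    Bk F l S w k fun d x => r d x • f d x :=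
  bilR (B := fun d => ContinuousLinearMap.lsmul ℝ ℝ (E := N d))
    (.of_le 1 fun _ => ContinuousLinearMap.opNorm_lsmul_le) h h'

theorem nn1 : ∀ᶠ d in l, ∀ x ∈ S d, 0 ≤ (1 : 𝒟 → M → ℝ) d x := .of_forall fun _ _ _ => zero_le_one

end Bk

/-! ### composition with smooth maps -/

section comp
variable {P : Type} [NormedAddCommGroup P] [NormedSpace ℝ P] [FiniteDimensional ℝ P]
  {u v : 𝒟 → M → P}

theorem D_comp_ev {F : Pre I M ι} {Q : Type} [NormedAddCommGroup Q] [NormedSpace ℝ Q] {φ : P → Q}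
    (hφ : ContDiff ℝ ∞ φ) {u : M → P} {x : M} (hu : SA I u x) (a : ι) :
    (fun y => fderiv ℝ φ (u y) (F.D a u y)) =ᶠ[𝓝 x] F.D a fun y => φ (u y) := by
  filter_upwards [hu.ev] with y hy using
    (dv_comp hy ((hφ.differentiable (by simp)) _).hasFDerivAt).symm

theorem Bk.comp (k : ℕ) : ∀ {Q : Type} [NormedAddCommGroup Q] [NormedSpace ℝ Q] {φ : P → Q},
    ContDiff ℝ ∞ φ → Bk F l S 1 k u → Bk (N := fun _ => Q) F l S 1 k fun d x => φ (u d x) := by
  have h0 : ∀ {Q : Type} [NormedAddCommGroup Q] [NormedSpace ℝ Q] {φ : P → Q},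
      ContDiff ℝ ∞ φ → Bk F l S 1 0 u → Bk (N := fun _ => Q) F l S 1 0 fun d x => φ (u d x) := by
    intro Q _ _ φ hφ ⟨K, _, h⟩
    have := FiniteDimensional.proper_real P
    obtain ⟨C, hC⟩ := (isCompact_closedBall (0 : P) K).exists_bound_of_continuousOn
      hφ.continuous.continuousOn
    exact ⟨|C|, abs_nonneg _, h.mono fun d h x hx => ⟨zero_le_one,
      hφ.contMDiff.contMDiffAt.comp x (h x hx).2.1, .zero' (by
        simpa using (hC _ (by simpa using (h x hx).2.2.bd)).trans (le_abs_self C))⟩⟩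
  induction k with
  | zero => exact h0
  | succ k ih =>
    intro Q _ _ φ hφ h
    refine (h0 hφ (h.of_le (Nat.zero_le _))).succ fun a =>
      ((ih (hφ.fderiv_right (m := ∞) le_rfl) (h.of_le k.le_succ)).appL (h.D a)).congr ?_
    exact h.sa.mono fun d hd x hx => D_comp_ev hφ (hd x hx) a

theorem Bk.comp_sub (k : ℕ) : ∀ {Q : Type} [NormedAddCommGroup Q] [NormedSpace ℝ Q] {φ : P → Q},
    ContDiff ℝ ∞ φ → Bk F l S 1 k u → Bk F l S 1 k v → (Bk F l S w k fun d x => u d x - v d x) →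
      Bk (N := fun _ => Q) F l S w k fun d x => φ (u d x) - φ (v d x) := by
  have h0 : ∀ {Q : Type} [NormedAddCommGroup Q] [NormedSpace ℝ Q] {φ : P → Q},
      ContDiff ℝ ∞ φ → Bk F l S 1 0 u → Bk F l S 1 0 v → (Bk F l S w 0 fun d x => u d x - v d x) →
        Bk (N := fun _ => Q) F l S w 0 fun d x => φ (u d x) - φ (v d x) := by
    intro Q _ _ φ hφ ⟨K, _, h⟩ ⟨K', _, h'⟩ ⟨K'', _, h''⟩
    have := FiniteDimensional.proper_real P
    obtain ⟨C, hC⟩ := (isCompact_closedBall (0 : P) (K + K')).exists_bound_of_continuousOn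
      (hφ.continuous_fderiv (by simp)).continuousOn
    refine ⟨|C| * K'', by positivity, ((h.and h').and h'').mono fun d h x hx => ⟨(h.2 x hx).1,
      (hφ.contMDiff.contMDiffAt.comp x (h.1.1 x hx).2.1).sub
        (hφ.contMDiff.contMDiffAt.comp x (h.1.2 x hx).2.1), .zero' ?_⟩⟩
    have h1 : ‖u d x‖ ≤ K := by simpa using (h.1.1 x hx).2.2.bd
    have h2 : ‖v d x‖ ≤ K' := by simpa using (h.1.2 x hx).2.2.bd
    refine ((convex_closedBall (0 : P) (K + K')).norm_image_sub_le_of_norm_fderiv_le (C := |C|)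
      (fun y _ => hφ.differentiable (by simp) y) (fun y hy => (hC y hy).trans (le_abs_self C))
      (by simp only [mem_closedBall_zero_iff]; linarith)
      (by simp only [mem_closedBall_zero_iff]; linarith)).trans ?_
    rw [mul_assoc]
    exact mul_le_mul_of_nonneg_left (h.2 x hx).2.2.bd (abs_nonneg C)
  induction k with
  | zero => exact h0
  | succ k ih =>
    intro Q _ _ φ hφ h h' h''
    have hφ' := hφ.fderiv_right (m := ∞) le_rfl
    refine (h0 hφ (h.of_le (Nat.zero_le _)) (h'.of_le (Nat.zero_le _))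
      (h''.of_le (Nat.zero_le _))).succ fun a =>
      (((ih hφ' (h.of_le k.le_succ) (h'.of_le k.le_succ) (h''.of_le k.le_succ)).appL
        (h.D a)).add ((Bk.comp k hφ' (h'.of_le k.le_succ)).appR (h''.D a))).congr ?_
    filter_upwards [h.sa, h'.sa] with d hd hd' x hx
    have s1 := hφ.contMDiff.contMDiffAt.comp x (hd x hx)
    have s2 := hφ.contMDiff.contMDiffAt.comp x (hd' x hx)
    filter_upwards [D_comp_ev (F := F d) hφ (hd x hx) a, D_comp_ev (F := F d) hφ (hd' x hx) a,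
      (hd x hx).ev, (hd' x hx).ev, SA.ev s1, SA.ev s2] with y e1 e2 m1 m2 m3 m4
    have e3 : (F d).D a (fun y => u d y - v d y) y = (F d).D a (u d) y - (F d).D a (v d) y := dv_sub m1 m2
    have e4 : (F d).D a (fun y => φ (u d y) - φ (v d y)) y
        = (F d).D a (fun y => φ (u d y)) y - (F d).D a (fun y => φ (v d y)) y := dv_sub m3 m4
    rw [e4, e3, ← e1, ← e2]
    simp only [sub_apply, map_sub]
    abel

end comp
end fam

end Crest.Agent.X212.Rsp69
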