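import Crest.Agent.X212.Rsp69.Tw

/-! Row 212, RESP (helper69): pairs of configurations, their densities and seeds. -/

set_option autoImplicit false
set_option linter.unusedSectionVars false
noncomputable section
open scoped Manifold ContDiff Topology InnerProductSpace
open MeasureTheory Set Function Filter Real

namespace Crest.Agent.X212.Rsp69
open An Sob92 Wz78 Dgr80
open Mp86 (Mc nf)
open Wrd81 (wd)

variable {E : Type} [NormedAddCommGroup E] [NormedSpace ℝ E] [FiniteDimensional ℝ E]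
  [MeasurableSpace E] [BorelSpace E]
  {HM : Type} [TopologicalSpace HM] {I : ModelWithCorners ℝ E HM} [I.Boundaryless]
  {M : Type} [TopologicalSpace M] [ChartedSpace HM M] [IsManifold I ∞ M]
  [MeasurableSpace M] [T2Space M] [BorelSpace M] [SecondCountableTopology M]
  {ι : Type} [Fintype ι] {𝒟 : Type*} {lam : Type} [Fintype lam]

theorem cls_cb {V : Type} [NormedAddCommGroup V] [InnerProductSpace ℝ V] [FiniteDimensional ℝ V]
    {F : Fr I M ι} {A : ι → M → CL V V} (h : Cyc79.Ok F A) : Mc I A ∧ Cls F A F.Cb :=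
  have k := fun u (hu : F.Cb u) => Mon62.re_tame h.tame.choose_spec h.cb h.sk hu
  ⟨h.mc, fun _ => Cb.sm, fun u hu => (k u hu).1, fun u hu => (k u hu).2⟩

/-- `u ⊗ v*` as a bilinear map -/
def rkL (κ : Type) [Fintype κ] [DecidableEq κ] : CL (Eu κ) (CL (Eu κ) (HS κ)) :=
  (ContinuousLinearMap.compL ℝ (Eu κ) (En κ) (HS κ) hsL) ∘L
    (((ContinuousLinearMap.smulRightL ℝ (Eu κ) (Eu κ)) ∘L innerSL ℝ).flip)

namespace Tw
open Cx
variable {X : Cx I M ι 𝒟} (T : Tw X lam)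

/-- pairs of configurations in the same fibre -/
structure CF (N : ℕ) where
  r : 𝒟 → Bool → ℕ
  J : 𝒟 → En (Fin N)
  p : T.Sc fun _ => En (Fin N)
  ρ : ∀ d i, ι → (T.S d i).M → En (Fin N)
  j : T.Sc fun _ => CL (Eu lam) (En (Fin N))
  W : ∀ d i, ι → (T.S d i).M → En (Fin N)
  Φ : T.Sc fun _ => Eu (Fin N)
  z : ∀ d i, EuclideanSpace ℂ (Fin (r d i))

/-- functions whose differential lies in the class -/
def Cd (n : ℕ) (g : T.Fn) : Prop := ∀ a, T.EC n fun d i => (T.F d i).D a (g d i)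

/-- admissible letters of spinor words -/
inductive LtY (n : ℕ) : (∀ d i, Lt (T.S d i).M) → Prop
  | mul {f} : T.EC n f → LtY n fun d i => .mul (f d i)
  | cl {g} : T.Cd n g → LtY n fun d i => .cl (g d i)
  | im : LtY n fun _ _ => .im
  | G : LtY n fun _ _ => .G

/-- admissible letters of adjoint words -/
inductive LaY (n : ℕ) : (∀ d i, La (T.S d i).M) → Prop
  | mul {f} : T.EC n f → LaY n fun d i => .mul (f d i)
  | G : LaY n fun _ _ => .G

variable {T} {N n k : ℕ}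

theorem EC.mul (hn : 7 ≤ n) {f g : T.Fn} (h : T.EC n f) (h' : T.EC n g) :
    T.EC (N := fun _ => ℝ) n fun d i x => f d i x * g d i x := h.smul hn le_rfl h'

theorem EC.c (a b l : ι) : T.EC (N := fun _ => ℝ) k fun d i => (T.F d i).c a b l :=
  .fixed (T.tame.mono fun _ h i => (h i).c a b l) (T.rel.mono fun _ _ h =>
    ((h.2 _).1.c (h.2 _).2.1 a b l).symm.trans ((h.2 _).1.c (h.2 _).2.1 a b l))

theorem EC.nrm {P : Type} [NormedAddCommGroup P] [InnerProductSpace ℝ P] [FiniteDimensional ℝ P]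
    (hn : 8 ≤ n) {u : T.Sc fun _ => P} (h : T.EC n u) :
    T.EC (N := fun _ => P) n fun d i x => nrm (u d i x) := h.comp contDiff_nv hn

theorem EL.nrm {P : Type} [NormedAddCommGroup P] [InnerProductSpace ℝ P] [FiniteDimensional ℝ P]
    (hn : 8 ≤ n) {u : T.Sc fun _ => P} (h : T.EL n u) :
    T.EL (N := fun _ => P) n fun d i x => nrm (u d i x) := h.comp contDiff_nv hn

theorem slk_mul {V : 𝒟 → Type} [∀ d, NormedAddCommGroup (V d)] [∀ d, InnerProductSpace ℝ (V d)]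
    [∀ d, CompleteSpace (V d)] (hn : 7 ≤ n) {f : T.Fn} (h : T.EC n f) :
    T.SLk (fun d i => (T.F d i).Cb) n fun d i => .op fun x => f d i x • (1 : CL (V d) (V d)) :=
  .op hn (h.smul hn le_rfl (.const (.of_le 1 fun _ => ContinuousLinearMap.norm_id_le)))

namespace CF
variable (κ : T.CF N)

/-- spinors -/
abbrev SV (_ : T.CF N) : 𝒟 → Type := fun _ => Eu (Fin N)
/-- adjoint sections -/
abbrev SA (_ : T.CF N) : 𝒟 → Type := fun _ => HS (Fin N)
/-- adjoint one-forms -/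
abbrev S1 (_ : T.CF N) : 𝒟 → Type := fun _ => Fm ι (HS (Fin N))
/-- adjoint two-forms -/
abbrev S2 (_ : T.CF N) : 𝒟 → Type := fun _ => Fm (ι × ι) (HS (Fin N))

abbrev m (d : 𝒟) (i : Bool) : Md (T.S d i).M ι lam := ⟨N, κ.J d, κ.p d i, κ.ρ d i, κ.j d i⟩

abbrev c (d : 𝒟) (i : Bool) : Cfg (T.S d i).M ι lam (κ.r d i) := ⟨κ.m d i, κ.W d i, κ.Φ d i, κ.z d i⟩

abbrev A (d : 𝒟) (i : Bool) : ι → (T.S d i).M → En (Fin N × Fin N) := (κ.m d i).adW (κ.W d i)

/-- contractions of the curvature -/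
abbrev fg (φ : ι × ι → T.Fn) : T.Sc κ.SA := fun d i x =>
  ∑ s : ι × ι, φ s d i x • (κ.m d i).Fg (T.F d i) (κ.W d i) x s

/-- densities with gradients -/
structure DenS (n : ℕ) (D : ∀ d i, Den (T.S d i).M ι lam (κ.r d i)) : Prop where
  h : T.EC (N := fun _ => ℝ) n fun d i => (D d i).h (κ.c d i)
  gA : ∀ f, T.EC n f → T.EL (N := κ.S1) n fun d i => (D d i).gA (κ.c d i) (f d i)
  gP : ∀ f, T.EC n f → T.EL (N := κ.SV) n fun d i => (D d i).gP (κ.c d i) (f d i)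

/-- seeds with gradients -/
structure SedS (n : ℕ) (S : ∀ d i, Sed (T.S d i).M ι lam (κ.r d i)) : Prop where
  s : T.EC (N := κ.SA) n fun d i => (S d i).s (κ.c d i)
  sA : ∀ l : T.Sc κ.SA, T.EC n l → T.EL (N := κ.S1) n fun d i => (S d i).sA (κ.c d i) (l d i)
  sP : ∀ l : T.Sc κ.SA, T.EC n l → T.EL (N := κ.SV) n fun d i => (S d i).sP (κ.c d i) (l d i)

/-- the hypotheses on a pair; the curvature is controlled over the sets `Z` -/
structure OK (Z : ∀ d i, Set (T.S d i).M) (n : ℕ) : Prop where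
  hn : 8 ≤ n
  gd : ∀ᶠ d in X.l, ∀ i, Gd (T.S d i).B (T.S d i).G (κ.c d i)
  J : Ub X.l fun d => ‖κ.J d‖
  W : ∀ a, T.EL n fun d i => κ.W d i a
  Φ : T.EC n κ.Φ
  ρ : ∀ a, T.EC n fun d i => κ.ρ d i a
  j : T.EC n κ.j
  pg : T.EC (N := fun _ => En (Fin N × Fin N)) n fun d i => (κ.m d i).pg
  cv : ∀ φ : ι × ι → T.Fn, (∀ s, T.EC n (φ s)) → (∀ s d i, ∀ x ∉ Z d i, φ s d i x = 0) →
    (∀ i, X.Hk 1 0 fun d x => (T.F d i).res (κ.A d i) (κ.fg φ d i) (T.ψ d i x)) ∧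
      T.U (N := κ.SA) fun d i => (T.F d i).res (κ.A d i) ((T.F d i).res (κ.A d i) (κ.fg φ d i))

variable {κ}

theorem DenS.sed (hn : 7 ≤ n) {S S' : ∀ d i, Sed (T.S d i).M ι lam (κ.r d i)} (h : κ.SedS n S)
    (h' : κ.SedS n S') : κ.DenS n fun d i => Den.sed (S d i) (S' d i) :=
  ⟨h.s.inner hn h'.s, fun _ hf => (h.sA _ (hf.smul hn le_rfl h'.s)).add
    (h'.sA _ (hf.smul hn le_rfl h.s)), fun _ hf => (h.sP _ (hf.smul hn le_rfl h'.s)).add
    (h'.sP _ (hf.smul hn le_rfl h.s))⟩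

namespace OK
variable {Z : ∀ d i, Set (T.S d i).M} (h : κ.OK Z n) {u v : ∀ d i, SW (T.S d i).M}
  {w : ∀ d i, List (La (T.S d i).M)} {f g g' : T.Fn}
include h

theorem h7 : 7 ≤ n := h.hn.trans' (by omega)

theorem engV : T.Eng (V := κ.SV) (fun d i => (T.F d i).Cb) n κ.W :=
  ⟨h.hn, h.W, h.gd.mono fun _ h i => cls_cb (h i).ppS.toOk⟩

theorem elA (a : ι) : T.EL (N := fun _ => En (Fin N × Fin N)) n fun d i => κ.A d i a :=
  (h.W a).clm (L := fun _ => adcL) (.const _)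

theorem engA : T.Eng (V := κ.SA) (fun d i => (T.F d i).Cb) n κ.A :=
  ⟨h.hn, h.elA, h.gd.mono fun _ h i => cls_cb (h i).pp.toOk⟩

theorem ltS (hu : Fa (T.LtY n) u) : Fa (T.SLk (V := κ.SV) (fun d i => (T.F d i).Cb) n)
    fun d i => (u d i).map (ltS (T.F d i) (κ.c d i)) := hu.map fun t ht => by
  cases ht with
  | mul hf => exact slk_mul h.h7 hf
  | cl hg => exact .op h.h7 (.sum _ fun a _ => (hg a).smul h.h7 le_rfl (h.ρ a))
  | im => exact .op h.h7 (.const h.J)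
  | G => exact .inr rfl

theorem laS (hw : Fa (T.LaY n) w) : Fa (T.SLk (V := κ.SA) (fun d i => (T.F d i).Cb) n)
    fun d i => (w d i).map (laS (κ.c d i)) := hw.map fun t ht => by
  cases ht with
  | mul hf => exact slk_mul h.h7 hf
  | G => exact .inr rfl

theorem wdV (hu : Fa (T.LtY n) u) {s : T.Sc κ.SV} (hs : T.EC n s) :
    T.EC (N := κ.SV) n fun d i => wd ((κ.c d i).lt (T.F d i)) (s d i) (u d i) :=
  (h.engV.wd (h.ltS hu) hs).congr' fun d i => congrFun (lt_eq (T.F d i) (κ.c d i) _ _).symm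

theorem wdA (hw : Fa (T.LaY n) w) {s : T.Sc κ.SA} (hs : T.EC n s) :
    T.EC (N := κ.SA) n fun d i => wd ((κ.c d i).la (T.F d i)) (s d i) (w d i) :=
  (h.engA.wd (h.laS hw) hs).congr' fun d i => congrFun (la_eq (T.F d i) (κ.c d i) _ _).symm

theorem sw (hu : Fa (T.LtY n) u) : T.EC (N := κ.SV) n fun d i => (κ.c d i).sw (T.F d i) (u d i) :=
  h.wdV hu h.Φ

theorem nP : T.EC (N := κ.SV) n fun d i => nP (κ.c d i) := h.Φ.nrm h.hn

theorem nw (hu : Fa (T.LtY n) u) : T.EC (N := κ.SV) n fun d i => nw (T.F d i) (κ.c d i) (u d i) :=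
  h.wdV hu h.nP

theorem dn {l : T.Sc κ.SV} (hl : T.EC n l) : T.EL (N := κ.SV) n fun d i => dn (κ.c d i) (l d i) :=
  ((h.Φ.el.comp (contDiff_nv.fderiv_right (m := ∞) le_rfl) h.hn).app h.h7 le_rfl hl.el).congr'
    fun d i x => (dn_eq (c := κ.c d i) (l d i) x).symm

theorem pk_one : T.EC (N := fun _ => En (Fin N)) n fun d i => pk (κ.c d i) .one :=
  .const (c := fun _ => 1) (.const _)

theorem pk_re {s : T.Sc fun _ => Eu lam} (hs : T.EC n s) :
    T.EC (N := fun _ => En (Fin N)) n fun d i => pk (κ.c d i) (.re (s d i)) :=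
  h.j.app h.h7 le_rfl hs

theorem pk_im {s : T.Sc fun _ => Eu lam} (hs : T.EC n s) :
    T.EC (N := fun _ => En (Fin N)) n fun d i => pk (κ.c d i) (.im (s d i)) :=
  (EC.const h.J).bil h.h7 le_rfl (B := fun _ => ContinuousLinearMap.mul ℝ _) (.const _) (h.pk_re hs)

theorem denSw {P : ∀ d i, Pk (T.S d i).M lam}
    (hP : T.EC (N := fun _ => En (Fin N)) n fun d i => pk (κ.c d i) (P d i))
    (hu : Fa (T.LtY n) u) (hv : Fa (T.LtY n) v) :
    κ.DenS n fun d i => Den.sw (T.F d i) (P d i) (u d i) (v d i) :=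
  have m : ∀ {f} {u : ∀ d i, SW (T.S d i).M}, T.EC n f → Fa (T.LtY n) u →
      T.EC (N := κ.SV) n fun d i x =>
        f d i x • pk (κ.c d i) (P d i) x (Dgr80.nw (T.F d i) (κ.c d i) (u d i) x) := fun hf hu =>
    hf.smul h.h7 le_rfl (hP.app h.h7 le_rfl (h.nw hu))
  ⟨(hP.app h.h7 le_rfl (h.nw hu)).inner h.h7 (h.nw hv),
    fun _ hf => (h.engV.gc (r := fun _ => opL) (.of_le ‖opL (κ := Fin N)‖ fun _ => le_rfl) h.nP
      (h.ltS hu) (m hf hv)).add (h.engV.gc (r := fun _ => opL)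
        (.of_le ‖opL (κ := Fin N)‖ fun _ => le_rfl) h.nP (h.ltS hv) (m hf hu)),
    fun _ hf => (h.dn (h.engV.bk (h.ltS hu) (m hf hv))).add
      (h.dn (h.engV.bk (h.ltS hv) (m hf hu)))⟩

theorem sedWd {S : ∀ d i, Sed (T.S d i).M ι lam (κ.r d i)} (hS : κ.SedS n S)
    (hw : Fa (T.LaY n) w) : κ.SedS n fun d i => (S d i).wd (T.F d i) (w d i) :=
  ⟨h.wdA hw hS.s, fun _ hl => (h.engA.gc (r := fun _ => adR _) (.of_le ‖adR (Fin N)‖ fun _ => le_rfl)
    hS.s (h.laS hw) hl).add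
    (hS.sA _ (h.engA.bk (h.laS hw) hl)), fun _ hl => hS.sP _ (h.engA.bk (h.laS hw) hl)⟩

theorem Fg (hk : k + 1 ≤ n) (s : ι × ι) :
    T.EL (N := κ.SA) k fun d i x => (κ.m d i).Fg (T.F d i) (κ.W d i) x s :=
  have W := fun a => (h.W a).of_le (Nat.le_of_succ_le hk)
  have m := fun a b => (h.W a).bil h.h7 (Nat.le_of_succ_le hk)
    (B := fun _ => ContinuousLinearMap.mul ℝ _) (.const _) (W b)
  h.pg.el.app h.h7 (by omega) (EL.clm (L := fun _ => hsL) (.const _)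
    ((((((h.W _).of_le hk).D _).sub (((h.W _).of_le hk).D _)).add ((m s.1 s.2).sub (m s.2 s.1))).sub
      (.sum _ fun l _ => (EC.c _ _ l).el.smul h.h7 (by omega) (W l))))

theorem cvS {φ : ι × ι → T.Fn} (hφ : ∀ s, T.EC n (φ s)) (h0 : ∀ s d i, ∀ x ∉ Z d i, φ s d i x = 0) :
    T.EC (N := κ.SA) n fun d i =>
      (T.F d i).res (κ.A d i) ((T.F d i).res (κ.A d i) (κ.fg φ d i)) := by
  have := h.hn
  obtain ⟨n, rfl⟩ : ∃ m, n = m + 2 := ⟨n - 2, by omega⟩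
  obtain ⟨h1, h2⟩ := h.cv φ hφ h0
  have q : ∀ᶠ d in X.l, ∀ i, (T.F d i).Cb (κ.fg φ d i) :=
    ((h.gd.and (eventually_all.2 fun s => (hφ s).q)).and T.tame).mono fun d h i =>
      Cb_sum _ fun s _ => Cb_smul (h.1.2 s i) (Cb_app (h.1.1 i).pg (Cb_clm hsL (Cb.sub (Cb.add
        (Cb.sub (Cb_D ((h.1.1 i).W _) _) (Cb_D ((h.1.1 i).W _) _))
        (Cb.sub (Cb_comp ((h.1.1 i).W _) ((h.1.1 i).W _)) (Cb_comp ((h.1.1 i).W _) ((h.1.1 i).W _))))
        (Cb_sum _ fun l _ => Cb_smul ⟨_, (h.2 i).c _ _ l⟩ ((h.1.1 i).W l)))))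
  have e1 := h.engA.res' (k := n) (by omega) q (.sum _ fun s _ =>
    (hφ s).el.smul h.h7 (by omega) (h.Fg (by omega) s)) h1
  exact ⟨h.engA.resQ (h.engA.resQ q), h2, h.engA.res' (k := n) (by omega) (h.engA.resQ q)
    (e1.of_le (by omega)) (h2.hk (.of_forall fun _ _ => Mp86.sm_res _ _ _))⟩

theorem cvY (hf : T.EC n f) (h0 : ∀ d i, ∀ x ∉ Z d i, f d i x = 0) (hg : T.Cd n g)
    (hg' : T.Cd n g') :
    T.EC (N := κ.SA) n fun d i => (κ.c d i).sd (T.F d i) (.cv (f d i) (g d i) (g' d i)) :=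
  h.cvS (fun s => (hf.mul h.h7 (hg s.1)).mul h.h7 (hg' s.2)) fun s d i x hx => by simp [h0 d i x hx]

theorem qY (hu : Fa (T.LtY n) u) (hv : Fa (T.LtY n) v) :
    T.EC (N := κ.SA) n fun d i => (κ.c d i).sd (T.F d i) (.q (u d i) (v d i)) :=
  h.pg.app h.h7 le_rfl ((h.sw hu).bil h.h7 le_rfl (B := fun _ => rkL (Fin N)) (.const _) (h.sw hv))

/-- the two-form `dg ∧ dg' ⊗ ξ` -/
theorem wedge (hg : T.Cd n g) (hg' : T.Cd n g') {ξ : T.Sc κ.SA} (hξ : T.EL n ξ) :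
    T.EL (N := κ.S2) n fun d i x => WithLp.toLp 2 fun s : ι × ι =>
      ((T.F d i).D s.1 (g d i) x * (T.F d i).D s.2 (g' d i) x) • ξ d i x :=
  EL.toLp fun s => ((hg s.1).mul h.h7 (hg' s.2)).el.smul h.h7 le_rfl hξ

/-- the covariant derivative of the spinor along the gradient of `g` (one level lower) -/
theorem ntΦ (hk : k + 1 ≤ n) (hg : T.Cd n g) :
    T.EL (N := κ.SV) k fun d i => nt (T.F d i) (κ.W d i) (g d i) (κ.Φ d i) :=
  .sum _ fun a _ => (hg a).el.smul h.h7 (by omega)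
    ((h.Φ.el.of_le hk).nab h.h7 (by omega) h.W a)

end OK
end CF
end Tw

end Crest.Agent.X212.Rsp69
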