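import Crest.Agent.X212.Rsp69.Tm

/-! Row 212, RESP (helper69): the neck terms of two configurations which are close on a band. -/

set_option autoImplicit false
set_option linter.unusedSectionVars false
noncomputable section
open scoped Manifold ContDiff Topology InnerProductSpace
open MeasureTheory Set Function Filter Real

namespace Crest.Agent.X212.Rsp69
open An Cyf70 Dgr80 Sob92 Nd18 Nka63
open Cyc79 (Cy)

theorem contDiff_nr : ContDiff ℝ ∞ fun t : ℝ => t / √(1 + t ^ 2) :=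
  contDiff_id.div ((contDiff_const.add (contDiff_id.pow 2)).sqrt fun _ => by positivity)
    fun _ => by positivity

theorem contDiff_out {C : YTC} (h : ContDiff ℝ ∞ C.k) : ContDiff ℝ ∞ C.out.k :=
  (contDiff_nr.comp (contDiff_apply ℝ ℝ (0 : Fin (C.m + 1)))).mul
    (h.comp (contDiff_pi.2 fun i => contDiff_apply ℝ ℝ i.succ))

variable {E3 : Type} [NormedAddCommGroup E3] [NormedSpace ℝ E3] [FiniteDimensional ℝ E3]
  [MeasurableSpace E3] [BorelSpace E3]
  {H3 : Type} [TopologicalSpace H3] {I3 : ModelWithCorners ℝ E3 H3} [I3.Boundaryless]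
  {Y : Type} [TopologicalSpace Y] [ChartedSpace H3 Y] [IsManifold I3 ∞ Y] [T2Space Y]
  [MeasurableSpace Y] [BorelSpace Y] [SecondCountableTopology Y] [CompactSpace Y]
  {κ : Type} [Fintype κ] {lam : Type} [Fintype lam] {D : YD I3 Y κ lam} {𝒟 : Type*}

theorem contDiff_cx (N : ND Y lam) : ContDiff ℝ ∞ N.cx :=
  (contDiff_pi.2 fun _ => contDiff_apply ℝ ℝ _).prodMk (contDiff_pi.2 fun j =>
    Complex.equivRealProdCLM.symm.contDiff.comp
      ((contDiff_apply ℝ ℝ (Sum.inr (Sum.inl j) : N.J)).prodMk (contDiff_apply ℝ ℝ _)))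

/-- convolution in time as a window integral -/
theorem cv_eq {S : Mf (Option κ) lam} (K : Nk D S.B S.G) (δ : ℝ) (g : ℝ → ℝ) (x : S.M) :
    cv δ (fun t => K.cut 3 t * g t) (K.τ x) * K.χ x = (vY D)⁻¹ *
      wn S.G.F.μ K.τ δ (fun z => K.cut 3 (K.τ z) * g (K.τ z)) (K.τ x + 0) * K.χ x := by
  by_cases h : K.χ x = 0
  · simp [h]
  have : Nonempty Y := ⟨(K.ψ.symm x).1⟩
  have := openPos D.F.toPre
  have h0 : vY D ≠ 0 :=
    (ENNReal.toReal_pos (isOpen_univ.measure_pos _ univ_nonempty).ne' (measure_ne_top _ _)).ne'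
  have h1 : ∀ s, K.cut 3 s * K.cut 1 s = K.cut 3 s := fun s => by
    by_cases e : s ∈ Dp K.p K.q 3
    · rw [show K.cut 1 s = 1 from ct_one (Dp_mono (by norm_num) e), mul_one]
    · rw [show K.cut 3 s = 0 from ct_zero e, zero_mul]
  have h2 := integral_time_χ K fun s => b δ (s - K.τ x) * (K.cut 3 s * g s)
  have h3 : ∀ s, b δ (s - K.τ x) * (K.cut 3 s * g s) * K.cut 1 s =
      b δ (s - K.τ x) * (K.cut 3 s * g s) := fun s => by
    linear_combination (b δ (s - K.τ x) * g s) * h1 s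
  simp only [χ_eq K, h3] at h2
  rw [wn, add_zero]
  simp only [smul_eq_mul]
  rw [h2, inv_mul_cancel_left₀ h0, cv]
  congr 2
  funext t
  rw [← b_neg, neg_sub, mul_comm]

namespace NP
open Rsp69.Cx Rsp69.Tw
variable {P : NP D 𝒟} {n₀ j k n : ℕ} (c : P.tw.CF n₀) (N : ND Y lam)

theorem compF {α : Type} [Fintype α] {g : (α → ℝ) → ℝ} (hg : ContDiff ℝ ∞ g) (hj : 8 ≤ j)
    {u : α → P.tw.Fn} (h : ∀ a, P.tw.EC j (u a)) :
    P.tw.EC (N := fun _ => ℝ) j fun d i x => g fun a => u a d i x := by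
  classical
  exact EC.comp (hg.comp (PiLp.continuousLinearEquiv 2 ℝ fun _ : α => ℝ).contDiff) hj
    ((EC.sum Finset.univ fun a _ => (h a).clm (L := fun _ => sgl ℝ a) (.const _)).congr'
      fun _ _ _ => sum_sgl _)

variable (P) in
theorem cd : ∀ {g : Option (Y → ℝ)}, OF I3 g → P.tw.Cd j fun d i => (P.K d i).fn g
  | none, _ => P.dτ
  | some f, hg => P.cdx (hg f rfl)

variable (P) in
theorem lt : ∀ {t : YL Y}, t.OK I3 → P.tw.LtY j fun d i => (P.K d i).lt t
  | .mul _, ht => .mul (P.ext ht)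
  | .cl _, ht => .cl (P.cd ht)
  | .im, _ => .im
  | .G, _ => .G

variable (P) in
theorem la : ∀ {t : La Y}, laOK I3 t → P.tw.LaY j fun d i => (P.K d i).la t
  | .mul _, ht => .mul (P.ext ht)
  | .G, _ => .G

variable (P) in
theorem sw {u : List (YL Y)} (hu : ∀ t ∈ u, YL.OK I3 t) :
    Fa (P.tw.LtY j) fun d i => u.map (P.K d i).lt := .list fun t ht => P.lt (hu t ht)

variable (P) in
theorem las {u : List (La Y)} (hu : ∀ t ∈ u, laOK I3 t) :
    Fa (P.tw.LaY j) fun d i => u.map (P.K d i).la := .list fun t ht => P.la (hu t ht)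

/-- the cyclic seeds -/
def NC (j : ℕ) : Prop :=
  ∀ e : Cy Y, e.OK D.F → c.SedS j fun d i => ((P.K d i).cyc e).sed (P.tw.F d i)

/-- the hypotheses on a pair of configurations -/
structure NH (j : ℕ) : Prop where
  o : c.OK (fun d i => (P.K d i).dp 1) j
  nd : N.OK D
  γ : P.γ ≤ 2 * N.δ
  p : P.tw.EL j c.p
  ew : P.WK N.δ fun d i x => (P.K d i).χ4 x *
    ‖(P.K d i).χ4 x • nt (P.tw.F d i) (c.W d i) (P.K d i).τ (c.Φ d i) x‖ ^ 2

namespace NH
variable {c N} (h : NH c N j)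
include h

theorem h7 : 7 ≤ j := h.o.h7

theorem om : P.tw.EL (N := fun _ => En (Fin n₀)) j fun d i => (c.m d i).om (P.S d i).B :=
  have m : ∀ {u v : P.tw.Sc fun _ => En (Fin n₀)}, P.tw.EL j u → P.tw.EL j v →
      P.tw.EL (N := fun _ => En (Fin n₀)) j fun d i x => u d i x * v d i x := fun hu hv =>
    hu.bil h.h7 le_rfl (B := fun _ => ContinuousLinearMap.mul ℝ _) (.const _) hv
  have r := fun a => (h.o.ρ a).el
  (EC.const (c := fun _ => (1 / 24 : ℝ)) (.const _)).el.smul h.h7 le_rfl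
    (.sum _ fun a _ => .sum _ fun a' _ => .sum _ fun a'' _ => .sum _ fun a''' _ =>
      (P.lit (Cht98.Cb_fst _ (Cb_of_compact (sm_slice_fst (P.hD.B.so a a' a'' a''') 0)))
        fun d i => (P.K d i).o a a' a'' a''').smul h.h7 le_rfl (m (m (m (r _) (r _)) (r _)) (r _)))

theorem pp : P.tw.EL (N := fun _ => En (Fin n₀)) j fun d i => (c.m d i).pp (P.S d i).B :=
  (EC.const (c := fun _ => (1 / 2 : ℝ)) (.const _)).el.smul h.h7 le_rfl (h.p.sub h.om)

theorem pm : P.tw.EL (N := fun _ => En (Fin n₀)) j fun d i => (c.m d i).pm (P.S d i).B :=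
  (EC.const (c := fun _ => (1 / 2 : ℝ)) (.const _)).el.smul h.h7 le_rfl (h.p.add h.om)

theorem sd (s t : Option κ × Option κ) :
    P.tw.EL (N := fun _ => ℝ) j fun d i x => (P.S d i).B.sd x s t :=
  have p := fun a b => (⟨_, P.tz.P a b⟩ : D.Z.Cb (D.Z.P a b))
  have hf := fun {f : Y × ℝ → ℝ} (hf : D.Z.Cb f) => Cb_smul (Cb_const (1 / 2 : ℝ)) hf
  P.lit (hf (Cb.add (hf (Cb.sub (Cb_smul (p s.1 t.1) (p s.2 t.2)) (Cb_smul (p s.1 t.2) (p s.2 t.1))))
    (hf (Cht98.Cb_fst _ (Cb_of_compact (sm_slice_fst (P.hD.B.so s.1 s.2 t.1 t.2) 0))))))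
    fun d i z hz => by
      simp only [Base.sd, Base.a2, Base.st, (P.K d i).P _ _ z hz, (P.K d i).o _ _ _ _ z hz,
        smul_eq_mul, ← P.hD.G.P]
      show _ = 1 / 2 * (1 / 2 * (D.G.F.P _ _ z * D.G.F.P _ _ z - D.G.F.P _ _ z * D.G.F.P _ _ z) +
        1 / 2 * D.B.o _ _ _ _ z)
      ring

theorem p2 {u : P.tw.Sc c.S2} (hu : P.tw.EL j u) :
    P.tw.EL (N := c.S2) j fun d i x => (c.m d i).p2 (P.S d i).B x (u d i x) :=
  have e := EL.toLp (P := HS (Fin n₀)) fun s => EL.sum Finset.univ fun t _ => (h.sd s t).smul h.h7 le_rfl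
    (h.o.pg.el.app h.h7 le_rfl
      (hu.clm (L := fun _ => PiLp.proj 2 (fun _ => HS (Fin n₀)) t) (.const _)))
  e.congr' fun _ _ _ => PiLp.ext fun _ => (Wz78.idx_apply ..).symm

/-- the densities are cut-off densities of the calculus -/
theorem den (hC : NC c j) (k : N.J) : ∃ e, c.DenS j e ∧
    ∀ d i, (N.dg (P.K d i)).d k = dcut (P.K d i).χ (e d i) := by
  have o := h.o
  rcases k with k | k | k
  · have := h.nd.d0 k
    cases e : N.d0 k with
    | sw u v =>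
      rw [e] at this
      exact ⟨_, o.denSw o.pk_one (P.sw this.1) (P.sw this.2), fun i y => by
        simp only [ND.dg, Sum.elim_inl, e]; rfl⟩
    | cy d w d' w' =>
      rw [e] at this
      exact ⟨_, .sed o.h7 (o.sedWd (hC d this.1) (P.las this.2.1))
        (o.sedWd (hC d' this.2.2.1) (P.las this.2.2.2)), fun i y => by
        simp only [ND.dg, Sum.elim_inl, e]; rfl⟩
  · obtain ⟨h1, h2, h3⟩ := h.nd.d2 k
    exact ⟨_, o.denSw (o.pk_re (P.ext h1)) (P.sw h2) (P.sw h3), fun _ _ => rfl⟩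
  · obtain ⟨h1, h2, h3⟩ := h.nd.d2 k
    exact ⟨_, o.denSw (o.pk_im (P.ext h1)) (P.sw h2) (P.sw h3), fun _ _ => rfl⟩

theorem winC {w : P.tw.Fn} (hw : P.tw.EC j w) (h0 : ∀ d i, ∀ x ∉ (P.K d i).dp 1, w d i x = 0) :
    P.tw.EC (N := fun _ => ℝ) j fun d i x =>
      wn (P.S d i).G.F.μ (P.K d i).τ N.δ (w d i) ((P.K d i).τ x + 0) :=
  win h.γ (hw.el.of_le (by have := h.h7; omega)) (.of_EC h.nd.δ0 hw h0) 0

theorem β (hC : NC c j) (k : N.J) : P.tw.EC (N := fun _ => ℝ) j fun d i x =>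
    (N.dg (P.K d i)).β (P.tw.F d i) (c.c d i) k ((P.K d i).τ x) * (P.K d i).χ x := by
  choose e d1 d2 using h.den hC
  have sm : ContDiff ℝ ∞ fun v => fderiv ℝ (fun x => N.φ (N.cx x)) v (Pi.single k 1) :=
    ((h.nd.sm.comp (contDiff_cx N)).fderiv_right (m := ∞) le_rfl).clm_apply contDiff_const
  have h1 := (P.cut (c := 3) (by norm_num)).mul h.h7 (compF sm h.o.hn fun k => h.winC
    (w := fun d i => ((N.dg (P.K d i)).d k).h (c.c d i))
    (((P.cut one_pos).mul h.h7 (d1 k).h).congr' fun i y x => by rw [d2]; rfl)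
    fun i y x hx => by rw [d2]; exact mul_eq_zero_of_left ((P.K i y).χ_zero hx) _)
  refine (((EC.const (c := fun _ => (vY D)⁻¹) (.const _)).mul h.h7 (h.winC h1 fun i y x hx =>
    mul_eq_zero_of_left (ct_zero fun e => hx (Dp_mono (by norm_num) e)) _)).mul h.h7
      (P.cut one_pos)).congr' fun i y x => ((cv_eq (P.K i y) N.δ _ x).trans ?_).symm
  simp only [add_zero, (P.K i y).cut_τ (show (1 : ℝ) ≤ 3 by norm_num)]
  rfl

theorem gA (hC : NC c j) : P.tw.EL (N := c.S1) j fun d i =>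
    (N.dg (P.K d i)).gA (P.tw.F d i) (c.c d i) := EL.sum Finset.univ fun k _ =>
  let ⟨_, d1, d2⟩ := h.den hC k
  (d1.gA _ (h.β hC k)).congr' fun i y x => by rw [d2]; rfl

theorem gP (hC : NC c j) : P.tw.EL (N := c.SV) j fun d i =>
    (N.dg (P.K d i)).gP (P.tw.F d i) (c.c d i) := EL.sum Finset.univ fun k _ =>
  let ⟨_, d1, d2⟩ := h.den hC k
  (d1.gP _ (h.β hC k)).congr' fun i y x => by rw [d2]; rfl

theorem q1D (hC : NC c j) :
    P.tw.EL (N := c.SV) j fun d i => (N.q1 (n := n) (P.K d i)).D (c.c d i) :=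
  have e1 := h.pp.app (N := c.SV) (N' := c.SV) h.h7 le_rfl (h.gP hC)
  have e2 := fun a => (h.o.ρ a).el.app (N := c.SV) (N' := c.SV) h.h7 le_rfl e1
  have e := (EL.sum Finset.univ fun a _ => (P.dτ a).el.smul h.h7 le_rfl (e2 a)).neg
  e.congr' fun _ _ _ => rfl

theorem q1C (hC : NC c j) :
    P.tw.EL (N := c.S2) j fun d i => (N.q1 (n := n) (P.K d i)).C (c.c d i) :=
  have e := EL.toLp fun s : Option κ × Option κ => (P.dτ s.1).el.smul h.h7 le_rfl ((h.gA hC).clm
    (L := fun _ => PiLp.proj 2 (fun _ => HS (Fin n₀)) s.2) (.const _))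
  have e' := (EC.const (c := fun _ => (-8 : ℝ)) (.const _)).el.smul h.h7 le_rfl (h.p2 e)
  e'

theorem wew (s : ℝ) : P.tw.EC (N := fun _ => ℝ) j fun d i x =>
    wn (P.S d i).G.F.μ (P.K d i).τ N.δ (N.ew (P.K d i) (c.c d i)) ((P.K d i).τ x + s) := by
  have χ := fun {j} => P.cut (k := j) (c := 4) (by norm_num)
  have z := fun d i x (hx : x ∉ (P.K d i).dp 1) => show (P.K d i).χ4 x = 0 from
    ct_zero fun e => hx (Dp_mono (by norm_num) e)
  have h1 := χ.mul h.h7 (EC.sum Finset.univ fun k _ =>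
    have := h.o.cvY χ z P.dτ (P.cdx (h.nd.sy k)); this.inner h.h7 this)
  have h2 := χ.el.smul le_rfl le_rfl (h.o.ntΦ (k := 7) h.o.hn P.dτ)
  have h3 := χ.el.smul le_rfl le_rfl (h2.inner le_rfl h2)
  simp only [real_inner_self_eq_norm_sq] at h1 h3
  have e := win (k := j) h.γ ((h1.el.of_le (by have := h.h7; omega)).add (h3.of_le (by omega)))
    ((WK.of_EC h.nd.δ0 h1 fun d i x hx => mul_eq_zero_of_left (z d i x hx) _).add h.nd.δ0 h.ew) s
  simp only [smul_eq_mul, ← mul_add] at e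
  exact e

theorem tc {C : YTC} (hC : ContDiff ℝ ∞ C.k) : P.tw.EC (N := fun _ => ℝ) j fun d i x =>
    (N.tc (P.K d i) C).val (P.tw.F d i) (P.K d i).τ N.δ (c.c d i) ((P.K d i).τ x) :=
  compF (hC.comp (contDiff_pi.2 fun i => contDiff_nr.comp (contDiff_apply ℝ ℝ i))) h.o.hn
    fun i => h.wew (C.s i)

theorem tl {u : List (YL Y ⊕ YTC)} (hu : tlOK I3 u) : Fa (P.tw.LtY j) fun d i =>
    (u.map (N.tl (P.K d i))).map (Dgr80.tl (P.tw.F d i) (P.K d i).τ N.δ (c.c d i)) := by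
  simp only [List.map_map]
  refine .list fun t ht => ?_
  have := hu t ht
  rcases t with t | C
  · exact P.lt this
  · exact .mul ((P.cut one_pos).mul h.h7 (h.tc this.1))

theorem ta {u : List (La Y ⊕ YTC)} (hu : taOK I3 u) : Fa (P.tw.LaY j) fun d i =>
    (u.map (N.ta (P.K d i))).map (Dgr80.ta (P.tw.F d i) (P.K d i).τ N.δ (c.c d i)) := by
  simp only [List.map_map]
  refine .list fun t ht => ?_
  have := hu t ht
  rcases t with t | C
  · exact P.la this
  · exact .mul ((P.cut one_pos).mul h.h7 (h.tc this.1))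

variable {T : YT Y} (hT : T.OK I3)
include hT

theorem oc : P.tw.EC (N := fun _ => ℝ) j fun d i => N.oc (P.K d i) T (c.c d i) :=
  ((P.cut (c := 3) (by norm_num)).mul h.h7
    (h.tc (contDiff_out (C := T.C) (by cases T <;> exact hT.1.1)))).congr'
    fun i y x => by rw [ND.oc, (P.K i y).cut_τ (by norm_num)]

theorem tD : P.tw.EL (N := c.SV) j fun d i =>
    (c.c d i).tD (P.S d i).B (P.tw.F d i) (N.tm (P.K d i) (c.c d i) n T) := by
  cases T with
  | lin C u => exact h.pm.app h.h7 le_rfl (h.o.sw (h.tl hT.2)).el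
  | _ => exact EL.zero

theorem tC : P.tw.EL (N := c.S2) j fun d i =>
    (c.c d i).tC (P.S d i).B (P.tw.F d i) (N.tm (P.K d i) (c.c d i) n T) := by
  cases T with
  | lin C u => exact EL.zero
  | ad C g u v l =>
    obtain ⟨-, h1, h2, h3, h4⟩ := hT
    exact h.p2 (h.o.wedge P.dτ (P.cdx h1) (h.o.wdA (h.ta h4) (h.o.qY (h.tl h2) (h.tl h3))).el)
  | cv C g f g1 g2 l =>
    obtain ⟨-, h1, h2, h3, h4, h5⟩ := hT
    exact h.p2 (h.o.wedge P.dτ (P.cdx h1) (h.o.wdA (h.ta h5)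
      (h.o.cvY (P.ext h2) (fun d i _ => (P.K d i).ext_zero f) (P.cd h3) (P.cd h4))).el)

theorem q2D : P.tw.EL (N := c.SV) j fun d i => (N.q2 (n := n) (P.K d i) T).D (c.c d i) :=
  have e := (h.oc hT).el.smul h.h7 le_rfl (EL.nrm (P := Eu (Fin n₀)) h.o.hn (h.tD (n := n) hT))
  e

theorem q2C : P.tw.EL (N := c.S2) j fun d i => (N.q2 (n := n) (P.K d i) T).C (c.c d i) :=
  have e := (h.oc hT).el.smul h.h7 le_rfl
    (EL.nrm (P := Fm (Option κ × Option κ) (HS (Fin n₀))) h.o.hn (h.tC (n := n) hT))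
  e

end NH
end NP

end Crest.Agent.X212.Rsp69
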