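import Crest.Agent.X212.Rsp69.Win
import Crest.Agent.X212.Dgr80.Lg

/-! Row 212, RESP (helper69): exponential locality of the resolvent on a band; pairs. -/

set_option autoImplicit false
set_option linter.unusedSectionVars false
noncomputable section
open scoped Manifold ContDiff Topology InnerProductSpace
open MeasureTheory Set Function Filter Real

namespace Crest.Agent.X212.Rsp69
open An Sob92 Wz78
open Nd18 (BD Dp ct)
open Dgr80 (b LB Wg)
open Mp86 (Mc)

theorem summable_exp_int {a : ℝ} (h : 0 < a) : Summable fun n : ℤ => exp (-(a * |(n : ℝ)|)) := by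
  have : Summable fun n : ℕ => exp (n * -a) := summable_exp_nat_mul_iff.2 (by linarith)
  refine .of_nat_of_neg (this.congr fun n => ?_) (this.congr fun n => ?_) <;> simp [mul_comm]

/-- the constant of the summation over windows -/
def cS (κ : ℝ) : ℝ := exp κ * ∑' n : ℤ, exp (-(κ / 2 * |(n : ℝ)|))

theorem cS_nonneg (κ : ℝ) : 0 ≤ cS κ :=
  mul_nonneg (exp_pos _).le (tsum_nonneg fun _ => (exp_pos _).le)

/-- summation over windows -/
theorem ws {X : Type*} [MeasurableSpace X] {μ : Measure X} {τ g : X → ℝ} (hτ : Measurable τ)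
    (g0 : ∀ x, 0 ≤ g x) (hg : Integrable g μ) {κ t B : ℝ} (hκ : 0 < κ)
    (h : ∀ s, ∫ x, wc 2 s (τ x) ^ 2 * g x ∂μ ≤ B * exp (κ / 2 * |s - t|)) :
    ∫ x, exp (-(κ * |τ x - t|)) * g x ∂μ ≤ cS κ * B := by
  have m : ∀ n : ℤ, MeasurableSet {x | ⌊τ x - t⌋ = n} := fun n =>
    (hτ.sub_const t).floor (measurableSet_singleton n)
  have i1 : Integrable (fun x => exp (-(κ * |τ x - t|)) * g x) μ :=
    hg.bdd_mul (c := 1) (Measurable.aestronglyMeasurable (by fun_prop)) (.of_forall fun x => by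
      rw [Real.norm_of_nonneg (exp_pos _).le]
      exact exp_le_one_iff.2 (neg_nonpos.2 (by positivity)))
  have i2 : ∀ s, Integrable (fun x => wc 2 s (τ x) ^ 2 * g x) μ := fun s =>
    hg.bdd_mul (c := 1) ((continuous_wc.measurable.comp hτ).pow_const 2).aestronglyMeasurable
      (.of_forall fun x => by
        rw [Real.norm_of_nonneg (sq_nonneg _)]; exact pow_le_one₀ wc_mem.1 wc_mem.2)
  have hs := hasSum_integral_iUnion (μ := μ) m (fun n n' hn => disjoint_left.2 fun x h1 h2 =>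
    hn (h1.symm.trans h2)) i1.integrableOn
  rw [show ⋃ n : ℤ, {x | ⌊τ x - t⌋ = n} = univ from eq_univ_of_forall fun x => mem_iUnion.2
    ⟨_, rfl⟩, setIntegral_univ] at hs
  rw [cS, mul_right_comm, ← tsum_mul_left]
  refine hasSum_le (fun n => ?_) hs ((summable_exp_int (half_pos hκ)).mul_left _).hasSum
  calc _ ≤ ∫ x in {x | ⌊τ x - t⌋ = n}, exp (κ - κ * |(n : ℝ)|) * (wc 2 (t + n) (τ x) ^ 2 * g x) ∂μ := by
        refine setIntegral_mono_on i1.integrableOn ((i2 _).const_mul _).integrableOn (m n)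
          fun x hx => ?_
        obtain ⟨h1, h2⟩ := Int.floor_eq_iff.1 hx
        have h3 : |τ x - (t + n)| ≤ 1 := abs_le.2 ⟨by linarith, by linarith⟩
        have h4 := abs_sub_abs_le_abs_sub (n : ℝ) (τ x - t)
        rw [abs_sub_comm (n : ℝ), sub_sub] at h4
        rw [wc_one (by linarith), one_pow, one_mul]
        exact mul_le_mul_of_nonneg_right (exp_le_exp.2 (by nlinarith)) (g0 x)
    _ ≤ exp (κ - κ * |(n : ℝ)|) * (B * exp (κ / 2 * |t + n - t|)) := by
        rw [integral_const_mul]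
        exact mul_le_mul_of_nonneg_left ((setIntegral_le_integral (i2 _) (.of_forall fun x =>
          mul_nonneg (sq_nonneg _) (g0 x))).trans (h _)) (exp_pos _).le
    _ = _ := by
        rw [add_sub_cancel_left, mul_left_comm, ← exp_add, mul_right_comm, ← exp_add, mul_comm]
        congr 2; ring

variable {E : Type} [NormedAddCommGroup E] [NormedSpace ℝ E] [FiniteDimensional ℝ E]
  [MeasurableSpace E] [BorelSpace E]
  {HM : Type} [TopologicalSpace HM] {I : ModelWithCorners ℝ E HM} [I.Boundaryless]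
  {M : Type} [TopologicalSpace M] [ChartedSpace HM M] [IsManifold I ∞ M]
  [MeasurableSpace M] [T2Space M] [BorelSpace M] [SecondCountableTopology M]
  {ι : Type} [Fintype ι] {𝒟 : Type*}

section pt
variable {V : Type} [NormedAddCommGroup V] [InnerProductSpace ℝ V] {F : Fr I M ι}
  {A : ι → M → V →L[ℝ] V} {τ χ : M → ℝ} {e u : M → V} {x : M} {κ : ℝ}

theorem wg_b (hκ : 0 < κ) (hτ : Sm I τ) (h : ∀ x, 4 * κ ^ 2 * ∑ a, F.D a τ x ^ 2 ≤ 1) (t : ℝ) :
    Wg F fun x => b κ (τ x - t) := by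
  have s1 : Sm I fun x => τ x - t := hτ.sub contMDiff_const
  refine ⟨(Dgr80.contDiff_b κ).contMDiff.comp s1, fun x => Dgr80.b_pos hκ _, fun x => ?_⟩
  have e : ∀ a, F.D a (fun x => b κ (τ x - t)) x ^ 2 ≤ F.D a τ x ^ 2 * (κ * b κ (τ x - t)) ^ 2 :=
    fun a => by
    rw [Pre.D_def, dv_comp (md s1 x) (Dgr80.hasDerivAt_b κ _).hasFDerivAt,
      dv_sub' (hτ x) contMDiffAt_const, dv_const]
    simp only [Pi.zero_apply, sub_zero, ContinuousLinearMap.toSpanSingleton_apply, smul_eq_mul,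
      mul_pow _ (_ * b κ _), Pre.D_def]
    exact mul_le_mul_of_nonneg_left (sq_le_sq' (abs_le.1 (Dgr80.abs_deriv_b_le hκ _)).1
      (abs_le.1 (Dgr80.abs_deriv_b_le hκ _)).2) (sq_nonneg _)
  have := Finset.sum_le_sum fun a (_ : a ∈ Finset.univ) => e a
  rw [← Finset.sum_mul] at this
  nlinarith [mul_le_mul_of_nonneg_right (h x) (sq_nonneg (b κ (τ x - t)))]

theorem sa_nab (hA : ∀ a, SA I (A a) x) (he : SA I e x) (a : ι) : SA I (nab I F.e A a e) x :=
  (sa_D (F := F.toPre) he a).add ((hA a).app he)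

theorem lap_smul (hA : ∀ a, SA I (A a) x) (hχ : SA I χ x) (he : SA I e x) :
    lap I F.e F.dv A (fun y => χ y • e y) x = χ x • lap I F.e F.dv A e x -
      ∑ a, ((2 * F.D a χ x) • nab I F.e A a e x + (F.D a (F.D a χ) x + F.dv a x * F.D a χ x) • e x) := by
  have h1 : ∀ a, nab I F.e A a (fun y => χ y • e y) =ᶠ[𝓝 x]
      fun y => F.D a χ y • e y + χ y • nab I F.e A a e y := fun a => by
    filter_upwards [D_smul_ev (F := F) hχ he a] with y hy
    simp only [nab, ← Pre.D_def, hy, map_smul, smul_add, add_assoc]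
  simp only [lap, fun a => nab_congr (e := F.e) (A := A) a (h1 a), fun a => (h1 a).self_of_nhds,
    fun a => nab_add (e := F.e) (A := A) a (SA.smul (sa_D (F := F.toPre) hχ a) he)
      (SA.smul hχ (sa_nab (F := F) hA he a)),
    fun a => nab_smul (e := F.e) (A := A) a (sa_D (F := F.toPre) hχ a) he,
    fun a => nab_smul (e := F.e) (A := A) a hχ (sa_nab (F := F) hA he a), smul_neg,
    Finset.smul_sum, ← Pre.D_def]
  rw [← neg_add', ← Finset.sum_add_distrib]
  congr 1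
  refine Finset.sum_congr rfl fun a _ => ?_
  module

theorem lap_sub' (hA : ∀ a, SA I (A a) x) (hu : SA I u x) (he : SA I e x) :
    lap I F.e F.dv A (fun y => u y - e y) x = lap I F.e F.dv A u x - lap I F.e F.dv A e x := by
  have h1 : ∀ a, nab I F.e A a (fun y => u y - e y) =ᶠ[𝓝 x]
      fun y => nab I F.e A a u y - nab I F.e A a e y := fun a => by
    filter_upwards [hu.ev, he.ev] with y h1 h2
    have : dv I (F.e a) (fun y => u y - e y) y = _ := dv_sub h1 h2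
    simp only [nab, this, map_sub]; abel
  simp only [lap, fun a => nab_congr (e := F.e) (A := A) a (h1 a), fun a => (h1 a).self_of_nhds,
    fun a => nab_sub (e := F.e) (A := A) a (sa_nab (F := F) hA hu a) (sa_nab (F := F) hA he a),
    smul_sub, Finset.sum_add_distrib, Finset.sum_sub_distrib]
  abel

theorem lap_zero : lap I F.e F.dv A (fun _ => 0) x = 0 := by
  have : ∀ a, nab I F.e A a (fun _ => 0) = fun _ => 0 := fun a => funext fun y => by
    simp [nab, dv_const]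
  simp [lap, this]

theorem sm_cut {N : Type} [NormedAddCommGroup N] [NormedSpace ℝ N] {f : M → N} (hχ : Sm I χ)
    (h : ∀ x ∈ tsupport χ, SA I f x) : Sm I fun y => χ y • f y := fun x => by
  by_cases hx : x ∈ tsupport χ
  exacts [SA.smul (hχ x) (h x hx), sa_congr (f := fun _ => 0) contMDiffAt_const
    ((notMem_tsupport_iff_eventuallyEq.1 hx).mono fun y hy => by simp [hy])]

/-- the weighted energy estimate -/
theorem energy {C : ℕ → ℝ} (hF : F.Tame C) (hκ : 0 < κ) (hτ : Sm I τ)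
    (h : ∀ x, 4 * κ ^ 2 * ∑ a, F.D a τ x ^ 2 ≤ 1) (hA : Mc I A) (he : Sm I e)
    (hc : HasCompactSupport e) (hu : ∀ x, e x + lap I F.e F.dv A e x = u x)
    (hc' : HasCompactSupport u) {t B : ℝ} (hB : ∀ s, N2 F.toPre 0 (fun x => wc 2 s (τ x) • u x) ≤
      B * exp (κ / 2 * |s - t|)) (R : ℝ) :
    N2 F.toPre 0 (fun x => wc R t (τ x) • e x) ≤ 32 * exp (κ * R) * cS κ * B := by
  have su : Continuous u := funext hu ▸ (he.add (sm_lap hA.sm he)).continuous
  have hW := wg_b hκ hτ h t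
  have i : ∀ {u : M → V} {W : M → ℝ}, Continuous W → Continuous u → HasCompactSupport u →
      Integrable (fun x => W x * ‖u x‖ ^ 2) F.μ := fun hW hu hc =>
    (hW.mul (hu.norm.pow 2)).integrable_of_hasCompactSupport
      (hc.mono fun x hx h => hx (by simp [h]))
  have cτ := hτ.continuous
  have h1 := ws (μ := F.μ) cτ.measurable (fun x => sq_nonneg ‖u x‖) (by
    simpa using i continuous_one su hc') hκ (t := t) (B := B) fun s => by
      simpa only [n2_zero_eq, norm_smul, mul_pow, Real.norm_eq_abs, sq_abs] using hB s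
  have h2 := Dgr80.wk0 (g := fun _ _ => 0) (Dgr80.exists_cut (Exh.of_tame hF)) hA hW he su
    (fun _ => contMDiff_const) (fun x => by simp [hu, Dgr80.dvn, nab])
    (i hW.sm.continuous he.continuous hc) (D := κ * (cS κ * B)) (by
      refine (LB.mul ⟨i (by fun_prop) su hc', h1⟩ hκ.le).mono
        (Continuous.aestronglyMeasurable (by have := hW.sm.continuous; fun_prop))
        (fun x => mul_nonneg (hW.pos x).le (by positivity)) fun x => ?_
      simp only [norm_zero, sq, mul_zero, Finset.sum_const_zero, add_zero, ← mul_assoc κ]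
      exact mul_le_mul_of_nonneg_right (Dgr80.b_le_exp hκ _) (by positivity))
  have := continuous_wc (r := R) (t := t)
  have := he.continuous
  refine ((h2.mul (c := 4 / κ * exp (κ * R)) (by positivity)).mono
    (g' := fun x => ‖wc R t (τ x) • e x‖ ^ 2) (Continuous.aestronglyMeasurable (by fun_prop))
    (fun _ => sq_nonneg _) fun x => ?_).2.trans (le_of_eq (by field_simp; ring))
  have p := mul_nonneg (hW.pos x).le (Dgr80.g2_nonneg (F := F) (A := A) (u := e) x)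
  rcases lt_or_ge R |τ x - t| with h | h
  · rw [wc_zero h, zero_smul, norm_zero, sq, mul_zero]
    have := hW.pos x
    have := Dgr80.g2_nonneg (F := F) (A := A) (u := e) x
    positivity
  · have h3 : 1 ≤ 4 / κ * exp (κ * R) * b κ (τ x - t) := by
      refine le_trans ?_ (mul_le_mul_of_nonneg_left (Dgr80.b_ge hκ _) (by positivity))
      rw [mul_mul_mul_comm, ← exp_add, div_mul_div_comm, mul_comm 4, div_self (by positivity),
        one_mul]
      exact one_le_exp (by nlinarith)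
    rw [norm_smul, mul_pow, Real.norm_eq_abs, sq_abs, ← mul_assoc]
    exact mul_le_mul ((pow_le_one₀ wc_mem.1 wc_mem.2).trans h3)
      (le_add_of_nonneg_right (Dgr80.g2_nonneg x)) (sq_nonneg _) (by linarith)

end pt

theorem NB.split {F : 𝒟 → Fr I M ι} {l : Filter 𝒟} {m : 𝒟 → ℝ} {k : ℕ} {N : 𝒟 → Type}
    [∀ d, NormedAddCommGroup (N d)] [∀ d, NormedSpace ℝ (N d)] {f : ∀ d, M → N d} (S : Set 𝒟)
    (h : NB F (l ⊓ 𝓟 S) m k f) (h' : NB F (l ⊓ 𝓟 Sᶜ) m k f) : NB F l m k f := by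
  obtain ⟨K, hK, h⟩ := h
  obtain ⟨K', hK', h'⟩ := h'
  refine ⟨K + K', by positivity, ((eventually_inf_principal.1 h).and
    (eventually_inf_principal.1 h')).mono fun d h => ?_⟩
  have := sq_nonneg (m d)
  by_cases hd : d ∈ S
  · exact ⟨(h.1 hd).1, (h.1 hd).2.1, (h.1 hd).2.2.1, (h.1 hd).2.2.2.trans (by nlinarith)⟩
  · exact ⟨(h.2 hd).1, (h.2 hd).2.1, (h.2 hd).2.2.1, (h.2 hd).2.2.2.trans (by nlinarith)⟩

namespace Cx
variable {X : Cx I M ι 𝒟} {L L' R κ : ℝ} {ρ w : 𝒟 → ℝ → ℝ} {k n : ℕ}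
  {V : 𝒟 → Type} [∀ d, NormedAddCommGroup (V d)] [∀ d, InnerProductSpace ℝ (V d)]
  {N N' N'' : 𝒟 → Type} [∀ d, NormedAddCommGroup (N d)] [∀ d, NormedSpace ℝ (N d)]
  [∀ d, NormedAddCommGroup (N' d)] [∀ d, NormedSpace ℝ (N' d)]
  [∀ d, NormedAddCommGroup (N'' d)] [∀ d, NormedSpace ℝ (N'' d)]

variable (X) in
/-- admissible error weights: rate `κ / 8`, at least `1` at the ends of the band -/
structure Rt (κ : ℝ) (ρ : 𝒟 → ℝ → ℝ) : Prop where
  κ0 : 0 < κ
  wg : ∀ᶠ d in X.l, ∀ x, 4 * κ ^ 2 * ∑ a, (X.F d).D a (X.τ d) x ^ 2 ≤ 1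
  lw : X.Lw (κ / 8) ρ
  off : ∀ᶠ d in X.l, (∀ a ∈ X.p d, 1 ≤ ρ d a) ∧ ∀ a ∈ X.q d, 1 ≤ ρ d a

/-- the radius at which tails are below the weight -/
def rad (κ : ℝ) (ρ : 𝒟 → ℝ → ℝ) (R : ℝ) (z : 𝒟 × ℝ) : ℝ := max R (-4 * log (ρ z.1 z.2) / κ)

theorem Rt.rad_in (h : X.Rt κ ρ) (hL : 0 ≤ L) (hR : 0 ≤ R) : ∀ᶠ z in X.lw (2 * L + R),
    z.2 ∈ X.In (L + rad κ ρ R z) z.1 ∧ 0 < ρ z.1 z.2 ∧ exp (-(κ / 4 * rad κ ρ R z)) ≤ ρ z.1 z.2 := by
  filter_upwards [lw_in, ev_fst h.lw.2, ev_fst h.off] with z h1 h2 h3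
  have κ0 := h.κ0
  have p := (h2 0 z.2).1
  have key : ∀ a, 1 ≤ ρ z.1 a → -4 * log (ρ z.1 z.2) / κ ≤ |a - z.2| / 2 := fun a ha => by
    have := log_nonneg (ha.trans (h2 a z.2).2)
    rw [log_mul (exp_pos _).ne' p.ne', log_exp] at this
    rw [div_le_iff₀ κ0]; linarith
  refine ⟨⟨fun a ha => ?_, fun a ha => ?_⟩, p, ?_⟩
  · have := h1.1 a ha
    have h4 := key a (h3.1 a ha)
    rw [abs_of_nonpos (by linarith)] at h4
    have : rad κ ρ R z ≤ z.2 - a - L := max_le (by linarith) (by linarith)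
    linarith
  · have := h1.2 a ha
    have h4 := key a (h3.2 a ha)
    rw [abs_of_nonneg (by linarith)] at h4
    have : rad κ ρ R z ≤ a - z.2 - L := max_le (by linarith) (by linarith)
    linarith
  · rw [← le_log_iff_exp_le p]
    have : -4 * log (ρ z.1 z.2) / κ ≤ rad κ ρ R z := le_max_right _ _
    rw [div_le_iff₀ κ0] at this; linarith

variable (X) in
/-- bounds on all unit windows, growing exponentially away from the centre -/
def WB (L κ : ℝ) (ρ : 𝒟 → ℝ → ℝ) (u : ∀ z : 𝒟 × ℝ, M → N z.1) : Prop :=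
  NB (N := fun e : (𝒟 × ℝ) × ℝ => N e.1.1) (fun e => X.F e.1.1) (comap Prod.fst (X.lw L))
    (fun e => ρ e.1.1 e.1.2 * exp (κ / 4 * |e.2 - e.1.2|)) 0
    fun e x => X.η 2 (e.1.1, e.2) x • u e.1 x

theorem wb {γ : 𝒟 × ℝ → M → ℝ} {g : ∀ d, M → N d} {c : ℝ}
    (hγ : Bk (N := fun _ => ℝ) (pre X.F') (X.lw L) (un _ M) 1 0 γ) (h : X.HL L' w 0 g)
    (hm : ∀ᶠ z in X.lw L, 0 ≤ ρ z.1 z.2 ∧ ∀ s, ∀ x ∈ X.W 2 (z.1, s), γ z x ≠ 0 →
      s ∈ X.In (L' + 2) z.1 ∧ w z.1 s ≤ c * (ρ z.1 z.2 * exp (κ / 4 * |s - z.2|))) :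
    X.WB L κ ρ fun z x => γ z x • g z.1 x := by
  have hm' := tendsto_comap (f := Prod.fst (β := ℝ)).eventually hm
  have p : ∀ᶠ e : (𝒟 × ℝ) × ℝ in comap Prod.fst (X.lw L),
      0 ≤ ρ e.1.1 e.1.2 * exp (κ / 4 * |e.2 - e.1.2|) :=
    hm'.mono fun e h => mul_nonneg h.1 (exp_pos _).le
  refine NB.split {e | ∃ x ∈ X.W 2 (e.1.1, e.2), γ e.1 x ≠ 0} ?_ ((NB.zero
    (p.filter_mono inf_le_left)).congr (eventually_inf_principal.2 (.of_forall fun e he =>
      funext fun x => ?_)))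
  · have h2 := eventually_inf_principal.2 (hm'.mono fun e h (he : e ∈ {e : (𝒟 × ℝ) × ℝ |
      ∃ x ∈ X.W 2 (e.1.1, e.2), γ e.1 x ≠ 0}) => h.2 e.2 _ he.choose_spec.1 he.choose_spec.2)
    have h3 : Tendsto (fun e : (𝒟 × ℝ) × ℝ => (e.1.1, e.2)) (comap Prod.fst (X.lw L) ⊓
        𝓟 {e | ∃ x ∈ X.W 2 (e.1.1, e.2), γ e.1 x ≠ 0}) (X.lw (L' + 2)) :=
      tendsto_inf.2 ⟨tendsto_comap_iff.2 (((lw_fst (L := L)).comp
        (tendsto_comap (f := Prod.fst))).mono_left inf_le_left), tendsto_principal.2 (h2.mono fun e h => h.1)⟩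
    refine ((((h 2 zero_le_two).comap h3).wt (c := c)
      (((p.filter_mono inf_le_left).and h2).mono fun e h => ⟨h.1, h.2.2⟩)).smul
      (Bk.comap (φ := Prod.fst) (tendsto_comap.mono_left inf_le_left) hγ :)).congr
      (.of_forall fun e => funext fun x => smul_comm _ _ _)
  · beta_reduce
    by_cases hx : x ∈ X.W 2 (e.1.1, e.2)
    · rw [not_not.1 fun h => he ⟨x, hx, h⟩, zero_smul, smul_zero]
    · rw [η_zero hx, zero_smul]

/-- **exponential locality** -/
theorem Hk.diff (hρ : X.Rt κ ρ) {A : ∀ d, ι → M → V d →L[ℝ] V d} {e f : ∀ d, M → V d}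
    (hA : X.Ev fun d x => ∀ a, Skew (A d a x) ∧ SA I (A d a) x)
    (he : X.Ev fun d x => e d x + lap I (X.F d).e (X.F d).dv (A d) (e d) x = f d x)
    (h0 : X.Hk 1 0 e) (h1 : ∀ a, X.Hk 1 0 fun d => Wz78.nab I (X.F d).e (A d) a (e d))
    (hf : X.Hk ρ 0 f) : X.Hk ρ 0 e := by
  obtain ⟨L₂, hL₂, hs⟩ := (hA.and (he.and h0.sa))
  obtain ⟨L₀, hL₀, h0⟩ := h0
  obtain ⟨L₁, hL₁, hf⟩ := hf
  choose L' hL' h1 using h1
  have h2 := fun a => Finset.single_le_sum (fun a _ => hL' a) (Finset.mem_univ a)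
  have h3 : 0 ≤ ∑ a, L' a := Finset.sum_nonneg fun a _ => hL' a
  obtain ⟨L, hL⟩ : ∃ L, L = L₀ + L₁ + L₂ + ∑ a, L' a := ⟨_, rfl⟩
  have κ0 := hρ.κ0
  refine ⟨2 * (L + 4) + 1, by rw [hL]; positivity, fun R hR => ?_⟩
  rw [add_assoc, add_comm 1]
  have hr := hρ.rad_in (L := L + 4) (R := R + 1) (by rw [hL]; positivity) (by positivity)
  set r := rad κ ρ (R + 1)
  have hη' : ∀ (r : 𝒟 × ℝ → ℝ) k, Bk (N := fun _ => ℝ) (pre X.F') (X.lw (2 * (L + 4) + (R + 1)))
      (un _ M) 1 k fun z => X.η (r z) z := fun r k => bk_η (φ := id) lw_fst r k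
  have hη := hη' r
  have hτ := ev_fst (L := 2 * (L + 4) + (R + 1)) X.sτ
  have tri : ∀ {z : 𝒟 × ℝ} {s x}, x ∈ X.W 2 (z.1, s) → x ∈ X.W (r z) z → |s - z.2| ≤ r z + 2 :=
    fun {z s x} h h' => (abs_sub_le s (X.τ z.1 x) z.2).trans (by
      rw [abs_sub_comm s]; exact (add_le_add h h').trans_eq (add_comm _ _))
  have hin : ∀ {z : 𝒟 × ℝ} {s x}, z.2 ∈ X.In (L + 4 + r z) z.1 → x ∈ X.W 2 (z.1, s) →
      x ∈ X.W (r z) z → s ∈ X.In (L + 2) z.1 := fun h h1 h2 =>
    Dp_near (Nd18.Dp_mono (by linarith) h) (tri h1 h2)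
  have w1 : X.WB _ κ ρ fun z x => X.η (r z) z x • f z.1 x := wb (c := 1) (hη 0)
    (hf.mono (L' := L) (by linarith)) (by
      filter_upwards [hr, ev_fst hρ.lw.2] with z hr hw
      refine ⟨hr.2.1.le, fun s x hx h => ⟨hin hr.1 hx (not_not.1 fun e => h (η_zero e)),
        (hw s z.2).2.trans ?_⟩⟩
      rw [one_mul, mul_comm]
      exact mul_le_mul_of_nonneg_left (exp_le_exp.2 (by nlinarith [abs_nonneg (s - z.2)])) hr.2.1.le)
  have w2 : ∀ {γ : 𝒟 × ℝ → M → ℝ} {g : ∀ d, M → V d},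
      Bk (N := fun _ => ℝ) (pre X.F') (X.lw (2 * (L + 4) + (R + 1))) (un _ M) 1 0 γ →
      X.HL L 1 0 g → (∀ z x c, X.η (r z) z =ᶠ[𝓝 x] (fun _ => c) → γ z x = 0) →
      X.WB (2 * (L + 4) + (R + 1)) κ ρ fun z x => γ z x • g z.1 x := fun hγ hg h0 =>
    wb (c := exp κ) hγ hg (by
      filter_upwards [hr, hτ] with z hr hτ
      refine ⟨hr.2.1.le, fun s x hx h => ⟨hin hr.1 hx
        (not_not.1 fun e => h (h0 _ _ _ (η_ev0 hτ.1 e))), ?_⟩⟩
      have h4 : r z - 2 < |X.τ z.1 x - z.2| :=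
        not_le.1 fun e => h (h0 _ _ _ (η_ev (R := r z - 2) hτ.1 e (by linarith)))
      have h5 := abs_sub_le (X.τ z.1 x) s z.2
      have h6 : |X.τ z.1 x - s| ≤ 2 := hx
      refine le_trans ?_ (mul_le_mul_of_nonneg_left (mul_le_mul_of_nonneg_right hr.2.2
        (exp_pos _).le) (exp_pos _).le)
      rw [← exp_add, ← exp_add]
      exact one_le_exp (by nlinarith))
  have z1 : ∀ {z x c} a, X.η (r z) z =ᶠ[𝓝 x] (fun _ => c) → (X.F z.1).D a (X.η (r z) z) =ᶠ[𝓝 x]
      fun _ => 0 := fun a h => (D_ev h a).trans (.of_forall fun y => congrFun (dv_const _) y)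
  have z2 : ∀ {z x c} a, X.η (r z) z =ᶠ[𝓝 x] (fun _ => c) →
      (X.F z.1).D a ((X.F z.1).D a (X.η (r z) z)) x = 0 := fun a h =>
    (D_ev (z1 a h) a).self_of_nhds.trans (congrFun (dv_const _) _)
  have hdv : ∀ a, Bk (N := fun _ => ℝ) (pre X.F') (X.lw (2 * (L + 4) + (R + 1))) (un _ M) 1 0
      fun z => (X.F z.1).dv a := fun a => .of_CBs (tame'.mono fun _ h => h.dv a)
  obtain ⟨K, hK, w3⟩ := w1.sub (NB.sum Finset.univ w1.nn fun a _ =>
    (w2 ((Bk.const (.const ‖(2 : ℝ)‖)).smulR ((hη 1).D a)) ((h1 a).mono (by linarith [h2 a]))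
      fun z x c h => by simp [(z1 a h).self_of_nhds]).add
    (w2 ((((hη 2).D a).D a).add ((hdv a).smulR ((hη 1).D a))) (h0.mono (by linarith))
      fun z x c h => by simp [(z1 a h).self_of_nhds, z2 a h]))
  refine ⟨32 * exp (κ * R) * cS κ * K, by have := cS_nonneg κ; positivity, ?_⟩
  filter_upwards [eventually_comap.1 w3, hr, hτ, ev_fst hs, ev_fst hρ.wg, tame', (hη 0).sa,
    (hη' (fun z => r z + 2) 0).sa, ev_fst X.vol, (bk_η' R 0).sa]
    with z w3 hr hτ hs hg hF s1 s2 hv s3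
  have r1 : R + 1 ≤ r z := le_max_left _ _
  have hb : ∀ x ∈ X.W (r z + 2) z, _ := fun x hx =>
    hs x (W_bd (Nd18.Dp_mono (by linarith) hr.1) hx)
  have cW : IsCompact (X.W (r z) z) := (hv z.2 (r z) (Nd18.Dp_mono (by linarith) hr.1)).1
  have hW : X.W (r z) z ⊆ X.W (r z + 2) z := W_mono (by linarith)
  have se : Sm I fun x => X.η (r z) z x • e z.1 x :=
    sm_cut (fun x => s1 x trivial) fun x hx => (hb x (hW (ts_η hτ.1 hx))).2.2
  have ee : (fun x => X.η R z x • e z.1 x) = fun x => X.η R z x • X.η (r z) z x • e z.1 x :=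
    funext fun x => by
      by_cases hx : x ∈ X.W R z
      · rw [η_one hx r1, one_smul]
      · rw [η_zero hx, zero_smul, zero_smul]
  have ce : HasCompactSupport fun x => X.η (r z) z x • e z.1 x :=
    .intro cW fun x hx => by rw [η_zero hx, zero_smul]
  rw [ee, mul_assoc _ K]
  refine ⟨hr.2.1.le, ContMDiff.smul (fun x => s3 x trivial) se, ce.smul_left,
    energy hF κ0 hτ.1 hg (A := fun a x => X.η (r z + 2) z x • A z.1 a x)
      (u := fun x => X.η (r z) z x • f z.1 x - ∑ a, ((2 * (X.F z.1).D a (X.η (r z) z) x) •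
        Wz78.nab I (X.F z.1).e (A z.1) a (e z.1) x + ((X.F z.1).D a ((X.F z.1).D a (X.η (r z) z)) x +
        (X.F z.1).dv a x * (X.F z.1).D a (X.η (r z) z) x) • e z.1 x))
      ⟨fun a => sm_cut (fun x => s2 x trivial) fun x hx => ((hb x (ts_η hτ.1 hx)).1 a).2,
        fun a x v v' => ?_⟩ se ce (fun x => ?_) (.intro cW fun x hx => ?_) (fun s => ?_) R⟩
  · by_cases hx : x ∈ X.W (r z + 2) z
    · simp only [smul_apply, real_inner_smul_left, real_inner_smul_right, ((hb x hx).1 a).1 v v',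
        mul_neg]
    · simp [η_zero hx]
  · by_cases hx : x ∈ X.W (r z) z
    · rw [Eqv71.lap_congrA (A' := A z.1) _ ((η_ev hτ.1 hx le_rfl).mono fun y hy a => by simp [hy]),
        lap_smul (fun a => ((hb x (hW hx)).1 a).2) (s1 x trivial) (hb x (hW hx)).2.2,
        ← (hb x (hW hx)).2.1, smul_add, add_sub_assoc]
    · have e0 := η_ev0 hτ.1 hx
      rw [Eqv71.lap_congr (t := fun _ => 0) (e0.mono fun y hy => by simp [hy])]
      simp [η_zero hx, fun a => (z1 a e0).self_of_nhds, fun a => z2 a e0, lap_zero]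
  · have e0 := η_ev0 hτ.1 hx
    simp [η_zero hx, fun a => (z1 a e0).self_of_nhds, fun a => z2 a e0]
  · have := (w3 (z, s) rfl).2.2.2
    rw [mul_pow, ← exp_nat_mul, ← mul_assoc] at this
    convert this using 3
    · simp [η, smul_sub, Finset.smul_sum]
    · push_cast; ring

end Cx

end Crest.Agent.X212.Rsp69
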