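import Crest.Agent.X212.Rsp69.Tw
import Crest.Agent.X212.Cyc79.Tr
import Crest.Agent.X212.Nka63.B
import Crest.Agent.X212.Map77.Sum

/-! Row 212, RESP (helper69): a common Hilbert space for the `L²` spaces of a pair of manifolds. -/

set_option autoImplicit false
set_option linter.unusedSectionVars false
noncomputable section
open scoped Manifold ContDiff Topology InnerProductSpace
open MeasureTheory Set Function Filter Real

namespace Crest.Agent.X212.Rsp69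
open An Sob92 Wz78 Dgr80
open Cyc79 (KK ct)
open Map77 (P2 pr2)
open ContinuousLinearMap (adjoint)

theorem norm_of_dense {ν K : Type} [Fintype ν] [DecidableEq ν] [NormedAddCommGroup K]
    [InnerProductSpace ℝ K] {S : Set K} (hS : Dense S) {v : Fm ν K} {c : ℝ}
    (h : ∀ k ∈ S, ‖k‖ ≤ 1 → ‖ct k v‖ ≤ c) : ‖v‖ ≤ √(Fintype.card ν) * c := by
  have h1 : ∀ k, ‖k‖ < 1 → ‖ct k v‖ ≤ c := fun k hk =>
    closure_minimal (t := {k | ‖ct k v‖ ≤ c}) (fun k hk => h k hk.2 (mem_ball_zero_iff.1 hk.1).le)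
      (isClosed_le (Cyc79.cont_ct v).norm continuous_const)
      (hS.open_subset_closure_inter Metric.isOpen_ball (mem_ball_zero_iff.2 hk))
  have c0 : 0 ≤ c := (norm_nonneg _).trans (h1 0 (by simp))
  have h2 : ∀ i, ‖v i‖ ≤ c := fun i => le_of_not_gt fun e => by
    obtain ⟨k, k1, k2⟩ := (innerSL ℝ (v i)).exists_lt_apply_of_lt_opNorm (r := c) (by simpa using e)
    refine k2.not_ge (le_trans ?_ ((PiLp.norm_apply_le _ i).trans (h1 k k1)))
    simp [real_inner_comm]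
  refine le_of_sq_le_sq ?_ (by positivity)
  rw [mul_pow, sq_sqrt (by positivity), PiLp.norm_sq_eq_of_L2, ← nsmul_eq_mul]
  exact Finset.sum_le_card_nsmul _ _ _ fun i _ => pow_le_pow_left₀ (norm_nonneg _) (h2 i) 2

variable {E : Type} [NormedAddCommGroup E] [NormedSpace ℝ E] [FiniteDimensional ℝ E]
  [MeasurableSpace E] [BorelSpace E]
  {HM : Type} [TopologicalSpace HM] {I : ModelWithCorners ℝ E HM} [I.Boundaryless]
  {M : Type} [TopologicalSpace M] [ChartedSpace HM M] [IsManifold I ∞ M]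
  [MeasurableSpace M] [T2Space M] [BorelSpace M] [SecondCountableTopology M]
  {ι : Type} [Fintype ι] {𝒟 : Type*} {lam : Type} [Fintype lam]

theorem exists_ps (V : Type) [NormedAddCommGroup V] [InnerProductSpace ℝ V] {S : Mf ι lam}
    (F : Pre I M ι) (F' : Pre S.I S.M ι) (φ : OpenPartialHomeomorph M S.M) (χ : S.M → ℝ) :
    ∃ (P : F'.H 0 (triv S.M V) →L[ℝ] F.H 0 (triv M V))
      (Q : F'.H 0 (triv S.M V) →L[ℝ] F'.H 0 (triv S.M V)),
      An.Iso F F' φ ∧ F'.Cb χ ∧ Sob92.Adm φ (tsupport χ) →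
      (∀ a b, ⟪P a, P b⟫_ℝ + ⟪Q a, Q b⟫_ℝ = ⟪a, b⟫_ℝ) ∧
      ∀ (g : Sec I (triv M V)) (g' : Sec S.I (triv S.M V)), ∃ u : Sec S.I (triv S.M V),
        (∀ k, ⟪P k, F.toH 0 _ g⟫_ℝ + ⟪Q k, F'.toH 0 _ g'⟫_ℝ = ⟪k, F'.toH 0 _ u⟫_ℝ) ∧
        ∀ x ∈ φ.source, χ (φ x) = 1 → u.1 (φ x) = g.1 x := by
  obtain ⟨c, ec⟩ : ∃ c, c = fun y => sin (π / 2 * χ y) := ⟨_, rfl⟩
  obtain ⟨s, es⟩ : ∃ c, c = fun y => cos (π / 2 * χ y) := ⟨_, rfl⟩
  refine ⟨trH F F' φ 0 _ _ fun y => c y • ContinuousLinearMap.id ℝ V, smulH F' 0 _ s,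
    fun ⟨h, hχ, ha⟩ => ?_⟩
  have hc : F'.Cb c := ec ▸ Cb_nem (g := fun t => sin (π / 2 * t)) (by fun_prop) hχ
  have hs : F'.Cb s := es ▸ Cb_nem (g := fun t => cos (π / 2 * t)) (by fun_prop) hχ
  have m : ∀ {f : S.M → ℝ} {u : S.M → V}, Sm S.I f → Sm S.I u → Sm S.I fun y => f y • u y :=
    fun hf hu => hf.smul hu
  have t0 : ∀ {N : Type} [NormedAddCommGroup N] [NormedSpace ℝ N] (w : S.M → N),
      tsupport (fun y => c y • w y) ⊆ tsupport χ := fun w =>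
    closure_mono fun y hy e => hy (by simp [ec, e])
  obtain ⟨C, h1, h2⟩ := Cb_smul hc (Cb_const (ContinuousLinearMap.id ℝ V))
  have rP := (rep_trH (k := 0) (p' := triv S.M V) (q := triv M V) h h1 (h2 0) ((t0 _).trans ha.1)
    fun _ _ _ _ => rfl).1
  have rQ := rep_smulH (k := 0) (p := triv S.M V) hs
  have sc := Cb.sm hc
  have ss := Cb.sm hs
  have i : ∀ {f : S.M → ℝ} (u : Sec S.I (triv S.M V)) {v : S.M → V}, Sm S.I f → Continuous v →
      Integrable (fun y => ⟪f y • u.1 y, v y⟫_ℝ) F'.μ := fun u _ hf hv =>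
    F'.integrable_inner (hf.smul u.2.1).continuous u.2.2.1.smul_left hv
  refine ⟨H_eq₂ (by fun_prop) (by fun_prop) fun u v => ?_, fun g g' => ?_⟩
  · have a := fun u : Sec S.I (triv S.M V) => ha.mono (isClosed_tsupport _) (t0 u.1)
    simp only [RepT_toH rP, RepT_toH rQ, Pre.inner_toH, smul_apply, ContinuousLinearMap.id_apply]
    rw [ip_pull h 0 (m sc u.2.1) (a u) (m sc v.2.1) (a v)]
    simp only [Pre.ip]
    rw [← integral_add (i u sc (m sc v.2.1).continuous) (i u ss (m ss v.2.1).continuous)]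
    congr 1; funext y
    simp only [inner_smul_left, inner_smul_right, conj_trivial, ec, es]
    linear_combination ⟪u.1 y, v.1 y⟫_ℝ * sin_sq_add_cos_sq (π / 2 * χ y)
  · have t1 : tsupport c ⊆ tsupport χ := by simpa using t0 fun _ => (1 : ℝ)
    have s1 : Sm S.I fun y => c y • pull φ.symm g.1 y := sm_cut sc fun y hy =>
      ((g.2.1 _).comp y (iso_smAt (iso_symm h) (ha.1 (t1 hy)))).congr_of_eventuallyEq
        (pull_eventuallyEq (φ := φ.symm) (ha.1 (t1 hy)) _)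
    have c1 : HasCompactSupport fun y => c y • pull φ.symm g.1 y := by
      refine .intro ((g.2.2.1.isCompact.inter_right ha.2).image_of_continuousOn
        (φ.continuousOn.mono fun x hx => hx.2.1)) fun y hy => by_contra fun e => hy ?_
      have y1 := t1 (subset_tsupport _ (left_ne_zero_of_smul e))
      have y2 := ha.1 y1
      have y3 := right_ne_zero_of_smul e
      rw [pull_of_mem (φ := φ.symm) y2] at y3
      exact ⟨φ.symm y, ⟨subset_tsupport _ y3, φ.map_target y2, by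
        rwa [mem_preimage, φ.right_inv y2]⟩, φ.right_inv y2⟩
    refine ⟨⟨fun y => c y • pull φ.symm g.1 y + s y • g'.1 y, mem_triv (s1.add (ss.smul g'.2.1))
      (c1.add g'.2.2.1.smul_left)⟩, H_eq (by fun_prop) (by fun_prop) fun v => ?_, fun x hx e => ?_⟩
    · have cv := v.2.1.continuous
      simp only [RepT_toH rP, RepT_toH rQ, Pre.inner_toH, smul_apply, ContinuousLinearMap.id_apply,
        Pre.ip, inner_add_right]
      rw [integral_add (F'.integrable_inner cv v.2.2.1 s1.continuous)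
        (F'.integrable_inner cv v.2.2.1 (m ss g'.2.1).continuous),
        ← integral_pull h (cv.inner s1.continuous) fun y hy =>
          ha.1 (t1 (subset_tsupport c fun e => hy (by simp [e])))]
      congr 2 <;> funext x
      · by_cases hx : x ∈ φ.source
        · simp [pull_of_mem hx, pull_of_mem (φ := φ.symm) (φ.map_source hx), φ.left_inv hx,
            inner_smul_left, inner_smul_right]
        · simp [pull_of_notMem hx]
      · simp [inner_smul_left, inner_smul_right]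
    · simp [ec, es, e, pull_of_mem (φ := φ.symm) (φ.map_source hx), φ.left_inv hx]

namespace Cx
variable (X : Cx I M ι 𝒟) {𝒟' : Type*} (σ : 𝒟' → 𝒟)

/-- reindexing -/
@[reducible] def cm : Cx I M ι 𝒟' where
  l := comap σ X.l
  F e := X.F (σ e)
  τ e := X.τ (σ e)
  p e := X.p (σ e)
  q e := X.q (σ e)
  C := X.C
  v := X.v
  tame := tendsto_comap.eventually X.tame
  sτ := tendsto_comap.eventually X.sτ
  vol := tendsto_comap.eventually X.vol

variable {X} {N : 𝒟 → Type} [∀ d, NormedAddCommGroup (N d)] [∀ d, NormedSpace ℝ (N d)]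
  {w : 𝒟 → ℝ → ℝ} {k : ℕ}

theorem Ev.cm {P : 𝒟 → M → Prop} (h : X.Ev P) : (X.cm σ).Ev fun e => P (σ e) :=
  let ⟨L, hL, h⟩ := h
  ⟨L, hL, tendsto_comap.eventually h⟩

theorem lw_cm (L : ℝ) : Tendsto (fun z : 𝒟' × ℝ => (σ z.1, z.2)) ((X.cm σ).lw L) (X.lw L) :=
  fun s hs => (ev_lw (X := X.cm σ) (P := fun z => (σ z.1, z.2) ∈ s)).2
    ((tendsto_comap (f := σ)).eventually (ev_lw.1 hs))

theorem Hk.cm {f : ∀ d, M → N d} (h : X.Hk w k f) :
    (X.cm σ).Hk (N := fun e => N (σ e)) (fun e => w (σ e)) k fun e => f (σ e) :=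
  let ⟨L, hL, h⟩ := h
  ⟨L, hL, fun R hR => have e := NB.comap (lw_cm σ _) (h R hR); e⟩

theorem Pr.cm {u : ∀ d, Bool → M → N d} (h : X.Pr w k u) :
    (X.cm σ).Pr (N := fun e => N (σ e)) (fun e => w (σ e)) k fun e => u (σ e) :=
  ⟨fun i => (h.b i).cm σ, h.d.cm σ⟩

end Cx

namespace Tw
open Cx
variable {X : Cx I M ι 𝒟} (T : Tw X lam) {𝒟' : Type*} {k n : ℕ}
  {V : 𝒟 → Type} [∀ d, NormedAddCommGroup (V d)] [∀ d, InnerProductSpace ℝ (V d)]
  {N : 𝒟 → Type} [∀ d, NormedAddCommGroup (N d)] [∀ d, NormedSpace ℝ (N d)]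

/-- reindexing -/
@[reducible] def cm (σ : 𝒟' → 𝒟) : Tw (X.cm σ) lam where
  S e := T.S (σ e)
  ψ e := T.ψ (σ e)
  κ := T.κ
  ρ e := T.ρ (σ e)
  rt := ⟨T.rt.κ0, tendsto_comap.eventually T.rt.wg,
    ⟨T.rt.lw.1, tendsto_comap.eventually T.rt.lw.2⟩, tendsto_comap.eventually T.rt.off⟩
  iso := tendsto_comap.eventually T.iso
  src := T.src.cm σ

variable {T}

/-- global `L²` bounds give bounds on the band -/
theorem hk0 {g : T.Sc N} {i : Bool} {K : ℝ} (h : ∀ᶠ d in X.l, Sm (T.S d i).I (g d i) ∧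
    LB (T.F d i).μ (fun y => ‖g d i y‖ ^ 2) K) : X.Hk 1 0 fun d x => g d i (T.ψ d i x) := by
  obtain ⟨L, hL, h1⟩ := T.rel.win
  refine ⟨L, hL, fun R hR => ⟨|K|, abs_nonneg _, ?_⟩⟩
  filter_upwards [h1 R, ev_fst h, ev_fst T.iso, ev_fst X.sτ, (bk_η' R 0).sa,
    W_vol (R := R) (by linarith)] with z h1 h hi hτ hη hv
  have s : Sm I fun x => X.η R z x • g z.1 i (T.ψ z.1 i x) := sm_cut (fun x => hη x trivial)
    fun x hx => ((h1 x (ts_η hτ.1 hx)).2 i).1.sm ((h1 x (ts_η hτ.1 hx)).2 i).2.1 (h.1 _)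
  refine ⟨zero_le_one, s, .intro hv.1 fun x hx => by rw [η_zero hx, zero_smul], ?_⟩
  have l : LB (X.F z.1).μ (pull (T.ψ z.1 i) fun y => ‖g z.1 i y‖ ^ 2) |K| :=
    ⟨(Nka63.integrable_pull_iff (hi.2 i).1).2 h.2.1.integrableOn, by
      rw [Nka63.integral_pull' (hi.2 i).1]
      exact (setIntegral_le_integral h.2.1 (.of_forall fun _ => sq_nonneg _)).trans
        (h.2.2.trans (le_abs_self K))⟩
  refine (l.mono (g' := fun x => ‖X.η R z x • g z.1 i (T.ψ z.1 i x)‖ ^ 2)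
    (s.continuous.norm.pow 2).aestronglyMeasurable (fun _ => sq_nonneg _) fun x => ?_).2.trans
    (by simp)
  by_cases hx : x ∈ X.W R z
  · rw [pull_of_mem ((h1 x hx).2 i).2.1, norm_smul, mul_pow, Real.norm_eq_abs, sq_abs]
    exact mul_le_of_le_one_left (sq_nonneg _) (pow_le_one₀ wc_mem.1 wc_mem.2)
  · rw [η_zero hx, zero_smul, norm_zero, sq, mul_zero]
    exact indicator_nonneg (fun _ _ => sq_nonneg _) _

/-- **interior regularity** for pairs of local solutions -/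
theorem lrT (hn : 7 ≤ n) (hk : k ≤ n) {A : ∀ d i, ι → (T.S d i).M → V d →L[ℝ] V d}
    (hA : ∀ a, T.EL (n + 1) fun d i => A d i a) (hs : ∀ᶠ d in X.l, ∀ i a x, Skew (A d i a x))
    {θ : ℕ → 𝒟 → M → ℝ} (hθ : ∀ j k, Bk (N := fun _ => ℝ) (pre X.F) X.l (un 𝒟 M) 1 k (θ j))
    (h1 : ∀ j, ∀ᶠ d in X.l, ∀ x ∈ tsupport (θ (j + 1) d), θ j d =ᶠ[𝓝 x] fun _ => 1) {R : T.Sc V}
    (he : X.Ev fun d x => x ∈ tsupport (θ 1 d) → ∀ i, R d i (T.ψ d i x) + lap (T.S d i).I
      (T.F d i).e (T.F d i).dv (A d i) (R d i) (T.ψ d i x) = 0)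
    (h0 : X.Pr T.ρ 0 fun d i x => θ 0 d x • R d i (T.ψ d i x)) :
    X.Pr T.ρ (k + 2) fun d i x => θ (k + 2 + (k + 3) + 1) d x • R d i (T.ψ d i x) := by
  have sub : ∀ j, ∀ᶠ d in X.l, tsupport (θ (j + 1) d) ⊆ tsupport (θ 1 d) := fun j => by
    induction j with
    | zero => exact .of_forall fun _ => subset_rfl
    | succ j ih =>
      filter_upwards [ih, h1 (j + 1)] with d ih h x hx
      exact ih (subset_tsupport _ (by simp [(h x hx).self_of_nhds]))
  refine (Pr.lr (A := fun d i a x => A d i a (T.ψ d i x)) (θ := fun j => θ (j + 1)) T.lw hn hk hA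
    (.of_ev (hs.mono fun _ h _ i a => h i a _)) (fun j => hθ _) (fun j => h1 _)
    (((T.rel.and he).and (.of_ev (h1 0))).mono fun d x h hx i => ?_) h0).congr
    (.of_ev (((sub (k + 2 + (k + 3))).and (h1 0)).mono fun d h x i => ?_))
  · have e := h.2 hx
    rw [(h.1.1.2 i).1.lap (h.1.1.2 i).2.1 h.1.1.1 (h.1.1.2 i).2.2 (u' := R d i)
      (fun _ => .of_forall fun _ => rfl) (e.mono fun y hy => by simp [hy]), e.self_of_nhds, one_smul]
    exact h.1.2 hx i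
  · by_cases e : θ (k + 2 + (k + 3) + 1) d x = 0
    · simp [e]
    · rw [(h.2 x (h.1 (subset_tsupport _ e))).self_of_nhds, one_smul]

variable (T) (ν : Type) [Fintype ν]

/-- a common Hilbert space -/
structure HD where
  H : 𝒟 → Type
  [i1 : ∀ d, NormedAddCommGroup (H d)]
  [i2 : ∀ d, InnerProductSpace ℝ (H d)]
  [i3 : ∀ d, CompleteSpace (H d)]
  j : ∀ d i, KK (T.F d i).toPre ν →L[ℝ] H d
  iso : ∀ᶠ d in X.l, ∀ i a b, ⟪j d i a, j d i b⟫_ℝ = ⟪a, b⟫_ℝ
  dn : ∃ L, 0 ≤ L ∧ ∀ᶠ d in X.l, Dense {h | ∃ u : ∀ i, Sec (T.S d i).I (triv (T.S d i).M (Eu ν)),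
    (∀ i, adjoint (j d i) h = (T.F d i).toH 0 _ (u i)) ∧
      ∀ x ∈ X.bd L d, (u true).1 (T.ψ d true x) = (u false).1 (T.ψ d false x)}

attribute [instance] HD.i1 HD.i2 HD.i3

variable {T}

theorem exists_hd {χ : T.Fn}
    (h : ∀ᶠ d in X.l, ∀ i, (T.F d i).Cb (χ d i) ∧ Sob92.Adm (T.ψ d i) (tsupport (χ d i)))
    (h1 : X.Ev fun d x => ∀ i, χ d i (T.ψ d i x) = 1) : Nonempty (T.HD ν) := by
  classical
  choose P Q hP using fun d i => exists_ps (Eu ν) (X.F d).toPre (T.F d i).toPre (T.ψ d i) (χ d i)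
  have hP' := (T.iso.and h).mono fun d h i => hP d i ⟨(h.1.2 i).1, h.2 i⟩
  let K := fun d => PiLp 2 fun i => KK (T.F d i).toPre ν
  let s := fun d i => (PiLp.continuousLinearEquiv 2 ℝ fun i =>
    KK (T.F d i).toPre ν).symm.toContinuousLinearMap ∘L ContinuousLinearMap.single ℝ _ i
  have e : ∀ d i a (v : P2 (KK (X.F d).toPre ν) (K d)), ⟪pr2 (P d i) (s d i ∘L Q d i) a, v⟫_ℝ =
      ⟪P d i a, v.fst⟫_ℝ + ⟪Q d i a, v.snd i⟫_ℝ := fun d i a v => by
    rw [Map77.inner2, Map77.f2_pr2, Map77.s2_pr2, PiLp.inner_apply, Finset.sum_eq_single i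
      (fun j _ hj => by simp [s, Pi.single_eq_of_ne hj]) (by simp)]
    simp [s]; rfl
  obtain ⟨L, hL, h2⟩ := h1.and T.src
  refine ⟨⟨fun d => P2 (KK (X.F d).toPre ν) (K d), fun d i => pr2 (P d i) (s d i ∘L Q d i),
    hP'.mono fun d h i a b => ?_, L, hL, (hP'.and h2).mono fun d h => ?_⟩⟩
  · rw [e, ← (h i).1 a b]
    congr 2 <;> simp [s, Map77.pr2_apply, Map77.i1, Map77.i2]
  · have d1 : DenseRange fun z : KK (X.F d).toPre ν × ∀ i, KK (T.F d i).toPre ν =>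
        (WithLp.toLp 2 (z.1, WithLp.toLp 2 z.2) : P2 _ (K d)) :=
      Surjective.denseRange fun v => ⟨(v.fst, v.snd.ofLp), rfl⟩
    refine (d1.comp (((X.F d).dense_toH 0 _).prodMap (.piMap fun i => (T.F d i).dense_toH 0 _))
      (by fun_prop)).mono ?_
    rintro _ ⟨⟨g, g'⟩, rfl⟩
    choose u u1 u2 using fun i => (h.1 i).2 g (g' i)
    exact ⟨u, fun i => ext_inner_left ℝ fun k => by
      rw [ContinuousLinearMap.adjoint_inner_right, e, ← u1]; rfl, fun x hx =>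
      (u2 _ x ((h.2 x hx).2 _) ((h.2 x hx).1 _)).trans (u2 _ x ((h.2 x hx).2 _) ((h.2 x hx).1 _)).symm⟩

end Tw

end Crest.Agent.X212.Rsp69
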