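import Crest.Agent.X212.Rsp69.Dif

/-! Row 212, RESP (helper69): pairs of sections which are close deep inside a band. -/

set_option autoImplicit false
set_option linter.unusedSectionVars false
noncomputable section
open scoped Manifold ContDiff Topology InnerProductSpace
open MeasureTheory Set Function Filter Real

namespace Crest.Agent.X212.Rsp69
open An Sob92 Wz78

variable {E : Type} [NormedAddCommGroup E] [NormedSpace ℝ E] [FiniteDimensional ℝ E]
  [MeasurableSpace E] [BorelSpace E]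
  {HM : Type} [TopologicalSpace HM] {I : ModelWithCorners ℝ E HM} [I.Boundaryless]
  {M : Type} [TopologicalSpace M] [ChartedSpace HM M] [IsManifold I ∞ M]
  [MeasurableSpace M] [T2Space M] [BorelSpace M] [SecondCountableTopology M]
  {ι : Type} [Fintype ι] {𝒟 : Type*}

namespace Cx
variable {X : Cx I M ι 𝒟} {κ c : ℝ} {ρ w : 𝒟 → ℝ → ℝ} {k n : ℕ}
  {V : 𝒟 → Type} [∀ d, NormedAddCommGroup (V d)] [∀ d, InnerProductSpace ℝ (V d)]
  {N N' N'' : 𝒟 → Type} [∀ d, NormedAddCommGroup (N d)] [∀ d, NormedSpace ℝ (N d)]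
  [∀ d, NormedAddCommGroup (N' d)] [∀ d, NormedSpace ℝ (N' d)]
  [∀ d, NormedAddCommGroup (N'' d)] [∀ d, NormedSpace ℝ (N'' d)]

theorem Lw.zero (hw : X.Lw c w) (k : ℕ) : X.Hk w k fun d _ => (0 : N d) :=
  Bd.hk hw ⟨0, le_rfl, .zero (hw.2.mono fun _ h _ _ => (h 0 _).1.le)⟩

variable (X) in
/-- bounded pairs whose difference is bounded by `ρ` -/
structure Pr (ρ : 𝒟 → ℝ → ℝ) (k : ℕ) (u : ∀ d, Bool → M → N d) : Prop where
  b : ∀ i, X.Hk 1 k fun d => u d i
  d : X.Hk ρ k fun d x => u d true x - u d false x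

namespace Pr
variable {u v : ∀ d, Bool → M → N d}

theorem of_eq (hw : X.Lw c ρ) (h : ∀ i, X.Hk 1 k fun d => u d i)
    (e : X.Ev fun d x => u d true x = u d false x) : X.Pr ρ k u :=
  ⟨h, (hw.zero k).congr (e.mono fun _ _ e => (sub_eq_zero.2 e).symm)⟩

theorem same (hw : X.Lw c ρ) {f : ∀ d, M → N d} (h : X.Hk 1 k f) : X.Pr ρ k fun d _ => f d :=
  of_eq hw (fun _ => h) (.of_ev (.of_forall fun _ _ => rfl))

theorem congr (h : X.Pr ρ k u) (e : X.Ev fun d x => ∀ i, u d i x = v d i x) : X.Pr ρ k v :=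
  ⟨fun i => (h.b i).congr (e.mono fun _ _ e => e i), h.d.congr (e.mono fun _ _ e => by rw [e, e])⟩

theorem congr' (h : X.Pr ρ k u) (e : ∀ d i x, u d i x = v d i x) : X.Pr ρ k v :=
  h.congr (.of_ev (.of_forall fun d x i => e d i x))

theorem of_le {j : ℕ} (h : X.Pr ρ k u) (hj : j ≤ k) : X.Pr ρ j u :=
  ⟨fun i => (h.b i).of_le hj, h.d.of_le hj⟩

theorem sa (h : X.Pr ρ k u) : X.Ev fun d x => ∀ i, SA I (u d i) x := Ev.all fun i => (h.b i).sa

theorem add (h : X.Pr ρ k u) (h' : X.Pr ρ k v) : X.Pr ρ k fun d i x => u d i x + v d i x :=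
  ⟨fun i => (h.b i).add (h'.b i), (h.d.add h'.d).congr' fun _ _ => (add_sub_add_comm ..).symm⟩

theorem clm {T : ∀ d, N d →L[ℝ] N' d} (hT : Ub X.l fun d => ‖T d‖) (h : X.Pr ρ k u) :
    X.Pr ρ k fun d i x => T d (u d i x) :=
  ⟨fun i => (h.b i).clm hT, (h.d.clm hT).congr' fun _ _ => map_sub ..⟩

theorem neg (h : X.Pr ρ k u) : X.Pr ρ k fun d i x => -u d i x :=
  ⟨fun i => (h.b i).neg, h.d.neg.congr' fun _ _ => neg_sub' ..⟩

theorem sub (h : X.Pr ρ k u) (h' : X.Pr ρ k v) : X.Pr ρ k fun d i x => u d i x - v d i x := by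
  simpa only [sub_eq_add_neg] using h.add h'.neg

theorem zero (hw : X.Lw c ρ) : X.Pr ρ k fun d _ _ => (0 : N d) := same hw (lw_one.zero k)

theorem sum (hw : X.Lw c ρ) {α : Type*} (s : Finset α) {u : α → ∀ d, Bool → M → N d}
    (h : ∀ a ∈ s, X.Pr ρ k (u a)) : X.Pr ρ k fun d i x => ∑ a ∈ s, u a d i x :=
  ⟨fun i => .sum s (lw_one.zero (N := N) k) fun a ha => (h a ha).b i,
    (Hk.sum s (hw.zero (N := N) k) fun a ha => (h a ha).d).congr' fun _ _ => Finset.sum_sub_distrib ..⟩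

theorem bil {B : ∀ d, N d →L[ℝ] N' d →L[ℝ] N'' d} (hB : Ub X.l fun d => ‖B d‖) {i j : ℕ}
    (h : X.Pr ρ i u) {v : ∀ d, Bool → M → N' d} (h' : X.Pr ρ j v) (hi : k ≤ i) (hj : k ≤ j)
    (hk : k + 1 ≤ (i - 3) + (j - 3)) : X.Pr ρ k fun d i x => B d (u d i x) (v d i x) := by
  refine ⟨fun i => ?_, ?_⟩
  · exact (Hk.bil hB (h.b i) (h'.b i) hi hj hk).wt (c := 1) (.of_forall fun _ _ => by simp)
  have h1 := Hk.bil hB h.d (h'.b true) hi hj hk
  have h2 := Hk.bil hB (h.b false) h'.d hi hj hk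
  simp only [Pi.one_apply, mul_one, one_mul] at h1 h2
  exact (h1.add h2).congr' fun _ _ => by simp

section
variable (hn : 7 ≤ n) (hk : k ≤ n)
include hn hk

theorem bilR {B : ∀ d, N d →L[ℝ] N' d →L[ℝ] N'' d} (hB : Ub X.l fun d => ‖B d‖)
    (h : X.Pr ρ n u) {v : ∀ d, Bool → M → N' d} (h' : X.Pr ρ k v) :
    X.Pr ρ k fun d i x => B d (u d i x) (v d i x) := bil hB h h' hk le_rfl (by omega)

theorem app {T : ∀ d, Bool → M → N d →L[ℝ] N' d} (h : X.Pr ρ n T) (h' : X.Pr ρ k u) :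
    X.Pr ρ k fun d i x => T d i x (u d i x) :=
  bilR hn hk (B := fun d => ContinuousLinearMap.id ℝ (N d →L[ℝ] N' d))
    (.of_le 1 fun _ => ContinuousLinearMap.norm_id_le) h h'

theorem smul {r : 𝒟 → Bool → M → ℝ} (h : X.Pr (N := fun _ => ℝ) ρ n r) (h' : X.Pr ρ k u) :
    X.Pr ρ k fun d i x => r d i x • u d i x :=
  bilR hn hk (B := fun d => ContinuousLinearMap.lsmul ℝ ℝ (E := N d))
    (.of_le 1 fun _ => ContinuousLinearMap.opNorm_lsmul_le) h h'

end

theorem D (h : X.Pr ρ (k + 1) u) (a : ι) : X.Pr ρ k fun d i => (X.F d).D a (u d i) :=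
  ⟨fun i => (h.b i).D a, (h.d.D a).congr (h.sa.mono fun _ _ h => dv_sub (h _).md (h _).md)⟩

theorem nab (hn : 7 ≤ n) (hk : k ≤ n) {A : ∀ d, Bool → ι → M → N d →L[ℝ] N d}
    (hA : ∀ a, X.Pr ρ n fun d i => A d i a) (h : X.Pr ρ (k + 1) u) (a : ι) :
    X.Pr ρ k fun d i => Wz78.nab I (X.F d).e (A d i) a (u d i) :=
  (h.D a).add ((hA a).app hn hk (h.of_le k.le_succ))

theorem lap (hw : X.Lw c ρ) (hn : 7 ≤ n) (hk : k ≤ n) {A : ∀ d, Bool → ι → M → N d →L[ℝ] N d}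
    (hA : ∀ a, X.Pr ρ (n + 1) fun d i => A d i a) (h : X.Pr ρ (k + 2) u) :
    X.Pr ρ k fun d i => lap I (X.F d).e (X.F d).dv (A d i) (u d i) :=
  have h1 := nab (by omega) (by omega) hA h
  (sum hw Finset.univ fun a _ => (nab (by omega) (by omega) hA (h1 a) a).add
    ((same hw (Hk.dv a)).smul hn hk ((h1 a).of_le k.le_succ))).neg

theorem comp (hw : X.Lw c ρ) {P Q : Type} [NormedAddCommGroup P] [InnerProductSpace ℝ P]
    [FiniteDimensional ℝ P] [NormedAddCommGroup Q] [NormedSpace ℝ Q] {φ : P → Q}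
    (hφ : ContDiff ℝ ∞ φ) (hn : 8 ≤ n) {u : 𝒟 → Bool → M → P} (h : X.Pr (N := fun _ => P) ρ n u) :
    X.Pr (N := fun _ => Q) ρ n fun d i x => φ (u d i x) :=
  ⟨fun i => (h.b i).comp hn n hφ le_rfl, Hk.comp_sub hw hn (h.b _) (h.b _) h.d n hφ le_rfl⟩

variable {A : ∀ d, Bool → ι → M → V d →L[ℝ] V d} {R s : ∀ d, Bool → M → V d}

/-- **the resolvent step** -/
theorem res (hρ : X.Rt κ ρ) (hn : 7 ≤ n) (hk : k ≤ n) (hA : ∀ a, X.Pr ρ (n + 1) fun d i => A d i a)
    (hs : X.Ev fun d x => ∀ i a, Skew (A d i a x))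
    (he : X.Ev fun d x => ∀ i, R d i x + Wz78.lap I (X.F d).e (X.F d).dv (A d i) (R d i) x = s d i x)
    (h0 : ∀ i, X.Hk 1 0 fun d => R d i) (hf : X.Pr ρ k s) : X.Pr ρ (k + 2) R := by
  have hb := fun i => Hk.lr1 (hs.mono fun _ _ h => h i) (he.mono fun _ _ h => h i) (h0 i) hn hk
    (fun a => (hA a).b i) (hf.b i)
  have sA := Ev.all fun a => ((hA a).b false).sa
  have h1 := hf.d.sub (lap hρ.lw hn hk hA (same hρ.lw (hb true))).d
  have h2 := (hb true).sub (hb false)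
  have e := ((he.and sA).and ((hb true).sa.and (hb false).sa)).mono
    (Q := fun d x => R d true x - R d false x + Wz78.lap I (X.F d).e (X.F d).dv (A d false)
      (fun x => R d true x - R d false x) x = s d true x - s d false x -
      (Wz78.lap I (X.F d).e (X.F d).dv (A d true) (R d true) x -
        Wz78.lap I (X.F d).e (X.F d).dv (A d false) (R d true) x)) fun d x h => by
      rw [lap_sub' h.1.2 h.2.1 h.2.2, ← h.1.1, ← h.1.1]; abel
  exact ⟨hb, Hk.lr1 (hs.mono fun _ _ h => h false) e (Hk.diff hρ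
    ((hs.and sA).mono fun _ _ h a => ⟨h.1 false a, h.2 a⟩) e (h2.of_le (by omega))
    (fun a => Hk.nab (n := n + 1) (by omega) (by omega) (fun a => (hA a).b false)
      (h2.of_le (by omega)) a) (h1.of_le k.zero_le)) hn hk (fun a => (hA a).b false) h1⟩

/-- **interior regularity** for pairs of local solutions of the homogeneous equation -/
theorem lr (hw : X.Lw c ρ) (hn : 7 ≤ n) (hk : k ≤ n) (hA : ∀ a, X.Pr ρ (n + 1) fun d i => A d i a)
    (hs : X.Ev fun d x => ∀ i a, Skew (A d i a x)) {θ : ℕ → 𝒟 → M → ℝ}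
    (hθ : ∀ j k, Bk (N := fun _ => ℝ) (pre X.F) X.l (un 𝒟 M) 1 k (θ j))
    (h1 : ∀ j, ∀ᶠ d in X.l, ∀ x ∈ tsupport (θ (j + 1) d), θ j d =ᶠ[𝓝 x] fun _ => 1)
    (he : X.Ev fun d x => x ∈ tsupport (θ 0 d) →
      ∀ i, R d i x + Wz78.lap I (X.F d).e (X.F d).dv (A d i) (R d i) x = 0)
    (h0 : X.Pr ρ 0 R) : X.Pr ρ (k + 2) fun d i x => θ (k + 2 + (k + 3)) d x • R d i x := by
  have hb := fun i => Hk.lr hθ h1 (hs.mono fun _ _ h => h i) (he.mono fun _ _ h e => h e i) (h0.b i)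
    hn hk (fun a => (hA a).b i) (lw_one.zero k)
  have sub : ∀ j, ∀ᶠ d in X.l, tsupport (θ j d) ⊆ tsupport (θ 0 d) := fun j => by
    induction j with
    | zero => exact .of_forall fun _ => subset_rfl
    | succ j ih =>
      filter_upwards [ih, h1 j] with d ih h x hx
      exact ih (subset_tsupport _ (by simp [(h x hx).self_of_nhds]))
  have sA := Ev.all fun a => ((hA a).b false).sa
  have h2 := (lap hw hn hk hA (same hw (hb true))).d.neg
  have h3 := Hk.lr (θ := fun j => θ (j + (k + 3))) (fun j => hθ _)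
    (fun j => by simpa only [add_right_comm j 1] using h1 (j + (k + 3))) (hs.mono fun _ _ h => h false)
    ((((he.and sA).and h0.sa).and (Ev.of_ev (((h1 (k + 2)).and (sub (k + 3))).mono
      fun d h x (hx : x ∈ tsupport (θ (k + 3) d)) => And.intro (h.1 x hx) (h.2 hx)))).mono
      fun d x h hx => ?_) h0.d hn hk (fun a => (hA a).b false) h2
  · refine ⟨fun i => ?_, h3.congr' fun _ _ => smul_sub ..⟩
    refine (Hk.lr (θ := fun j => θ (j + (k + 3))) (fun j => hθ _)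
      (fun j => by simpa only [add_right_comm j 1] using h1 (j + (k + 3))) (hs.mono fun _ _ h => h i)
      ((he.and (Ev.of_ev ((sub (0 + (k + 3))).mono fun d h x (hx : x ∈ _) => h hx))).mono
        fun _ _ h e => h.1 (h.2 e) i) (h0.b i) hn hk (fun a => (hA a).b i) (lw_one.zero k))
  · rw [zero_add] at hx
    have e : (fun y => θ (k + 2) d y • R d true y) =ᶠ[𝓝 x] R d true :=
      (h.2 hx).1.mono fun y hy => by simp [hy]
    rw [lap_sub' h.1.1.2 (h.1.2 _) (h.1.2 _), Eqv71.lap_congr e, Eqv71.lap_congr e,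
      eq_neg_of_add_eq_zero_right (h.1.1.1 (h.2 hx).2 true),
      eq_neg_of_add_eq_zero_right (h.1.1.1 (h.2 hx).2 false)]
    abel

end Pr
end Cx

end Crest.Agent.X212.Rsp69
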