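import Crest.Agent.X212.Rsp69.Loc
import Crest.Agent.X212.Ell97.Nab

/-! Row 212, RESP (helper69): interior estimates for `1 + ∇*∇`, uniform in the fibre. -/

set_option autoImplicit false
set_option linter.unusedSectionVars false
noncomputable section
open scoped Manifold ContDiff Topology InnerProductSpace
open MeasureTheory Set Function Filter

namespace Crest.Agent.X212.Rsp69
open An Sob92 Wz78

variable {E : Type} [NormedAddCommGroup E] [NormedSpace ℝ E] [FiniteDimensional ℝ E]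
  [MeasurableSpace E] [BorelSpace E]
  {HM : Type} [TopologicalSpace HM] {I : ModelWithCorners ℝ E HM}
  {M : Type} [TopologicalSpace M] [ChartedSpace HM M] [IsManifold I ∞ M]
  [MeasurableSpace M] [T2Space M] [BorelSpace M] [SecondCountableTopology M]
  {ι : Type} [Fintype ι] {F : Fr I M ι} {C : ℕ → ℝ}

section gard
variable {V W : Type} [NormedAddCommGroup V] [InnerProductSpace ℝ V] [NormedAddCommGroup W]
  [InnerProductSpace ℝ W]

/-- `1 + Δ` for the trivial connection -/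
def lp0 (F : Fr I M ι) (g : M → V) (x : M) : V :=
  g x - ∑ a, (F.D a (F.D a g) x + F.dv a x • F.D a g x)

theorem lp0_eq (g : M → V) (x : M) : g x + lap I F.e F.dv (fun _ _ => 0) g x = lp0 F g x := by
  have : ∀ (a : ι) (u : M → V), nab I F.e (fun _ _ => 0) a u = F.D a u := fun a u =>
    funext fun x => by simp [nab, Pre.D_def]
  simp only [lap, this, lp0, sub_eq_add_neg]

variable (V) in
theorem gard_fix (C : ℕ → ℝ) (k : ℕ) : ∃ K, 0 ≤ K ∧ ∀ F : Fr I M ι, F.Tame C → ∀ g : M → V,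
    Sm I g → HasCompactSupport g → F.nrm (k + 2) g ≤ K * F.nrm k (lp0 F g) := by
  obtain ⟨K, hK, h⟩ := Ell97.lap_unif I M V (ι := ι) fun k => |C k|
  have hs : ∀ (a : ι) (x : M), Skew ((fun _ _ => 0 : ι → M → V →L[ℝ] V) a x) :=
    fun _ _ _ _ => by simp
  refine ⟨K k, hK k, fun F hF g hg hc => ?_⟩
  have hF' := Ell97.Tame_mono hF fun k => le_abs_self (C k)
  have h1 := h F (fun _ _ => 0) hF' (fun _ => ⟨contMDiff_const, fun k =>
    CB_mono (CB_const k _) (by simp)⟩) hs k (F.toH (k + 2) _ ⟨g, hg, hc, fun _ => rfl⟩)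
  obtain ⟨v, hv, h2⟩ := Ell97.rep_lapH hF' (fun _ => Cb_const 0) hs k ⟨g, hg, hc, fun _ => rfl⟩
  rw [h2, Pre.norm_toH, Pre.norm_toH, hv] at h1
  simpa only [lp0_eq] using h1

theorem D_clm (L : V →L[ℝ] W) {g : M → V} (hg : Sm I g) (a : ι) :
    F.D a (fun x => L (g x)) = fun x => L (F.D a g x) := funext fun x => dv_clm L (md hg x)

theorem nrm_iso (L : V →L[ℝ] W) (hL : ∀ v, ‖L v‖ = ‖v‖) (k : ℕ) : ∀ {g : M → V}, Sm I g →
    N2 F.toPre k (fun x => L (g x)) = N2 F.toPre k g := by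
  induction k with
  | zero => intro g _; simp only [n2, hL]
  | succ k ih =>
    intro g hg
    simp only [n2, hL, ← Pre.D_def, D_clm L hg, fun a => ih (F.sm_D hg a)]

theorem sm_lp0 {g : M → V} (hg : Sm I g) : Sm I (lp0 F g) := fun x =>
  (hg x).sub (SA.sum _ fun a _ => (F.sm_D (F.sm_D hg a) a x).add
    (SA.smul (F.dv_sm a x) (F.sm_D hg a x)))

end gard

/-- the Gårding estimate, uniformly in the fibre -/
theorem gard (C : ℕ → ℝ) (k : ℕ) : ∃ K, 0 ≤ K ∧ ∀ F : Fr I M ι, F.Tame C → ∀ (V : Type)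
    [NormedAddCommGroup V] [InnerProductSpace ℝ V] (g : M → V), Sm I g → HasCompactSupport g →
      F.nrm (k + 2) g ≤ K * F.nrm k (lp0 F g) := by
  by_contra h
  push Not at h
  choose F hF V i1 i2 g hg hc hlt using fun n : ℕ => h n n.cast_nonneg
  obtain ⟨K, -, hK⟩ := gard_fix (I := I) (M := M) (ι := ι) (lp V 2) C k
  obtain ⟨n, hn⟩ := exists_nat_ge K
  let L : V n →L[ℝ] lp V 2 := lp.singleContinuousLinearMap ℝ V 2 n
  have hL : ∀ v, ‖L v‖ = ‖v‖ := fun v => lp.norm_single (by norm_num) n v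
  have h1 := hK (F n) (hF n) (fun x => L (g n x)) (L.contMDiff.comp (hg n))
    ((hc n).comp_left (g := L) (map_zero L))
  have h2 : lp0 (F n) (fun x => L (g n x)) = fun x => L (lp0 (F n) (g n) x) := funext fun x => by
    simp only [lp0, D_clm L (hg n), D_clm L ((F n).sm_D (hg n) _), map_sub, map_sum, map_add, map_smul]
  rw [h2, nrm_eq, nrm_eq, nrm_iso L hL _ (hg n), nrm_iso L hL _ (sm_lp0 (hg n)), ← nrm_eq,
    ← nrm_eq] at h1
  exact (hlt n).not_ge (h1.trans (mul_le_mul_of_nonneg_right hn (nrm_nonneg _ _)))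

section fam
variable {𝒟 : Type*} {V : 𝒟 → Type} [∀ d, NormedAddCommGroup (V d)]
  [∀ d, InnerProductSpace ℝ (V d)]
  {N N' N'' : 𝒟 → Type} [∀ d, NormedAddCommGroup (N d)] [∀ d, NormedSpace ℝ (N d)]
  [∀ d, NormedAddCommGroup (N' d)] [∀ d, NormedSpace ℝ (N' d)]
  [∀ d, NormedAddCommGroup (N'' d)] [∀ d, NormedSpace ℝ (N'' d)]
  {F : 𝒟 → Fr I M ι} {l : Filter 𝒟} {m : 𝒟 → ℝ} {k : ℕ} {f g : ∀ d, M → N d}

/-- the underlying frames -/
abbrev pre (F : 𝒟 → Fr I M ι) : 𝒟 → Pre I M ι := fun d => (F d).toPre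

/-- everywhere -/
abbrev un (𝒟 : Type*) (M : Type) : 𝒟 → Set M := fun _ => univ

theorem Bk.glob {P : 𝒟 → Pre I M ι} (h : Bk P l (un 𝒟 M) (fun d _ => m d) k f) :
    ∃ K, 0 ≤ K ∧ ∀ᶠ d in l, Sm I (f d) ∧ (P d).CB k (f d) (K * m d) :=
  let ⟨K, hK, h⟩ := h
  ⟨K, hK, h.mono fun _ h => ⟨fun x => (h x trivial).2.1, CB_of_PB fun x => (h x trivial).2.2⟩⟩

theorem Bk.cut {P : 𝒟 → Pre I M ι} {χ w : 𝒟 → M → ℝ}
    (hχ : Bk (N := fun _ => ℝ) P l (un 𝒟 M) 1 k χ) (hw : ∀ᶠ d in l, ∀ x, 0 ≤ w d x)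
    (h : Bk P l (fun d => tsupport (χ d)) w k f) :
    Bk P l (un 𝒟 M) w k fun d x => χ d x • f d x := by
  obtain ⟨K, hK, h⟩ := (hχ.mono (.of_forall fun _ => subset_univ _)).smulR h
  refine ⟨K, hK, (h.and hw).mono fun d h x _ => ?_⟩
  by_cases hx : x ∈ tsupport (χ d)
  · exact h.1 x hx
  · have e : (fun y => χ d y • f d y) =ᶠ[𝓝 x] fun _ => 0 :=
      (notMem_tsupport_iff_eventuallyEq.1 hx).mono fun y hy => by simp [hy]
    exact ⟨h.2 x, sa_congr contMDiffAt_const e.symm, .of_ev_zero k e (mul_nonneg hK (h.2 x))⟩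

/-- uniform Sobolev bounds -/
def NB (F : 𝒟 → Fr I M ι) (l : Filter 𝒟) (m : 𝒟 → ℝ) (k : ℕ) (g : ∀ d, M → N d) : Prop :=
  ∃ K, 0 ≤ K ∧ ∀ᶠ d in l, 0 ≤ m d ∧ Sm I (g d) ∧ HasCompactSupport (g d) ∧
    N2 (F d).toPre k (g d) ≤ K * m d ^ 2

namespace NB

theorem congr (h : NB F l m k f) (e : ∀ᶠ d in l, f d = g d) : NB F l m k g :=
  let ⟨K, hK, h⟩ := h
  ⟨K, hK, (h.and e).mono fun _ h => h.2 ▸ h.1⟩

theorem comap {𝒟' : Type*} {l' : Filter 𝒟'} {φ : 𝒟' → 𝒟} (hφ : Tendsto φ l' l)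
    (h : NB F l m k f) : NB (fun d => F (φ d)) l' (fun d => m (φ d)) k fun d => f (φ d) :=
  let ⟨K, hK, h⟩ := h
  ⟨K, hK, hφ.eventually h⟩

theorem of_le {j : ℕ} (h : NB F l m k f) (hj : j ≤ k) : NB F l m j f :=
  let ⟨K, hK, h⟩ := h
  ⟨K, hK, h.mono fun _ h => ⟨h.1, h.2.1, h.2.2.1, (n2_mono hj _).trans h.2.2.2⟩⟩

theorem wt {m' : 𝒟 → ℝ} {c : ℝ} (h : NB F l m k f) (hm : ∀ᶠ d in l, 0 ≤ m' d ∧ m d ≤ c * m' d) :
    NB F l m' k f :=
  let ⟨K, hK, h⟩ := h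
  ⟨K * c ^ 2, by positivity, (h.and hm).mono fun _ h => ⟨h.2.1, h.1.2.1, h.1.2.2.1,
    h.1.2.2.2.trans (by
      rw [mul_assoc, ← mul_pow]
      exact mul_le_mul_of_nonneg_left (pow_le_pow_left₀ h.1.1 h.2.2 2) hK)⟩⟩

theorem D (h : NB F l m (k + 1) f) (a : ι) : NB F l m k fun d => (F d).D a (f d) :=
  let ⟨K, hK, h⟩ := h
  ⟨K, hK, h.mono fun d h => ⟨h.1, (F d).sm_D h.2.1 a, (F d).hcs_D h.2.2.1 a,
    (n2_dv_le k _ a).trans h.2.2.2⟩⟩

theorem succ (h : NB F l m 0 f) (h' : ∀ a, NB F l m k fun d => (F d).D a (f d)) :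
    NB F l m (k + 1) f := by
  obtain ⟨K, hK, h⟩ := h
  choose K' hK' h' using h'
  refine ⟨K + ∑ a, K' a, add_nonneg hK (Finset.sum_nonneg fun a _ => hK' a),
    (h.and (eventually_all.2 h')).mono fun d h => ⟨h.1.1, h.1.2.1, h.1.2.2.1, ?_⟩⟩
  rw [add_mul, Finset.sum_mul]
  exact add_le_add h.1.2.2.2 (Finset.sum_le_sum fun a _ => (h.2 a).2.2.2)

theorem add (h : NB F l m k f) (h' : NB F l m k g) : NB F l m k fun d x => f d x + g d x :=
  let ⟨K, hK, h⟩ := h; let ⟨K', hK', h'⟩ := h'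
  ⟨2 * K + 2 * K', by positivity, (h.and h').mono fun d h => ⟨h.1.1, h.1.2.1.add h.2.2.1,
    h.1.2.2.1.add h.2.2.2.1, (n2_add_le (F d).sm k h.1.2.1 h.2.2.1 (FL_of_hcs k h.1.2.1 h.1.2.2.1)
      (FL_of_hcs k h.2.2.1 h.2.2.2.1)).trans (by nlinarith [h.1.2.2.2, h.2.2.2.2])⟩⟩

theorem mul {B : ∀ d, N d →L[ℝ] N' d →L[ℝ] N'' d} (hB : Ub l fun d => ‖B d‖)
    (h : Bk (pre F) l (un 𝒟 M) 1 k f) {g : ∀ d, M → N' d} (h' : NB F l m k g) :
    NB F l m k fun d x => B d (f d x) (g d x) := by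
  obtain ⟨K, hK, h'⟩ := h'
  obtain ⟨K', hK', h⟩ := Bk.glob (m := fun _ => 1) h
  obtain ⟨c, hc, hB⟩ := hB
  have := cK_nonneg (ι := ι) k
  refine ⟨(cK ι k * c * (K' * 1)) ^ 2 * K, by positivity, ((h.and h').and hB).mono
    fun d ⟨⟨h, h'⟩, hB⟩ => ⟨h'.1, smooth_bil _ h.1 h'.2.1, hcs_bil_right _ _ h'.2.2.1,
    (N2_mul (B d) h.1 h'.2.1 h.2 (FL_of_hcs k h'.2.1 h'.2.2.1)).2.trans ?_⟩⟩
  have := (B d).opNorm_nonneg
  have := n2_nonneg (I := I) (e := (F d).e) (μ := (F d).μ) k (g d)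
  rw [mul_assoc _ K]
  gcongr
  exact h'.2.2.2

theorem bil (hF : ∀ᶠ d in l, (F d).Tame C) {B : ∀ d, N d →L[ℝ] N' d →L[ℝ] N'' d} (hB : Ub l fun d => ‖B d‖)
    {i j : ℕ} {m' : 𝒟 → ℝ} (h : NB F l m i f) {g : ∀ d, M → N' d} (h' : NB F l m' j g)
    (hi : k ≤ i) (hj : k ≤ j) (hk : k + 1 ≤ (i - 3) + (j - 3)) :
    NB F l (fun d => m d * m' d) k fun d x => B d (f d x) (g d x) := by
  obtain ⟨K, hK, h⟩ := h
  obtain ⟨K', hK', h'⟩ := h'
  obtain ⟨c, hc, hB⟩ := hB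
  have := cK_nonneg (ι := ι) k
  refine ⟨2 * |C 0| * (cK ι k * c) ^ 2 * K * K', by positivity, (((h.and h').and hB).and hF).mono
    fun d ⟨⟨⟨h, h'⟩, hB⟩, hF⟩ => ⟨mul_nonneg h.1 h'.1, smooth_bil _ h.2.1 h'.2.1,
      hcs_bil_right _ _ h'.2.2.1, ((Sup.of_tame hF).N2_bil (B d) hi hj hk h.2.1 h.2.2.1 h'.2.1
        h'.2.2.1).trans ?_⟩⟩
  have := (B d).opNorm_nonneg
  have := n2_nonneg (I := I) (e := (F d).e) (μ := (F d).μ) j (g d)
  have := n2_nonneg (I := I) (e := (F d).e) (μ := (F d).μ) i (f d)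
  calc _ ≤ 2 * |C 0| * (cK ι k * c) ^ 2 * (K * m d ^ 2) * (K' * m' d ^ 2) := by
        gcongr
        exacts [h.2.2.2, h'.2.2.2]
    _ = _ := by ring

theorem bilR (hF : ∀ᶠ d in l, (F d).Tame C) {B : ∀ d, N d →L[ℝ] N' d →L[ℝ] N'' d} (hB : Ub l fun d => ‖B d‖)
    {n : ℕ} (hn : 7 ≤ n) (hk : k ≤ n) (h : NB F l 1 n f) {g : ∀ d, M → N' d} (h' : NB F l m k g) :
    NB F l m k fun d x => B d (f d x) (g d x) := by
  simpa only [Pi.one_apply, one_mul] using bil hF hB h h' hk le_rfl (by omega)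

theorem appR (hF : ∀ᶠ d in l, (F d).Tame C) {n : ℕ} (hn : 7 ≤ n) (hk : k ≤ n) {T : ∀ d, M → N d →L[ℝ] N' d}
    (h : NB F l 1 n T) (h' : NB F l m k f) : NB F l m k fun d x => T d x (f d x) :=
  bilR hF (B := fun d => ContinuousLinearMap.id ℝ (N d →L[ℝ] N' d))
    (.of_le 1 fun _ => ContinuousLinearMap.norm_id_le) hn hk h h'

theorem smul {r : 𝒟 → M → ℝ} (hr : Bk (N := fun _ => ℝ) (pre F) l (un 𝒟 M) 1 k r)
    (h : NB F l m k f) : NB F l m k fun d x => r d x • f d x :=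
  mul (B := fun d => ContinuousLinearMap.lsmul ℝ ℝ (E := N d))
    (.of_le 1 fun _ => ContinuousLinearMap.opNorm_lsmul_le) hr h

theorem app {T : ∀ d, M → N d →L[ℝ] N' d} (hT : Bk (pre F) l (un 𝒟 M) 1 k T)
    (h : NB F l m k f) : NB F l m k fun d x => T d x (f d x) :=
  mul (B := fun d => ContinuousLinearMap.id ℝ (N d →L[ℝ] N' d))
    (.of_le 1 fun _ => ContinuousLinearMap.norm_id_le) hT h

theorem neg (h : NB F l m k f) : NB F l m k fun d x => -f d x := by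
  simpa using smul (.const (.const ‖(-1 : ℝ)‖)) h

theorem sub (h : NB F l m k f) (h' : NB F l m k g) : NB F l m k fun d x => f d x - g d x := by
  simpa only [sub_eq_add_neg] using h.add h'.neg

theorem zero (hm : ∀ᶠ d in l, 0 ≤ m d) : NB F l m k fun d _ => (0 : N d) :=
  ⟨0, le_rfl, hm.mono fun d h => ⟨h, contMDiff_const, HasCompactSupport.zero, by simp [n2_zero]⟩⟩

theorem sum {κ : Type*} (s : Finset κ) {f : κ → ∀ d, M → N d} (hm : ∀ᶠ d in l, 0 ≤ m d)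
    (h : ∀ i ∈ s, NB F l m k (f i)) : NB F l m k fun d x => ∑ i ∈ s, f i d x := by
  classical
  induction s using Finset.induction_on with
  | empty => simpa using zero hm
  | insert a s ha ih =>
    simp only [Finset.sum_insert ha]
    exact (h a (Finset.mem_insert_self _ _)).add (ih fun i hi => h i (Finset.mem_insert_of_mem hi))

theorem nn (h : NB F l m k f) : ∀ᶠ d in l, 0 ≤ m d :=
  let ⟨_, _, h⟩ := h
  h.mono fun _ h => h.1

theorem sm (h : NB F l m k f) : ∀ᶠ d in l, Sm I (f d) :=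
  let ⟨_, _, h⟩ := h
  h.mono fun _ h => h.2.1

theorem of_Bk {U : 𝒟 → Set M} {v : ℝ} (hm : ∀ᶠ d in l, 0 ≤ m d)
    (hU : ∀ᶠ d in l, IsCompact (U d) ∧ (F d).μ.real (U d) ≤ v ∧ tsupport (f d) ⊆ U d)
    (h : Bk (pre F) l (un 𝒟 M) (fun d _ => m d) k f) : NB F l m k f := by
  obtain ⟨K, hK, h⟩ := h.glob
  refine ⟨(Fintype.card ι + 1) ^ k * K ^ 2 * |v|, by positivity,
    ((h.and hU).and hm).mono fun d ⟨⟨h, hU⟩, hm⟩ => ⟨hm, h.1,
      hU.1.of_isClosed_subset (isClosed_tsupport _) hU.2.2, ?_⟩⟩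
  have : IsFiniteMeasure ((F d).μ.restrict (U d)) := ⟨by simpa using hU.1.measure_lt_top⟩
  rw [← NS_of_tsupport k hU.2.2]
  refine (n2_le_CB k h.1 h.2).trans ?_
  rw [measureReal_restrict_apply_univ, mul_pow, ← mul_assoc, mul_right_comm _ |v|]
  gcongr
  exact hU.2.1.trans (le_abs_self v)

theorem gard (hF : ∀ᶠ d in l, (F d).Tame C) {g : ∀ d, M → V d}
    (hg : ∀ᶠ d in l, Sm I (g d) ∧ HasCompactSupport (g d))
    (h : NB F l m k fun d => lp0 (F d) (g d)) : NB F l m (k + 2) g := by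
  obtain ⟨K, hK, h⟩ := h
  obtain ⟨K', hK', h'⟩ := Rsp69.gard (I := I) (M := M) (ι := ι) C k
  refine ⟨K' ^ 2 * K, by positivity, ((h.and hg).and hF).mono fun d ⟨h, hF⟩ =>
    ⟨h.1.1, h.2.1, h.2.2, ?_⟩⟩
  have := pow_le_pow_left₀ (nrm_nonneg _ _) (h' _ hF _ _ h.2.1 h.2.2) 2
  rw [mul_pow, nrm_sq, nrm_sq] at this
  rw [mul_assoc]
  exact this.trans (mul_le_mul_of_nonneg_left h.1.2.2.2 (sq_nonneg _))

theorem sup (hF : ∀ᶠ d in l, (F d).Tame C) (h : NB F l m (k + 4) g) :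
    Bk (pre F) l (un 𝒟 M) (fun d _ => m d) k g :=
  let ⟨K, hK, h⟩ := h
  ⟨√(|C 0| * K), by positivity, (h.and hF).mono fun d ⟨h, hF⟩ x _ => ⟨h.1, h.2.1 x,
    (PB.of_CB (CB_iff.2 ((Sup.of_tame hF).cb (k + 1) h.2.1 h.2.2.1)) x).mono (by
      show _ ≤ √(|C 0| * K) * m d
      rw [← Real.sqrt_sq h.1, ← Real.sqrt_mul (by positivity), mul_assoc]
      exact Real.sqrt_le_sqrt (mul_le_mul_of_nonneg_left h.2.2.2 (abs_nonneg _)))⟩⟩

end NB

/-- nested cut-off functions -/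
structure Ch (F : 𝒟 → Fr I M ι) (l : Filter 𝒟) (χ : ℕ → 𝒟 → M → ℝ) : Prop where
  bk : ∀ j k, Bk (N := fun _ => ℝ) (pre F) l (un 𝒟 M) 1 k (χ j)
  one : ∀ j, ∀ᶠ d in l, ∀ x ∈ tsupport (χ (j + 1) d), χ j d =ᶠ[𝓝 x] fun _ => 1
  vol : ∃ v, ∀ᶠ d in l, IsCompact (tsupport (χ 0 d)) ∧ (F d).μ.real (tsupport (χ 0 d)) ≤ v

variable {χ : ℕ → 𝒟 → M → ℝ}

theorem Ch.sub (h : Ch F l χ) (j : ℕ) : ∀ᶠ d in l, tsupport (χ j d) ⊆ tsupport (χ 0 d) := by
  induction j with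
  | zero => exact .of_forall fun _ => Subset.rfl
  | succ j ih =>
    filter_upwards [ih, h.one j] with d h1 h2 x hx
    exact h1 (subset_tsupport _ (by rw [mem_support, (h2 x hx).self_of_nhds]; simp))

theorem Ch.shift (h : Ch F l χ) : Ch F l fun j => χ (j + 1) := by
  obtain ⟨v, hv⟩ := h.vol
  exact ⟨fun j => h.bk (j + 1), fun j => h.one (j + 1), v, (hv.and (h.sub 1)).mono fun d h =>
    ⟨h.1.1.of_isClosed_subset (isClosed_tsupport _) h.2,
      (measureReal_mono h.2 h.1.1.measure_lt_top.ne).trans h.1.2⟩⟩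

theorem Ch.sm (h : Ch F l χ) (j : ℕ) : ∀ᶠ d in l, Sm I (χ j d) ∧ HasCompactSupport (χ j d) := by
  obtain ⟨v, hv⟩ := h.vol
  filter_upwards [hv, h.sub j, (h.bk j 0).sa] with d h1 h2 h3
  exact ⟨fun x => h3 x trivial, h1.1.of_isClosed_subset (isClosed_tsupport _) h2⟩

end fam

section pt
variable {V : Type} [NormedAddCommGroup V] [InnerProductSpace ℝ V] {A : ι → M → V →L[ℝ] V}

theorem D_smul_ev {χ : M → ℝ} {e : M → V} {x : M} (hχ : SA I χ x) (he : SA I e x) (a : ι) :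
    F.D a (fun y => χ y • e y) =ᶠ[𝓝 x] fun y => F.D a χ y • e y + χ y • F.D a e y := by
  filter_upwards [hχ.ev, he.ev] with y h1 h2 using dv_smul h1 h2

/-- the cut-off equation for the trivial connection -/
theorem lp0_smul {χ : M → ℝ} {e : M → V} {x : M} (hA : ∀ a, SA I (A a) x) (hχ : SA I χ x)
    (he : SA I e x) : lp0 F (fun y => χ y • e y) x = χ x • (e x + lap I F.e F.dv A e x)
      + ∑ a, ((2 * χ x) • A a x (F.D a e x) - (2 * F.D a χ x) • F.D a e x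
        + χ x • (F.D a (A a) x (e x) + A a x (A a x (e x)) + F.dv a x • A a x (e x))
        - (F.D a (F.D a χ) x + F.dv a x * F.D a χ x) • e x) := by
  have h1 : ∀ a, F.D a (F.D a fun y => χ y • e y) x = F.D a (F.D a χ) x • e x
      + F.D a χ x • F.D a e x + (F.D a χ x • F.D a e x + χ x • F.D a (F.D a e) x) := fun a => by
    rw [(D_ev (D_smul_ev hχ he a) a).self_of_nhds, Pre.D_def,
      dv_add' (SA.smul (sa_D hχ a) he) (SA.smul hχ (sa_D he a)), dv_smul (sa_D hχ a).md he.md,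
      dv_smul hχ.md (sa_D he a).md]
    rfl
  have h2 : ∀ a, nab I F.e A a (nab I F.e A a e) x = F.D a (F.D a e) x
      + (F.D a (A a) x (e x) + A a x (F.D a e x)) + A a x (F.D a e x + A a x (e x)) := fun a => by
    have : dv I (F.e a) (nab I F.e A a e) x = _ := dv_add' (sa_D (F := F.toPre) he a) ((hA a).app he)
    rw [nab, this, dv_app (hA a).md he.md]
    rfl
  simp only [lp0, lap, h1, h2, fun a => (D_smul_ev (F := F) hχ he a).self_of_nhds]
  simp only [nab, ← Pre.D_def, smul_add, smul_neg, Finset.smul_sum, map_add]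
  rw [add_assoc, sub_eq_add_neg, ← Finset.sum_neg_distrib, ← Finset.sum_neg_distrib,
    ← Finset.sum_add_distrib]
  congr 1
  refine Finset.sum_congr rfl fun a _ => ?_
  module

/-- the energy identity with a cut-off -/
theorem cacc_id (hA : ∀ a, Sm I (A a)) (hs : ∀ a x, Skew (A a x)) {χ : M → ℝ} (hχ : Sm I χ)
    (hc : HasCompactSupport χ) {e : M → V} (he : Sm I e) :
    ∫ x, ∑ a, ‖nab I F.e A a (fun y => χ y • e y) x‖ ^ 2 ∂F.μ = ∫ x, (χ x ^ 2 *
      ⟪lap I F.e F.dv A e x, e x⟫_ℝ + (∑ a, F.D a χ x ^ 2) * ‖e x‖ ^ 2) ∂F.μ := by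
  have h1 : Sm I fun y => χ y • e y := hχ.smul he
  have h2 : Sm I fun y => χ y • χ y • e y := hχ.smul h1
  have c2 : HasCompactSupport fun y => χ y • χ y • e y := hc.smul_right
  have h3 := integral_lap (F := F) hA hs he h2 c2
  have i1 : Integrable (fun x => ⟪lap I F.e F.dv A e x, χ x • χ x • e x⟫_ℝ) F.μ :=
    integ (fun x => SA.inner (sm_lap hA he x) (h2 x)) (hcs_inner _ c2)
  have i2 : Integrable (fun x => ∑ a, ⟪nab I F.e A a e x,
      nab I F.e A a (fun y => χ y • χ y • e y) x⟫_ℝ) F.μ := integrable_finsetSum _ fun a _ =>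
    integ (fun x => SA.inner (sm_nab hA a he x) (sm_nab hA a h2 x)) (hcs_inner _ (hcs_nab a c2))
  have i3 : Integrable (fun x => (∑ a, F.D a χ x ^ 2) * ‖e x‖ ^ 2) F.μ := by
    simp only [Finset.sum_mul]
    refine integrable_finsetSum _ fun a _ => Continuous.integrable_of_hasCompactSupport
      (((F.sm_D hχ a).continuous.pow 2).mul (he.continuous.norm.pow 2))
      ((F.hcs_D hc a).mono fun x hx h => hx (by simp [h]))
  simp only [real_inner_smul_right, ← mul_assoc, ← sq] at h3 i1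
  rw [integral_add i1 i3, h3, ← integral_add i2 i3]
  refine integral_congr_ae (.of_forall fun x => ?_)
  simp only [Finset.sum_mul, ← Finset.sum_add_distrib]
  refine Finset.sum_congr rfl fun a _ => ?_
  rw [nab_smul a (hχ x) (h1 x), nab_smul a (hχ x) (he x), ← real_inner_self_eq_norm_sq,
    ← real_inner_self_eq_norm_sq]
  simp only [inner_add_left, inner_add_right, real_inner_smul_left, real_inner_smul_right,
    real_inner_comm (e x) (nab I F.e A a e x), Pre.D_def]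
  ring

theorem sum_D_le {R : M → V} {K : ℝ} {x : M} (hK : ∀ a, ‖A a x‖ ≤ K) : ∑ a, ‖F.D a R x‖ ^ 2
    ≤ 2 * ∑ a, ‖nab I F.e A a R x‖ ^ 2 + 2 * Fintype.card ι * K ^ 2 * ‖R x‖ ^ 2 := by
  have h6 : ∀ a, ‖F.D a R x‖ ^ 2 ≤ 2 * ‖nab I F.e A a R x‖ ^ 2 + 2 * K ^ 2 * ‖R x‖ ^ 2 :=
    fun a => by
    have t1 : F.D a R x = nab I F.e A a R x - A a x (R x) := by simp [nab, Pre.D_def]
    have t2 : ‖A a x (R x)‖ ≤ K * ‖R x‖ := (A a x).le_of_opNorm_le (hK a) _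
    have t3 := norm_sub_le (nab I F.e A a R x) (A a x (R x))
    rw [t1]
    have t4 := pow_le_pow_left₀ (norm_nonneg _) (t3.trans (add_le_add le_rfl t2)) 2
    nlinarith [sq_nonneg (‖nab I F.e A a R x‖ - K * ‖R x‖)]
  refine (Finset.sum_le_sum fun a _ => h6 a).trans (le_of_eq ?_)
  simp only [Finset.sum_add_distrib, ← Finset.mul_sum, Finset.sum_const, Finset.card_univ,
    nsmul_eq_mul]
  ring

/-- the Caccioppoli inequality -/
theorem cacc (hA : ∀ a, Sm I (A a)) (hs : ∀ a x, Skew (A a x)) {K : ℝ} (hK : ∀ a x, ‖A a x‖ ≤ K)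
    {χ : M → ℝ} (hχ : Sm I χ) {c : ℝ} (hc : F.CB 1 χ c) {U : Set M} (hU : IsCompact U)
    (hsu : tsupport χ ⊆ U) {e : M → V} (he : Sm I e) {m₁ m₂ : ℝ}
    (h1 : ∫ x in U, ‖e x + lap I F.e F.dv A e x‖ ^ 2 ∂F.μ ≤ m₁)
    (h2 : ∫ x in U, ‖e x‖ ^ 2 ∂F.μ ≤ m₂) : N2 F.toPre 1 (fun x => χ x • e x)
      ≤ c ^ 2 * (m₁ + (2 + 2 * Fintype.card ι * (K ^ 2 + 1)) * m₂) := by
  have hcs : HasCompactSupport χ := hU.of_isClosed_subset (isClosed_tsupport _) hsu
  have s1 : Sm I fun y => χ y • e y := hχ.smul he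
  have c1 : HasCompactSupport fun y => χ y • e y := hcs.smul_right
  have isq : ∀ {u : M → V}, Sm I u → HasCompactSupport u → Integrable (fun x => ‖u x‖ ^ 2) F.μ :=
    fun hu hc => int_sq (FL_of_hcs (F := F.toPre) 0 hu hc)
  have i1 := isq s1 c1
  have i2 := integrable_finsetSum Finset.univ fun a _ => isq (F.sm_D s1 a) (F.hcs_D c1 a)
  have i3 := integrable_finsetSum Finset.univ fun a _ =>
    isq (sm_nab (F := F) hA a s1) (hcs_nab (F := F) (A := A) a c1)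
  have c4 : Continuous fun x => χ x ^ 2 * ⟪lap I F.e F.dv A e x, e x⟫_ℝ
      + (∑ a, F.D a χ x ^ 2) * ‖e x‖ ^ 2 :=
    ((hχ.continuous.pow 2).mul ((sm_lap hA he).continuous.inner he.continuous)).add
      ((continuous_finsetSum _ fun a _ => (F.sm_D hχ a).continuous.pow 2).mul
        (he.continuous.norm.pow 2))
  have z : ∀ x ∉ U, χ x = 0 ∧ ∀ a, F.D a χ x = 0 := fun x hx =>
    ⟨image_eq_zero_of_notMem_tsupport fun h => hx (hsu h),
      fun a => dv_eq_zero_of_notMem fun h => hx (hsu h)⟩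
  have i4 := c4.integrable_of_hasCompactSupport (μ := F.μ)
    (HasCompactSupport.intro hU fun x hx => by simp [z x hx])
  have i6 : IntegrableOn (fun x => ‖e x + lap I F.e F.dv A e x‖ ^ 2) U F.μ :=
    ((he.continuous.add (sm_lap hA he).continuous).norm.pow 2).continuousOn.integrableOn_compact hU
  have i5 : IntegrableOn (fun x => ‖e x‖ ^ 2) U F.μ :=
    (he.continuous.norm.pow 2).continuousOn.integrableOn_compact hU
  calc N2 F.toPre 1 (fun x => χ x • e x)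
      = ∫ x, (‖χ x • e x‖ ^ 2 + ∑ a, ‖F.D a (fun x => χ x • e x) x‖ ^ 2) ∂F.μ := by
        rw [integral_add i1 i2, integral_finsetSum _ fun a _ => isq (F.sm_D s1 a) (F.hcs_D c1 a)]
        rfl
    _ ≤ ∫ x, ((1 + 2 * Fintype.card ι * K ^ 2) * ‖χ x • e x‖ ^ 2
          + 2 * ∑ a, ‖nab I F.e A a (fun x => χ x • e x) x‖ ^ 2) ∂F.μ :=
        integral_mono (i1.add i2) ((i1.const_mul _).add (i3.const_mul _)) fun x => by
          have := sum_D_le (F := F) (R := fun x => χ x • e x) (hK · x)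
          simp only at this ⊢
          linarith
    _ = ∫ x in U, ((1 + 2 * Fintype.card ι * K ^ 2) * ‖χ x • e x‖ ^ 2 + 2 * (χ x ^ 2 *
          ⟪lap I F.e F.dv A e x, e x⟫_ℝ + (∑ a, F.D a χ x ^ 2) * ‖e x‖ ^ 2)) ∂F.μ := by
        rw [setIntegral_eq_integral_of_forall_compl_eq_zero fun x hx => by simp [z x hx],
          integral_add (i1.const_mul _) (i3.const_mul _),
          integral_add (i1.const_mul _) (i4.const_mul _)]
        simp only [integral_const_mul, cacc_id hA hs hχ hcs he]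
    _ ≤ ∫ x in U, c ^ 2 * (‖e x + lap I F.e F.dv A e x‖ ^ 2
          + (2 + 2 * Fintype.card ι * (K ^ 2 + 1)) * ‖e x‖ ^ 2) ∂F.μ := by
        refine setIntegral_mono_on ((i1.const_mul _).add (i4.const_mul _)).integrableOn
          ((i6.add (i5.const_mul _)).const_mul _) hU.measurableSet fun x hx => ?_
        have t1 : χ x ^ 2 ≤ c ^ 2 := by
          simpa using pow_le_pow_left₀ (norm_nonneg _) (CB_bound hc x) 2
        have t2 : ∑ a, F.D a χ x ^ 2 ≤ Fintype.card ι * c ^ 2 := by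
          refine (Finset.sum_le_sum fun a _ => (?_ : _ ≤ c ^ 2)).trans (by simp)
          simpa using pow_le_pow_left₀ (norm_nonneg _) (CB_bound (CB_D hc a) x) 2
        have t3 : 2 * ⟪lap I F.e F.dv A e x, e x⟫_ℝ ≤ ‖e x + lap I F.e F.dv A e x‖ ^ 2 := by
          have u1 := real_inner_le_norm (e x + lap I F.e F.dv A e x) (e x)
          rw [inner_add_left, real_inner_self_eq_norm_sq] at u1
          nlinarith [sq_nonneg (‖e x + lap I F.e F.dv A e x‖ - ‖e x‖), sq_nonneg ‖e x‖]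
        have t5 : χ x ^ 2 * (2 * ⟪lap I F.e F.dv A e x, e x⟫_ℝ)
            ≤ c ^ 2 * ‖e x + lap I F.e F.dv A e x‖ ^ 2 :=
          (mul_le_mul_of_nonneg_left t3 (sq_nonneg _)).trans
            (mul_le_mul_of_nonneg_right t1 (sq_nonneg _))
        have t6 := mul_le_mul_of_nonneg_right t2 (sq_nonneg ‖e x‖)
        have t7 := mul_le_mul_of_nonneg_left (mul_le_mul_of_nonneg_right t1 (sq_nonneg ‖e x‖))
          (show (0 : ℝ) ≤ 1 + 2 * Fintype.card ι * K ^ 2 by positivity)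
        have t8 : 0 ≤ c ^ 2 * ‖e x‖ ^ 2 := by positivity
        rw [norm_smul, mul_pow, Real.norm_eq_abs, sq_abs]
        nlinarith
    _ ≤ _ := by
        rw [integral_const_mul, integral_add i6 (i5.const_mul _), integral_const_mul]
        gcongr

end pt

section main
variable {𝒟 : Type*} {V : 𝒟 → Type} [∀ d, NormedAddCommGroup (V d)]
  [∀ d, InnerProductSpace ℝ (V d)] {F : 𝒟 → Fr I M ι} {l : Filter 𝒟} {m : 𝒟 → ℝ} {χ : ℕ → 𝒟 → M → ℝ}
  {A : ∀ d, ι → M → V d →L[ℝ] V d} {f e : ∀ d, M → V d}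

theorem Ch.lr_step (hF : ∀ᶠ d in l, (F d).Tame C) (h : Ch F l χ) (he : ∀ᶠ d in l, Sm I (e d) ∧
      ∀ x ∈ tsupport (χ 0 d), e d x + lap I (F d).e (F d).dv (A d) (e d) x = f d x) {n k : ℕ} (hn : 7 ≤ n)
    (hk : k ≤ n) (hA : ∀ a, NB F l 1 (n + 1) fun d => A d a) (hf : NB F l m k f)
    (g : NB F l m (k + 1) fun d x => χ (k + 1) d x • e d x) :
    NB F l m (k + 2) fun d x => χ (k + 2) d x • e d x := by
  have g0 := g.of_le k.le_succ
  have hA0 := fun a => (hA a).of_le n.le_succ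
  have hχ := h.bk (k + 2) k
  have hχ1 := fun a => (h.bk (k + 2) (k + 1)).D a
  have hχ2 := fun a => ((h.bk (k + 2) (k + 2)).D a).D a
  have hdv : ∀ a, Bk (N := fun _ => ℝ) (pre F) l (un 𝒟 M) 1 k fun d => (F d).dv a :=
    fun a => .of_CBs (hF.mono fun _ h => h.dv a)
  have two : Bk (N := fun _ => ℝ) (pre F) l (un 𝒟 M) 1 k fun _ _ => 2 := .const (.const _)
  refine NB.gard hF ((he.and (h.sm (k + 2))).mono fun d h =>
    ⟨h.2.1.smul h.1.1, h.2.2.smul_right⟩) ?_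
  refine ((hf.smul hχ).add (NB.sum Finset.univ hf.nn
    fun a _ => (((((hA0 a).appR hF hn hk (g.D a)).smul (two.smulR hχ)).sub
      ((g.D a).smul (two.smulR (hχ1 a)))).add ((((((hA a).D a).appR hF hn hk g0).add
        ((hA0 a).appR hF hn hk ((hA0 a).appR hF hn hk g0))).add
          (((hA0 a).appR hF hn hk g0).smul (hdv a))).smul hχ)).sub
      (g0.smul ((hχ2 a).add ((hdv a).smulR (hχ1 a)))))).congr ?_
  filter_upwards [he, h.sm (k + 2), h.sm (k + 1), h.one (k + 1), h.sub (k + 2),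
    eventually_all.2 fun a => (hA a).sm] with d he h2 h1 ho hsub hA
  funext x
  by_cases hx : x ∈ tsupport (χ (k + 2) d)
  · have e1 : (fun y => χ (k + 1) d y • e d y) =ᶠ[𝓝 x] e d :=
      (ho x hx).mono fun y hy => by simp [hy]
    rw [lp0_smul (fun a => hA a x) (h2.1 x) (he.1 x), he.2 x (hsub hx)]
    simp only [fun a => (D_ev (F := (F d).toPre) e1 a).self_of_nhds, e1.self_of_nhds, smul_eq_mul]
  · have z := notMem_tsupport_iff_eventuallyEq.1 hx
    have z1 : ∀ a, (F d).D a (χ (k + 2) d) =ᶠ[𝓝 x] 0 := fun a =>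
      (D_ev z a).trans (.of_forall fun y => congrFun dv_zero y)
    have z2 : ∀ a, (F d).D a ((F d).D a (χ (k + 2) d)) x = 0 := fun a =>
      (D_ev (z1 a) a).self_of_nhds.trans (congrFun dv_zero x)
    rw [lp0_smul (fun a => hA a x) (h2.1 x) (he.1 x)]
    simp [z.self_of_nhds, fun a => (z1 a).self_of_nhds, z2]

/-- **interior estimate** -/
theorem Ch.lr (hF : ∀ᶠ d in l, (F d).Tame C) (h : Ch F l χ) (hs : ∀ᶠ d in l, ∀ a x, Skew (A d a x))
    (he : ∀ᶠ d in l, Sm I (e d) ∧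
      ∀ x ∈ tsupport (χ 0 d), e d x + lap I (F d).e (F d).dv (A d) (e d) x = f d x) (h0 : NB F l m 0 e)
    {n k : ℕ} (hn : 7 ≤ n) (hk : k ≤ n) (hA : ∀ a, NB F l 1 (n + 1) fun d => A d a)
    (hf : NB F l m k f) : NB F l m (k + 2) fun d x => χ (k + 2) d x • e d x := by
  refine h.lr_step hF he hn hk hA hf ?_
  induction k with
  | succ k ih =>
    exact h.lr_step hF he hn (by omega) hA (hf.of_le k.le_succ) (ih (by omega) (hf.of_le k.le_succ))
  | zero =>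
    obtain ⟨v, hv⟩ := h.vol
    choose K hK hA using fun a => (((hA a).of_le (j := 0 + 4) (by omega)).sup hF).glob
    obtain ⟨Kf, hKf, hf⟩ := hf
    obtain ⟨Ke, hKe, h0⟩ := h0
    obtain ⟨c, hc, hχ⟩ := Bk.glob (m := fun _ => 1) (h.bk 1 1)
    refine ⟨(c * 1) ^ 2 * (Kf + (2 + 2 * Fintype.card ι * ((∑ a, K a) ^ 2 + 1)) * Ke),
      by positivity, ?_⟩
    filter_upwards [eventually_all.2 hA, hf, hχ, hs, h0, he, hv, h.sub 1, h.sm 1]
      with d hA hf hχ hs h0 he hv hsub hsm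
    have hle : ∀ {u : M → V d}, Sm I u → HasCompactSupport u →
        ∫ x in tsupport (χ 0 d), ‖u x‖ ^ 2 ∂(F d).μ ≤ N2 (F d).toPre 0 u := fun hu hc =>
      NS_le (FL_of_hcs (F := (F d).toPre) 0 hu hc) _
    refine ⟨hf.1, hχ.1.smul he.1, hsm.2.smul_right, (cacc (fun a => (hA a).1) hs (K := ∑ a, K a)
      (fun a x => (CB_bound (hA a).2 x).trans
        (by simpa using Finset.single_le_sum (f := K) (fun a _ => hK a) (Finset.mem_univ a)))
      hχ.1 hχ.2 hv.1 hsub he.1 (m₁ := Kf * m d ^ 2) ?_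
      ((hle h0.2.1 h0.2.2.1).trans h0.2.2.2)).trans (le_of_eq (by ring))⟩
    rw [setIntegral_congr_fun hv.1.measurableSet (g := fun x => ‖f d x‖ ^ 2) fun x hx => by
      simp only [he.2 x hx]]
    exact (hle hf.2.1 hf.2.2.1).trans hf.2.2.2

end main

end Crest.Agent.X212.Rsp69
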