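import Crest.Agent.X212.Nka63.B

/-! Row 212, RESP (helper69): window integrals are exponentially local. -/

set_option autoImplicit false
set_option linter.unusedSectionVars false
noncomputable section
open scoped Manifold ContDiff Topology InnerProductSpace
open MeasureTheory Set Function Filter Real

namespace Crest.Agent.X212.Rsp69
open An Cyf70 Dgr80 Sob92 Nd18 Nka63

theorem ker_le {δ : ℝ} (hδ : 0 < δ) (s : ℝ) : exp (-(δ / 2 * |s|)) ≤ 8 / δ * b (δ / 2) s := by
  have := b_ge (half_pos hδ) s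
  rw [div_mul_eq_mul_div 8, le_div_iff₀ hδ]
  linarith

theorem bd_le_exp {δ : ℝ} (hδ : 0 < δ) (k : ℕ) (s : ℝ) :
    |(-1) ^ k * bd δ k s| ≤ cb δ k * δ * exp (-(δ * |s|)) :=
  (abs_sg_bd hδ k s).trans (by
    rw [mul_assoc]; exact mul_le_mul_of_nonneg_left (b_le_exp hδ s) (cb_nonneg _ _))

theorem b_le_half {δ : ℝ} (hδ : 0 < δ) (s : ℝ) : b δ s ≤ 8 * b (δ / 2) s := by
  have h1 := b_le_exp hδ s
  have h2 := mul_le_mul_of_nonneg_left (ker_le hδ s) hδ.le
  have h3 : exp (-(δ * |s|)) ≤ exp (-(δ / 2 * |s|)) :=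
    exp_le_exp.2 (by nlinarith [abs_nonneg s])
  rw [← mul_assoc, mul_div_cancel₀ _ hδ.ne'] at h2
  nlinarith

section wi
variable {M : Type*} [MeasurableSpace M] {μ : Measure M} {τ w : M → ℝ} {δ : ℝ}

theorem wi_half (hδ : 0 < δ) (h : WI μ τ (δ / 2) w) : WI μ τ δ w :=
  ⟨h.τm, h.m, (h.i.const_mul 8).mono' (((continuous_b δ).comp_aestronglyMeasurable h.τm).mul h.m.norm)
    (.of_forall fun x => by
      rw [norm_mul, norm_norm, Real.norm_of_nonneg (b_pos hδ _).le, ← mul_assoc]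
      exact mul_le_mul_of_nonneg_right (b_le_half hδ _) (norm_nonneg _))⟩

theorem wn_half (hδ : 0 < δ) (h : WI μ τ (δ / 2) w) (t : ℝ) :
    wn μ τ δ (fun x => ‖w x‖) t ≤ 8 * wn μ τ (δ / 2) (fun x => ‖w x‖) t := by
  rw [wn, wn, ← integral_const_mul]
  refine integral_mono ((wi_half hδ h).norm.int hδ t) ((h.norm.int (half_pos hδ) t).const_mul 8)
    fun x => ?_
  simp only [smul_eq_mul, ← mul_assoc]
  exact mul_le_mul_of_nonneg_right (b_le_half hδ _) (norm_nonneg _)

end wi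

variable {E3 : Type} [NormedAddCommGroup E3] [NormedSpace ℝ E3] [FiniteDimensional ℝ E3]
  [MeasurableSpace E3] [BorelSpace E3]
  {H3 : Type} [TopologicalSpace H3] {I3 : ModelWithCorners ℝ E3 H3} [I3.Boundaryless]
  {Y : Type} [TopologicalSpace Y] [ChartedSpace H3 Y] [IsManifold I3 ∞ Y] [T2Space Y]
  [MeasurableSpace Y] [BorelSpace Y] [SecondCountableTopology Y] [CompactSpace Y]
  {κ : Type} [Fintype κ] {lam : Type} [Fintype lam]
  {E : Type} [NormedAddCommGroup E] [NormedSpace ℝ E] [FiniteDimensional ℝ E]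
  [MeasurableSpace E] [BorelSpace E]
  {HM : Type} [TopologicalSpace HM] {I : ModelWithCorners ℝ E HM}
  {M : Type} [TopologicalSpace M] [ChartedSpace HM M] [IsManifold I ∞ M] [MeasurableSpace M]
  [T2Space M] [BorelSpace M]
  {D : YD I3 Y κ lam} {B : Base M (Option κ) lam} {G : Geo I M (Option κ) lam}
  (K : Nk D B G) {w : M → ℝ} {g : ℝ → ℝ} {δ c t r b₀ : ℝ}

/-- densities on a neck with bounded windows -/
structure Wb (δ b₀ : ℝ) (w : M → ℝ) : Prop where
  wi : WI G.F.μ K.τ (δ / 2) w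
  bd : ∀ t, wn G.F.μ K.τ (δ / 2) (fun x => ‖w x‖) t ≤ b₀
  z : ∀ x ∉ K.dp 1, w x = 0

theorem Wb.of_bd (hδ : 0 < δ) (hm : AEStronglyMeasurable w G.F.μ) (h0 : ∀ x ∉ K.dp 1, w x = 0)
    (hC : ∀ x, ‖w x‖ ≤ c) : Wb K δ (|c| * vY D) w :=
  ⟨Nka63.wi K (half_pos hδ) hm h0 fun x _ => hC x, fun t => (le_abs_self _).trans
    (norm_wn_le K (h := fun x => ‖w x‖) (half_pos hδ) (fun x hx => by rw [h0 x hx, norm_zero])
      (fun x _ => by rw [norm_norm]; exact hC x) t), h0⟩

/-- the local part of a window integral -/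
def loc (g : ℝ → ℝ) (w : M → ℝ) (t r : ℝ) : Y × ℝ → ℝ :=
  {z : Y × ℝ | |z.2 - t| ≤ r}.indicator fun z => g (z.2 - t) * w (K.ψ z)

variable {K}

theorem Wb.bdd (hδ : 0 < δ) (h : Wb K δ b₀ w) (s : ℝ) : BD (fun t => wn G.F.μ K.τ δ w (t + s))
    fun k => ∑ i ∈ Finset.range (k + 1), cb δ i * (8 * |b₀|) :=
  have h1 := wi_half hδ h.wi
  BD.shift ⟨h1.contDiff_wn hδ, fun k i hi t => by
    rw [h1.iteratedDeriv_wn hδ]
    refine (h1.norm_wnd_le hδ i t).trans ((mul_le_mul_of_nonneg_left ((wn_half hδ h.wi t).trans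
      (by linarith [h.bd t, le_abs_self b₀])) (cb_nonneg _ _)).trans (Finset.single_le_sum
        (f := fun i => cb δ i * (8 * |b₀|)) (fun i _ => mul_nonneg (cb_nonneg _ _) (by positivity))
        (Finset.mem_range.2 (by omega))))⟩ s

theorem tail (hδ : 0 < δ) (h : Wb K δ b₀ w) (hg : Continuous g)
    (hc : ∀ s, |g s| ≤ c * exp (-(δ * |s|))) (hr : ∀ s, |s - t| ≤ r → s ∈ Dp K.p K.q 1) :
    Integrable (loc K g w t r) D.Z.μ ∧ |∫ x, g (K.τ x - t) • w x ∂G.F.μ - ∫ z, loc K g w t r z ∂D.Z.μ|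
      ≤ c * (8 / δ) * (exp (-(δ / 2 * r)) * b₀) := by
  have c0 : 0 ≤ c := by simpa using (abs_nonneg _).trans (hc 0)
  have hA : MeasurableSet {x | |K.tm x - t| ≤ r} :=
    (isClosed_le (K.cont.sub continuous_const).abs continuous_const).measurableSet
  have k1 : ∀ s r', r' ≤ |s| → |g s| ≤ c * (8 / δ) * exp (-(δ / 2 * r')) * b (δ / 2) s :=
    fun s r' hs => (hc s).trans (by
      rw [show -(δ * |s|) = -(δ / 2 * |s|) + -(δ / 2 * |s|) by ring, exp_add, mul_assoc, mul_assoc,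
        mul_left_comm (8 / δ)]
      gcongr
      exact ker_le hδ s)
  have i1 := h.wi.int_ker (half_pos hδ) hg (fun s => k1 s 0 (abs_nonneg s)) t
  have z : ∀ z : Y × ℝ, z.2 ∉ K.J → loc K g w t r z = 0 := fun z hz =>
    if_neg fun e => hz (Dp_sub one_pos (hr _ e))
  have e : K.push (loc K g w t r) =
      {x | |K.tm x - t| ≤ r}.indicator fun x => g (K.τ x - t) • w x := funext fun x => by
    by_cases hx : x ∈ K.ψ.target
    · simp only [push_of_mem K _ hx, loc, indicator_apply, mem_ofPred_eq, K.snd_symm hx,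
        K.ψ.right_inv hx]
      split_ifs with h1
      exacts [by rw [K.τ_eq (hr _ h1), smul_eq_mul], rfl]
    · exact (push_of_notMem K _ hx).trans (if_neg fun e => hx (K.dp_sub one_pos (hr _ e))).symm
  refine ⟨(integrableOn_iff_integrable_of_support_subset fun x hx => by_contra fun e =>
    hx (z x fun e' => e (K.mem_src.2 e'))).1 ((integrable_pull_iff (iso_symm K.iso)).1
      (show Integrable (K.push _) _ from e ▸ i1.indicator hA)), ?_⟩
  rw [← integral_push' K z, e, ← integral_sub i1 (i1.indicator hA), ← mul_assoc]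
  rw [← Real.norm_eq_abs]
  refine (norm_integral_le_of_norm_le ((h.wi.norm.int (half_pos hδ) t).const_mul
    (c * (8 / δ) * exp (-(δ / 2 * r)))) (.of_forall fun x => ?_)).trans ?_
  · have p := b_pos (half_pos hδ) (K.τ x - t)
    simp only [indicator_apply, mem_ofPred_eq]
    split_ifs with h1
    · rw [sub_self, norm_zero, smul_eq_mul]; positivity
    · rw [sub_zero, norm_smul, smul_eq_mul, ← mul_assoc]
      by_cases hx : x ∈ K.dp 1
      · refine mul_le_mul_of_nonneg_right (k1 _ _ ?_) (norm_nonneg _)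
        rw [K.τ_eq hx]; exact (not_le.1 h1).le
      · simp [h.z x hx]
  · rw [integral_const_mul]
    exact mul_le_mul_of_nonneg_left (h.bd t) (by positivity)

variable {E' : Type} [NormedAddCommGroup E'] [NormedSpace ℝ E'] [FiniteDimensional ℝ E']
  [MeasurableSpace E'] [BorelSpace E']
  {HM' : Type} [TopologicalSpace HM'] {I' : ModelWithCorners ℝ E' HM'}
  {M' : Type} [TopologicalSpace M'] [ChartedSpace HM' M'] [IsManifold I' ∞ M'] [MeasurableSpace M']
  [T2Space M'] [BorelSpace M'] {B' : Base M' (Option κ) lam} {G' : Geo I' M' (Option κ) lam}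
  {K' : Nk D B' G'} {w' : M' → ℝ}

theorem tdiff (hδ : 0 < δ) (h : Wb K δ b₀ w) (h' : Wb K' δ b₀ w') (hg : Continuous g)
    (hc : ∀ s, |g s| ≤ c * exp (-(δ * |s|))) (hr : ∀ s, |s - t| ≤ r → s ∈ Dp K.p K.q 1)
    (hr' : ∀ s, |s - t| ≤ r → s ∈ Dp K'.p K'.q 1) {A : ℝ} (hA : 0 ≤ A)
    (e : ∀ z : Y × ℝ, |z.2 - t| ≤ r → |w (K.ψ z) - w' (K'.ψ z)| ≤ A * exp (δ / 2 * |z.2 - t|)) :
    |∫ x, g (K.τ x - t) • w x ∂G.F.μ - ∫ x, g (K'.τ x - t) • w' x ∂G'.F.μ| ≤
      c * (8 / δ) * (A * vY D + 2 * (exp (-(δ / 2 * r)) * b₀)) := by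
  have c0 : 0 ≤ c := by simpa using (abs_nonneg _).trans (hc 0)
  obtain ⟨i1, h1⟩ := tail hδ h hg hc hr
  obtain ⟨i2, h2⟩ := tail hδ h' hg hc hr'
  have ib := (integrable_b (half_pos hδ)).comp_sub_right t
  have z : ∀ s ∉ D.nk.J, b (δ / 2) (s - t) = 0 := fun s hs => (hs (nk_J D ▸ mem_univ s)).elim
  have h3 : |∫ z, loc K g w t r z ∂D.Z.μ - ∫ z, loc K' g w' t r z ∂D.Z.μ| ≤
      c * (8 / δ) * A * vY D := by
    rw [← integral_sub i1 i2, ← Real.norm_eq_abs]
    refine (norm_integral_le_of_norm_le ((integrable_tm D.nk ib z).const_mul (c * (8 / δ) * A))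
      (.of_forall fun x => ?_)).trans_eq ?_
    · have p := b_pos (half_pos hδ) (x.2 - t)
      simp only [loc, indicator_apply, mem_ofPred_eq]
      split_ifs with h1
      · rw [← mul_sub, norm_mul]
        refine (mul_le_mul (hc _) (e x h1) (abs_nonneg _) (by positivity)).trans ?_
        rw [mul_mul_mul_comm, ← exp_add, show -(δ * |x.2 - t|) + δ / 2 * |x.2 - t| =
          -(δ / 2 * |x.2 - t|) by ring, mul_right_comm c (8 / δ), mul_assoc (c * A)]
        exact mul_le_mul_of_nonneg_left (ker_le hδ _) (by positivity)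
      · rw [sub_self, norm_zero]
        exact mul_nonneg (by positivity) p.le
    · rw [integral_const_mul]
      refine congrArg _ ((integral_tm D.nk z).trans ?_)
      rw [integral_sub_right_eq_self (b (δ / 2)) t, integral_b (half_pos hδ), smul_eq_mul, mul_one]
  rw [abs_le] at *
  constructor <;> linarith [h1.1, h1.2, h2.1, h2.2, h3.1, h3.2]

end Crest.Agent.X212.Rsp69
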