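import Crest.Agent.X212.Rsp69.Tl
import Crest.Agent.X212.Rsp69.Cfg

/-! Row 212, RESP (helper69): pairs of necks over the same band; time windows. -/

set_option autoImplicit false
set_option linter.unusedSectionVars false
noncomputable section
open scoped Manifold ContDiff Topology InnerProductSpace
open MeasureTheory Set Function Filter Real

namespace Crest.Agent.X212.Rsp69
open An Cyf70 Dgr80 Sob92 Nd18 Nka63

variable {E3 : Type} [NormedAddCommGroup E3] [NormedSpace ℝ E3] [FiniteDimensional ℝ E3]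
  [MeasurableSpace E3] [BorelSpace E3]
  {H3 : Type} [TopologicalSpace H3] {I3 : ModelWithCorners ℝ E3 H3} [I3.Boundaryless]
  {Y : Type} [TopologicalSpace Y] [ChartedSpace H3 Y] [IsManifold I3 ∞ Y] [T2Space Y]
  [MeasurableSpace Y] [BorelSpace Y] [SecondCountableTopology Y] [CompactSpace Y]
  {κ : Type} [Fintype κ] {lam : Type} [Fintype lam] {D : YD I3 Y κ lam} {𝒟 : Type*}

theorem D_snd (D : YD I3 Y κ lam) (z : Y × ℝ) : ∑ a, D.Z.D a Prod.snd z ^ 2 = 1 := by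
  have h1 := congrFun (D_none_snd D.F.toPre (contDiff_id (𝕜 := ℝ) (E := ℝ) (n := ∞))) z
  have h2 := fun a => congrFun (D_some_snd D.F.toPre (contDiff_id (𝕜 := ℝ) (E := ℝ) (n := ∞)) a) z
  rw [Fintype.sum_option, show D.Z.D none Prod.snd z = _ from h1,
    Finset.sum_eq_zero fun a _ => by rw [show D.Z.D (some a) Prod.snd z = _ from h2 a]; simp]
  simp

theorem slab (D : YD I3 Y κ lam) (t R : ℝ) : IsCompact {x : Y × ℝ | |x.2 - t| ≤ R} ∧
    D.Z.μ.real {x | |x.2 - t| ≤ R} ≤ vY D * (2 * |R|) := by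
  have e : {x : Y × ℝ | |x.2 - t| ≤ R} = D.nk.tm ⁻¹' Icc (t - R) (t + R) := Set.ext fun x => by
    simp only [mem_ofPred_eq, abs_le, mem_preimage, nk_tm, mem_Icc]
    constructor <;> rintro ⟨h1, h2⟩ <;> constructor <;> linarith
  have s : Icc (t - R) (t + R) ⊆ D.nk.J := nk_J D ▸ subset_univ _
  rw [e]
  refine ⟨isCompact_slab D.nk s, ?_⟩
  rw [Measure.real, show D.Z.μ _ = _ from measure_slab D.nk measurableSet_Icc s, ENNReal.toReal_mul,
    Real.volume_Icc, ENNReal.toReal_ofReal']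
  exact mul_le_mul_of_nonneg_left (max_le (by linarith [le_abs_self R]) (by positivity))
    (vY_nonneg D)

variable (D 𝒟) in
/-- families of pairs of necks which contain the band `Dp p q 0` -/
structure NP where
  l : Filter 𝒟
  p : 𝒟 → Option ℝ
  q : 𝒟 → Option ℝ
  C : ℕ → ℝ
  S : 𝒟 → Bool → Mf (Option κ) lam
  K : ∀ d i, Nk D (S d i).B (S d i).G
  γ : ℝ
  ρ : 𝒟 → ℝ → ℝ
  hD : D.OK
  tz : D.Z.Tame C
  cs : ∀ a, D.Z.CBs (D.Z.D a Prod.snd) C
  tame : ∀ᶠ d in l, ∀ i, (S d i).G.F.IsVol ∧ (S d i).G.F.Tame C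
  sub : ∀ᶠ d in l, ∀ i L, Dp (p d) (q d) L ⊆ Dp (K d i).p (K d i).q L
  γ0 : 0 < γ
  γ1 : γ ≤ 1 / 2
  lw : ∀ᶠ d in l, ∀ s t, 0 < ρ d t ∧ ρ d s ≤ exp (γ / 8 * |s - t|) * ρ d t
  off : ∀ᶠ d in l, (∀ a ∈ p d, 1 ≤ ρ d a) ∧ ∀ a ∈ q d, 1 ≤ ρ d a

namespace NP
open Rsp69.Cx Rsp69.Tw
variable (P : NP D 𝒟)

/-- the band -/
@[reducible] def cx : Cx (IC I3) (Y × ℝ) (Option κ) 𝒟 where
  l := P.l
  F _ := D.Z
  τ _ := Prod.snd
  p := P.p
  q := P.q
  C := P.C
  v R := vY D * (2 * |R|)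
  tame := .of_forall fun _ => P.tz
  sτ := .of_forall fun _ => ⟨contMDiff_snd, P.cs⟩
  vol := .of_forall fun _ t R _ => slab D t R

theorem dp (L : ℝ) : P.cx.Ev fun d z => ∀ i, z ∈ (P.K d i).ψ.source ∧
    z.2 ∈ Dp (P.K d i).p (P.K d i).q L ∧ (P.K d i).tm ((P.K d i).ψ z) = z.2 ∧
      (P.K d i).τ ((P.K d i).ψ z) = z.2 :=
  ⟨|L| + 1, by positivity, P.sub.mono fun d h z hz i =>
    have h1 : z.2 ∈ Dp _ _ 1 := Dp_mono (by linarith [abs_nonneg L]) (h i _ hz)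
    have h2 := (P.K d i).mem_src.2 (Dp_sub one_pos h1)
    have h3 := (P.K d i).tm_ψ z h2
    ⟨h2, Dp_mono (by linarith [le_abs_self L]) (h i _ hz), h3, by rw [Nk.τ, h3, tf_eq h1]⟩⟩

/-- the pair of manifolds -/
@[reducible] def tw : Tw P.cx lam where
  S := P.S
  ψ d i := (P.K d i).ψ
  κ := P.γ
  ρ := P.ρ
  rt := ⟨P.γ0, .of_forall fun _ x => by
    rw [show ∑ a, _ = _ from D_snd D x]; nlinarith [P.γ0, P.γ1], ⟨by linarith [P.γ0], P.lw⟩, P.off⟩
  iso := P.tame.mono fun d h => ⟨P.hD.G.vol, fun i => ⟨(P.K d i).iso, h i⟩⟩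
  src := (P.dp 0).mono fun _ _ h i => (h i).1

variable {N : Type} [NormedAddCommGroup N] [NormedSpace ℝ N] {k n : ℕ}

theorem ext {f : Y → N} (hf : Sm I3 f) : P.tw.EC (N := fun _ => N) k fun d i => (P.K d i).ext f :=
  let ⟨_, h⟩ := cbs_ext D hf
  .fixed (.of_forall fun d i => h (P.K d i)) ((P.dp 2).mono fun d z h => by
    have e := fun i => (P.K d i).ext_ψ f (h i).1
    simp only [fun i => show (P.K d i).cut 1 z.2 = 1 from ct_one (by norm_num; exact (h i).2.1)] at e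
    exact (e _).trans (e _).symm)

theorem cut {c : ℝ} (hc : 0 < c) :
    P.tw.EC (N := fun _ => ℝ) k fun d i x => (P.K d i).cut c ((P.K d i).tm x) :=
  let ⟨_, h⟩ := cbs_cut D
  .fixed (.of_forall fun d i => h (P.K d i) c hc) ((P.dp (c + 1)).mono fun d z h => by
    have e := fun i => show (P.K d i).cut c ((P.K d i).tm ((P.K d i).ψ z)) = 1 by
      rw [(h i).2.2.1]; exact ct_one (h i).2.1
    exact (e _).trans (e _).symm)

theorem cd_of {g : P.tw.Fn} {C : ℕ → ℝ} (h : ∀ d i a, (P.tw.F d i).CBs ((P.tw.F d i).D a (g d i)) C)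
    (e : P.cx.Ev fun d x => g d true (P.tw.ψ d true x) = g d false (P.tw.ψ d false x)) :
    P.tw.Cd k g := fun a =>
  .fixed (.of_forall fun d i => h d i a) ((e.nhds.and P.tw.rel).mono fun _ _ h =>
    ((h.2.2 _).1.D (h.2.2 _).2.1 a (.of_forall fun _ => rfl)).symm.trans
      ((h.2.2 _).1.D (h.2.2 _).2.1 a h.1))

theorem dτ : P.tw.Cd k fun d i => (P.K d i).τ :=
  let ⟨_, h⟩ := cbs_Dτ D
  P.cd_of (fun d i => h (P.K d i)) ((P.dp 0).mono fun _ _ h => (h _).2.2.2.trans (h _).2.2.2.symm)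

theorem cdx {f : Y → ℝ} (hf : Sm I3 f) : P.tw.Cd k fun d i => (P.K d i).ext f :=
  let ⟨_, h⟩ := cbs_D_fn D (g := some f) (by rintro _ ⟨⟩; exact hf)
  P.cd_of (fun d i => h (P.K d i)) ((P.dp 2).mono fun d z h => by
    have e := fun i => (P.K d i).ext_ψ f (h i).1
    simp only [fun i => show (P.K d i).cut 1 z.2 = 1 from ct_one (by norm_num; exact (h i).2.1)] at e
    exact (e _).trans (e _).symm)

/-- fields which are literal on the necks -/
theorem lit {f : Y × ℝ → N} (hf : D.Z.Cb f) {u : P.tw.Sc fun _ => N}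
    (e : ∀ d i, ∀ z ∈ (P.K d i).ψ.source, u d i ((P.K d i).ψ z) = f z) : P.tw.EL k u :=
  (Pr.same P.tw.lw (Hk.of_CBs (f := fun _ => f) (.of_forall fun _ => hf.choose_spec))).congr
    ((P.dp 0).mono fun d z h i => (e d i z (h i).1).symm)

/-- densities with bounded windows -/
def WK (δ : ℝ) (w : P.tw.Fn) : Prop := ∃ b₀, ∀ᶠ d in P.l, ∀ i, Wb (P.K d i) δ b₀ (w d i)

variable {P} {δ : ℝ} {w w' : P.tw.Fn}

theorem WK.of_EC (hδ : 0 < δ) (h : P.tw.EC k w) (h0 : ∀ d i, ∀ x ∉ (P.K d i).dp 1, w d i x = 0) :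
    P.WK δ w :=
  let ⟨_, _, hu⟩ := h.u
  ⟨_, (hu.and h.q).mono fun d h i => .of_bd _ hδ (Cb.sm (h.2 i)).continuous.aestronglyMeasurable
    (h0 d i) (h.1 i)⟩

theorem WK.add (hδ : 0 < δ) (h : P.WK δ w) (h' : P.WK δ w') :
    P.WK δ fun d i x => w d i x + w' d i x := by
  obtain ⟨b₁, h⟩ := h
  obtain ⟨b₂, h'⟩ := h'
  refine ⟨b₁ + b₂, (h.and h').mono fun d h i => ?_⟩
  obtain ⟨a1, a2, a3⟩ := h.1 i
  obtain ⟨c1, c2, c3⟩ := h.2 i
  have p := fun s => (b_pos (half_pos hδ) s).le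
  have wi : WI (P.S d i).G.F.μ (P.K d i).τ (δ / 2) fun x => w d i x + w' d i x :=
    ⟨a1.τm, a1.m.add c1.m, (a1.i.add c1.i).mono' (((continuous_b _).comp_aestronglyMeasurable
      a1.τm).mul (a1.m.add c1.m).norm) (.of_forall fun x => by
        rw [norm_mul, norm_norm, Real.norm_of_nonneg (p _), Pi.add_apply, ← mul_add]
        exact mul_le_mul_of_nonneg_left (norm_add_le _ _) (p _))⟩
  refine ⟨wi, fun t => le_trans ?_ (add_le_add (a2 t) (c2 t)), fun x hx => by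
    simp only [a3 x hx, c3 x hx, add_zero]⟩
  rw [wn, wn, wn, ← integral_add (a1.norm.int (half_pos hδ) t) (c1.norm.int (half_pos hδ) t)]
  refine integral_mono (wi.norm.int (half_pos hδ) t)
    ((a1.norm.int (half_pos hδ) t).add (c1.norm.int (half_pos hδ) t)) fun x => ?_
  rw [← smul_add]
  exact smul_le_smul_of_nonneg_left (norm_add_le _ _) (p _)

/-- **the time step** -/
theorem win (hδ : P.γ ≤ 2 * δ) (h : P.tw.EL 4 w) (hw : P.WK δ w) (s : ℝ) :
    P.tw.EC (N := fun _ => ℝ) k fun d i x =>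
      wn (P.S d i).G.F.μ (P.K d i).τ δ (w d i) ((P.K d i).τ x + s) := by
  have γ0 := P.γ0
  have δ0 : 0 < δ := by linarith
  obtain ⟨b₀, hw⟩ := hw
  obtain ⟨c, -, hc⟩ := cbs_bd D
  have h1 := hw.mono fun d h i => hc (P.K d i) _ _ ((h i).bdd δ0 s)
  refine ⟨h1.mono fun _ h i => ⟨_, h i⟩, ⟨_, abs_nonneg _, h1.mono fun _ h i =>
    CB_bound (CB_abs ((h i).2 0))⟩, fun i => hk_of_CB (T := P.tw) (u := fun d i x =>
      wn (P.S d i).G.F.μ (P.K d i).τ δ (w d i) ((P.K d i).τ x + s))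
      (h1.mono fun _ h => ⟨(h i).1, (h i).2 k⟩), ?_⟩
  obtain ⟨L, hL, K₀, hK₀, h⟩ := (show P.cx.Hk P.ρ (0 + 4) _ from h.d).bd
  have h2 := ev_lw.1 (P.tw.rt.rad_in (L := L + 1) (R := 0) (by linarith) le_rfl)
  have c0 := fun j => cb_nonneg δ j
  have v0 := vY_nonneg D
  refine (Bd.hk P.tw.lw ⟨2 * (L + 1) + 0 + |s|, by positivity, Bk.time (σ := fun _ => Prod.snd) k
    (.of_forall fun _ x _ => contMDiff_snd x)
    (fun a => (Bk.of_CBs (.of_forall fun _ => P.cs a)).mono (.of_forall fun _ => subset_univ _))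
    (g := fun d t => wn (P.S d true).G.F.μ (P.K d true).τ δ (w d true) (t + s) -
      wn (P.S d false).G.F.μ (P.K d false).τ δ (w d false) (t + s))
    (K := (∑ j ∈ Finset.range (k + 1), cb δ j) * δ * (8 / δ) * (K₀ * vY D + 2 * |b₀|) *
      exp (P.γ / 8 * |s|)) ?_⟩).congr ((P.dp 0).mono fun d z h => by
        simp only [(h _).2.2.2])
  filter_upwards [hw, h, h2, P.lw, P.sub] with d hw h h2 lw sub
  have sm := fun i => ((hw i).bdd δ0 s).1
  refine ⟨(sm _).sub (sm _), fun x hx => ⟨(lw 0 _).1.le, fun j hj => ?_⟩⟩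
  obtain ⟨r1, r2, r3⟩ := h2 (x.2 + s) (Dp_near hx (by simp))
  have r0 : 0 ≤ rad P.γ P.ρ 0 (d, x.2 + s) := le_max_left _ _
  have k1 := fun i s' (hs : |s' - (x.2 + s)| ≤ _) =>
    Dp_mono (show 1 ≤ L + 1 by linarith) (sub i _ (Dp_near r1 hs))
  have hb := fun i => wi_half δ0 (hw i).wi
  have e := tdiff δ0 (hw true) (hw false) (continuous_const.mul (continuous_bd δ j))
    (bd_le_exp δ0 j) (k1 _) (k1 _) (A := K₀ * P.ρ d (x.2 + s)) (by positivity) fun z hz =>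
      ((h z (Dp_mono (by linarith) (Dp_near r1 hz))).2.2.bd).trans (by
        rw [mul_assoc]
        refine mul_le_mul_of_nonneg_left ((lw _ (x.2 + s)).2.trans ?_) hK₀
        rw [mul_comm]
        exact mul_le_mul_of_nonneg_left (exp_le_exp.2 (mul_le_mul_of_nonneg_right (by linarith)
          (abs_nonneg _))) r2.le)
  rw [iteratedDeriv_fun_sub ((sm _).of_le (by exact_mod_cast le_top)).contDiffAt
    ((sm _).of_le (by exact_mod_cast le_top)).contDiffAt, iteratedDeriv_comp_add_const,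
    iteratedDeriv_comp_add_const, (hb _).iteratedDeriv_wn δ0, (hb _).iteratedDeriv_wn δ0]
  refine e.trans ?_
  have e1 : exp (-(δ / 2 * rad P.γ P.ρ 0 (d, x.2 + s))) * b₀ ≤ P.ρ d (x.2 + s) * |b₀| :=
    (mul_le_mul_of_nonneg_left (le_abs_self _) (exp_pos _).le).trans (mul_le_mul_of_nonneg_right
      (le_trans (exp_le_exp.2 (by nlinarith)) r3) (abs_nonneg _))
  have e2 := (lw (x.2 + s) x.2).2
  rw [add_sub_cancel_left] at e2
  calc _ ≤ (∑ j ∈ Finset.range (k + 1), cb δ j) * δ * (8 / δ) *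
        ((K₀ * vY D + 2 * |b₀|) * P.ρ d (x.2 + s)) := by
        have := c0 j
        refine (mul_le_mul_of_nonneg_left (by linarith) (by positivity)).trans
          (mul_le_mul_of_nonneg_right ?_ (by positivity))
        gcongr
        exact Finset.single_le_sum (fun j _ => c0 j) (Finset.mem_range.2 (Nat.lt_succ_of_le hj))
    _ ≤ _ := by
        have := Finset.sum_nonneg fun j (_ : j ∈ Finset.range (k + 1)) => c0 j
        rw [← mul_assoc, mul_assoc _ (exp _)]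
        gcongr

end NP

end Crest.Agent.X212.Rsp69
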