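import Crest.Agent.X212.Rsp69.Reg
import Crest.Agent.X212.Nd18.Api
import Crest.Agent.X212.Eqv71.Nat

/-! Row 212, RESP (helper69): Sobolev bounds on the time windows of a band. -/

set_option autoImplicit false
set_option linter.unusedSectionVars false
noncomputable section
open scoped Manifold ContDiff Topology InnerProductSpace
open MeasureTheory Set Function Filter

namespace Crest.Agent.X212.Rsp69
open An Sob92 Wz78
open Nd18 (BD Dp ct)

/-- `1` on `[t - r + 1, t + r - 1]`, `0` off `[t - r, t + r]` -/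
def wc (r t : ℝ) : ℝ → ℝ := ct (some (t - r)) (some (t + r)) 0

section wc
variable {r t s L : ℝ} {p q : Option ℝ}

theorem bd_wc : ∃ C, ∀ r t, BD (wc r t) C := Nd18.bd_ct.imp fun _ h _ _ => h _ _ _

theorem wc_zero (h : r < |s - t|) : wc r t s = 0 := Nd18.ct_zero fun e =>
  h.not_ge (abs_le.2 ⟨by linarith [e.1 _ rfl], by linarith [e.2 _ rfl]⟩)

theorem wc_one (h : |s - t| + 1 ≤ r) : wc r t s = 1 := Nd18.ct_one
  ⟨by rintro _ ⟨⟩; linarith [neg_abs_le (s - t)], by rintro _ ⟨⟩; linarith [le_abs_self (s - t)]⟩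

theorem wc_mem : wc r t s ∈ Icc (0 : ℝ) 1 := Nd18.ct_mem

theorem continuous_wc : Continuous (wc r t) := Nd18.contDiff_ct.continuous

theorem Dp_near (h : t ∈ Dp p q (L + r)) (hs : |s - t| ≤ r) : s ∈ Dp p q L :=
  ⟨fun a ha => by linarith [h.1 a ha, neg_abs_le (s - t)],
    fun b hb => by linarith [h.2 b hb, le_abs_self (s - t)]⟩

end wc

variable {E : Type} [NormedAddCommGroup E] [NormedSpace ℝ E] [FiniteDimensional ℝ E]
  [MeasurableSpace E] [BorelSpace E]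
  {HM : Type} [TopologicalSpace HM] {I : ModelWithCorners ℝ E HM} [I.Boundaryless]
  {M : Type} [TopologicalSpace M] [ChartedSpace HM M] [IsManifold I ∞ M]
  [MeasurableSpace M] [T2Space M] [BorelSpace M] [SecondCountableTopology M]
  {ι : Type} [Fintype ι] {𝒟 : Type*}

/-- functions of time -/
theorem Bk.time {F : 𝒟 → Pre I M ι} {l : Filter 𝒟} {S : 𝒟 → Set M} {σ w : 𝒟 → M → ℝ}
    {P : Type} [NormedAddCommGroup P] [NormedSpace ℝ P] (k : ℕ)
    (hσ : ∀ᶠ d in l, ∀ x ∈ S d, SA I (σ d) x)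
    (hD : ∀ a, Bk (N := fun _ => ℝ) F l S 1 k fun d => (F d).D a (σ d)) : ∀ {g : 𝒟 → ℝ → P} {K : ℝ},
    (∀ᶠ d in l, ContDiff ℝ ∞ (g d) ∧ ∀ x ∈ S d, 0 ≤ w d x ∧
      ∀ j ≤ k, ‖iteratedDeriv j (g d) (σ d x)‖ ≤ K * w d x) →
    Bk (N := fun _ => P) F l S w k fun d x => g d (σ d x) := by
  have h0 : ∀ {k : ℕ} {g : 𝒟 → ℝ → P} {K : ℝ}, (∀ᶠ d in l, ContDiff ℝ ∞ (g d) ∧ ∀ x ∈ S d,
      0 ≤ w d x ∧ ∀ j ≤ k, ‖iteratedDeriv j (g d) (σ d x)‖ ≤ K * w d x) →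
      Bk (N := fun _ => P) F l S w 0 fun d x => g d (σ d x) := fun {_ g K} h =>
    ⟨|K|, abs_nonneg _, (h.and hσ).mono fun d h x hx => ⟨(h.1.2 x hx).1,
      h.1.1.contMDiff.contMDiffAt.comp x (h.2 x hx), .zero' (((h.1.2 x hx).2 0 (by simp)).trans
        (mul_le_mul_of_nonneg_right (le_abs_self K) (h.1.2 x hx).1))⟩⟩
  induction k with
  | zero => intro g K h; exact h0 h
  | succ k ih =>
    intro g K h
    refine (h0 h).succ fun a => (((hD a).of_le k.le_succ).smulR (ih (fun a => (hD a).of_le k.le_succ)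
      (g := fun d => deriv (g d)) (K := K) (h.mono fun d h => ⟨(contDiff_infty_iff_deriv.1 h.1).2,
        fun x hx => ⟨(h.2 x hx).1, fun j hj => ?_⟩⟩))).congr ?_
    · rw [← iteratedDeriv_succ']; exact (h.2 x hx).2 _ (by omega)
    · filter_upwards [h, hσ] with d h hσ x hx
      filter_upwards [D_comp_ev (F := F d) h.1 (hσ x hx) a] with y hy
      rw [← hy, fderiv_eq_smul_deriv]

variable (I M ι 𝒟) in
/-- a family of tame frames with time functions and bands `Dp p q 0` -/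
structure Cx where
  l : Filter 𝒟
  F : 𝒟 → Fr I M ι
  τ : 𝒟 → M → ℝ
  p : 𝒟 → Option ℝ
  q : 𝒟 → Option ℝ
  C : ℕ → ℝ
  v : ℝ → ℝ
  tame : ∀ᶠ d in l, (F d).Tame C
  sτ : ∀ᶠ d in l, Sm I (τ d) ∧ ∀ a, (F d).CBs ((F d).D a (τ d)) C
  vol : ∀ᶠ d in l, ∀ t R, t ∈ Dp (p d) (q d) R → IsCompact {x | |τ d x - t| ≤ R} ∧
    (F d).μ.real {x | |τ d x - t| ≤ R} ≤ v R

namespace Cx
variable (X : Cx I M ι 𝒟)

/-- times of depth `≥ L` -/
abbrev In (L : ℝ) (d : 𝒟) : Set ℝ := Dp (X.p d) (X.q d) L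

/-- the part of the band of depth `≥ L` -/
abbrev bd (L : ℝ) (d : 𝒟) : Set M := X.τ d ⁻¹' X.In L d

/-- windows of depth `≥ L` -/
def lw (L : ℝ) : Filter (𝒟 × ℝ) := comap Prod.fst X.l ⊓ 𝓟 {z | z.2 ∈ X.In L z.1}

abbrev F' : 𝒟 × ℝ → Fr I M ι := fun z => X.F z.1

/-- the window cut-off -/
def η (R : ℝ) (z : 𝒟 × ℝ) (x : M) : ℝ := wc R z.2 (X.τ z.1 x)

/-- the closed window -/
def W (R : ℝ) (z : 𝒟 × ℝ) : Set M := {x | |X.τ z.1 x - z.2| ≤ R}

variable {X} {L L' R : ℝ}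

theorem ev_lw {P : 𝒟 × ℝ → Prop} :
    (∀ᶠ z in X.lw L, P z) ↔ ∀ᶠ d in X.l, ∀ t ∈ X.In L d, P (d, t) := by
  simp only [lw, eventually_inf_principal, eventually_comap, mem_ofPred_eq, Prod.forall]
  exact ⟨fun h => h.mono fun d h t => h d t rfl, fun h => h.mono fun d h _ t e => e ▸ h t⟩

theorem lw_fst : Tendsto Prod.fst (X.lw L) X.l := tendsto_comap.mono_left inf_le_left

theorem ev_fst {P : 𝒟 → Prop} (h : ∀ᶠ d in X.l, P d) : ∀ᶠ z in X.lw L, P z.1 := lw_fst.eventually h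

theorem lw_in : ∀ᶠ z in X.lw L, z.2 ∈ X.In L z.1 := ev_lw.2 (.of_forall fun _ _ h => h)

theorem lw_mono (h : L ≤ L') : X.lw L' ≤ X.lw L :=
  inf_le_inf_left _ (principal_mono.2 fun _ e => Nd18.Dp_mono h e)

theorem tame' : ∀ᶠ z in X.lw L, (X.F' z).Tame X.C := ev_fst X.tame

theorem η_zero {z : 𝒟 × ℝ} {x : M} (h : x ∉ X.W R z) : X.η R z x = 0 := wc_zero (not_le.1 h)

theorem η_one {z : 𝒟 × ℝ} {x : M} (h : x ∈ X.W R z) {R' : ℝ} (hR : R + 1 ≤ R') : X.η R' z x = 1 :=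
  wc_one (by linarith [show |X.τ z.1 x - z.2| ≤ R from h])

theorem η_ev {z : 𝒟 × ℝ} (hτ : Sm I (X.τ z.1)) {x : M} (h : x ∈ X.W R z) {R' : ℝ}
    (hR : R + 2 ≤ R') : X.η R' z =ᶠ[𝓝 x] fun _ => 1 := by
  have : Continuous fun y => |X.τ z.1 y - z.2| := (hτ.continuous.sub continuous_const).abs
  filter_upwards [this.continuousAt.eventually_lt_const
    (lt_add_of_le_of_pos (show |X.τ z.1 x - z.2| ≤ R from h) one_pos)] with y hy
  exact η_one hy.le (by linarith)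

theorem ts_η {z : 𝒟 × ℝ} (hτ : Sm I (X.τ z.1)) : tsupport (X.η R z) ⊆ X.W R z :=
  closure_minimal (fun _ h => by_contra fun e => h (η_zero e))
    (isClosed_le (hτ.continuous.sub continuous_const).abs continuous_const)

theorem η_ev0 {z : 𝒟 × ℝ} (hτ : Sm I (X.τ z.1)) {x : M} (h : x ∉ X.W R z) :
    X.η R z =ᶠ[𝓝 x] fun _ => 0 := notMem_tsupport_iff_eventuallyEq.1 fun e => h (ts_η hτ e)

theorem W_mono {z : 𝒟 × ℝ} {R' : ℝ} (h : R ≤ R') : X.W R z ⊆ X.W R' z := fun _ e => le_trans e h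

theorem W_bd {z : 𝒟 × ℝ} (h : z.2 ∈ X.In (L + R) z.1) : X.W R z ⊆ X.bd L z.1 := fun _ => Dp_near h

theorem W_vol (h : R ≤ L) : ∀ᶠ z in X.lw L, IsCompact (X.W R z) ∧ (X.F z.1).μ.real (X.W R z) ≤ X.v R :=
  ev_lw.2 (X.vol.mono fun _ h' t ht => h' t R (Nd18.Dp_mono h ht))

/-- cut-offs of any radius at any time -/
theorem bk_η {𝒟' : Type*} {l' : Filter 𝒟'} {φ : 𝒟' → 𝒟 × ℝ} (hφ : Tendsto (fun e => (φ e).1) l' X.l)
    (r : 𝒟' → ℝ) (k : ℕ) : Bk (N := fun _ => ℝ) (pre fun e => X.F' (φ e)) l' (un 𝒟' M) 1 k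
      fun e => X.η (r e) (φ e) :=
  let ⟨C, hC⟩ := bd_wc
  Bk.time k ((hφ.eventually X.sτ).mono fun _ h x _ => h.1 x)
    (fun a => .of_CBs ((hφ.eventually X.sτ).mono fun _ h => h.2 a)) (K := C k)
    (.of_forall fun _ => ⟨(hC _ _).1, fun _ _ => ⟨zero_le_one, fun j hj => by
      simpa using (hC _ _).2 k j hj _⟩⟩)

theorem bk_η' (R : ℝ) (k : ℕ) : Bk (N := fun _ => ℝ) (pre X.F') (X.lw L) (un _ M) 1 k (X.η R) :=
  bk_η (φ := id) lw_fst (fun _ => R) k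

variable {V : 𝒟 → Type} [∀ d, NormedAddCommGroup (V d)] [∀ d, InnerProductSpace ℝ (V d)]
  {N N' N'' : 𝒟 → Type} [∀ d, NormedAddCommGroup (N d)] [∀ d, NormedSpace ℝ (N d)]
  [∀ d, NormedAddCommGroup (N' d)] [∀ d, NormedSpace ℝ (N' d)]
  [∀ d, NormedAddCommGroup (N'' d)] [∀ d, NormedSpace ℝ (N'' d)]
  {w w' : 𝒟 → ℝ → ℝ} {k : ℕ} {f g : ∀ d, M → N d}

variable (X) in
/-- bounds over windows -/
abbrev NW (L : ℝ) (w : 𝒟 → ℝ → ℝ) (k : ℕ) (u : ∀ z : 𝒟 × ℝ, M → N z.1) : Prop :=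
  NB (N := fun z => N z.1) X.F' (X.lw L) (fun z => w z.1 z.2) k u

variable (X) in
/-- Sobolev bounds by `w` on all windows of depth `≥ L` -/
def HL (L : ℝ) (w : 𝒟 → ℝ → ℝ) (k : ℕ) (f : ∀ d, M → N d) : Prop :=
  ∀ R, 0 ≤ R → X.NW (L + R) w k fun z x => X.η R z x • f z.1 x

variable (X) in
/-- Sobolev bounds by `w` on all windows deep inside the band -/
def Hk (w : 𝒟 → ℝ → ℝ) (k : ℕ) (f : ∀ d, M → N d) : Prop := ∃ L, 0 ≤ L ∧ X.HL L w k f

variable (X) in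
/-- pointwise bounds by `w` deep inside the band -/
def Bd (w : 𝒟 → ℝ → ℝ) (k : ℕ) (f : ∀ d, M → N d) : Prop :=
  ∃ L, 0 ≤ L ∧ Bk (pre X.F) X.l (X.bd L) (fun d x => w d (X.τ d x)) k f

variable (X) in
/-- statements which hold deep inside the band -/
def Ev (P : 𝒟 → M → Prop) : Prop := ∃ L, 0 ≤ L ∧ ∀ᶠ d in X.l, ∀ x ∈ X.bd L d, P d x

theorem NW.mono {u : ∀ z : 𝒟 × ℝ, M → N z.1} (h : X.NW L w k u) (hL : L ≤ L') : X.NW L' w k u :=
  NB.comap (φ := id) (tendsto_id.mono_left (lw_mono hL)) h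

theorem HL.mono (h : X.HL L w k f) (hL : L ≤ L') : X.HL L' w k f :=
  fun R hR => (h R hR).mono (by linarith)

theorem Ev.mono {P Q : 𝒟 → M → Prop} (h : X.Ev P) (e : ∀ d x, P d x → Q d x) : X.Ev Q :=
  let ⟨L, hL, h⟩ := h
  ⟨L, hL, h.mono fun d h x hx => e d x (h x hx)⟩

theorem Ev.and {P Q : 𝒟 → M → Prop} (h : X.Ev P) (h' : X.Ev Q) : X.Ev fun d x => P d x ∧ Q d x :=
  let ⟨L, hL, h⟩ := h; let ⟨L', hL', h'⟩ := h'
  ⟨L + L', by positivity, (h.and h').mono fun _ h x hx =>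
    ⟨h.1 x (Nd18.Dp_mono (by linarith) hx), h.2 x (Nd18.Dp_mono (by linarith) hx)⟩⟩

theorem Ev.of_ev {P : 𝒟 → M → Prop} (h : ∀ᶠ d in X.l, ∀ x, P d x) : X.Ev P :=
  ⟨0, le_rfl, h.mono fun _ h x _ => h x⟩

theorem Ev.all {κ : Type*} [Finite κ] {P : κ → 𝒟 → M → Prop} (h : ∀ i, X.Ev (P i)) :
    X.Ev fun d x => ∀ i, P i d x := by
  have := Fintype.ofFinite κ
  choose L hL h using h
  exact ⟨∑ i, L i, Finset.sum_nonneg fun i _ => hL i, (eventually_all.2 h).mono fun d h x hx i =>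
    h i x (Nd18.Dp_mono (Finset.single_le_sum (fun i _ => hL i) (Finset.mem_univ i)) hx)⟩

theorem Ev.nhds {P : 𝒟 → M → Prop} (h : X.Ev P) : X.Ev fun d x => ∀ᶠ y in 𝓝 x, P d y :=
  let ⟨L, hL, h⟩ := h
  ⟨L + 1, by positivity, (h.and X.sτ).mono fun _ h x hx => (h.2.1.continuous.continuousAt.eventually
    (Nd18.Dp_mem_nhds (lt_add_one L) hx)).mono fun y hy => h.1 y hy⟩

theorem Ev.win {P : 𝒟 → M → Prop} (h : X.Ev P) : ∃ L, 0 ≤ L ∧ ∀ R, ∀ᶠ z in X.lw (L + R),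
    ∀ x ∈ X.W R z, P z.1 x :=
  let ⟨L, hL, h⟩ := h
  ⟨L, hL, fun _ => ((ev_fst h).and lw_in).mono fun _ h x hx => h.1 x (W_bd h.2 hx)⟩

theorem Hk.of_ext (hL : 0 ≤ L) (h : ∀ R, 0 ≤ R → ∃ u, X.NW (L + R) w k u ∧
    ∀ᶠ z in X.lw (L + R), ∀ x ∈ X.W R z, u z x = f z.1 x) : X.Hk w k f :=
  ⟨L, hL, fun R hR => let ⟨_, h1, h2⟩ := h R hR
    (h1.smul (bk_η' R k)).congr (h2.mono fun z h => funext fun x => by
      by_cases hx : x ∈ X.W R z
      · rw [h x hx]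
      · rw [η_zero hx, zero_smul, zero_smul])⟩

theorem ext_ev (f : ∀ d, M → N d) : ∀ᶠ z in X.lw L, ∀ x ∈ X.W R z,
    (fun x => X.η (R + 2) z x • f z.1 x) =ᶠ[𝓝 x] f z.1 :=
  (ev_fst X.sτ).mono fun z h x hx => (η_ev h.1 hx le_rfl).mono fun y hy => by simp [hy]

/-- global representatives -/
theorem Hk.ext (h : X.Hk w k f) : ∃ L, 0 ≤ L ∧ ∀ L' R, L + R ≤ L' → 0 ≤ R →
    X.NW L' w k fun z x => X.η (R + 2) z x • f z.1 x :=
  let ⟨L, hL, h⟩ := h
  ⟨L + 2, by positivity, fun _ R e hR => (h (R + 2) (by positivity)).mono (by linarith)⟩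

variable (X) in
/-- positive weights with logarithmic derivative at most `c` -/
def Lw (c : ℝ) (w : 𝒟 → ℝ → ℝ) : Prop :=
  0 ≤ c ∧ ∀ᶠ d in X.l, ∀ s t, 0 < w d t ∧ w d s ≤ Real.exp (c * |s - t|) * w d t

theorem lw_one : X.Lw 0 1 := ⟨le_rfl, .of_forall fun _ _ _ => ⟨one_pos, by simp⟩⟩

theorem Bd.hk {c : ℝ} (hw : X.Lw c w) (h : X.Bd w k f) : X.Hk w k f := by
  obtain ⟨L, hL, h⟩ := h
  have w0 : ∀ L, ∀ᶠ z in X.lw L, 0 ≤ w z.1 z.2 := fun L =>
    (ev_fst hw.2).mono fun z h => (h 0 _).1.le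
  refine ⟨L, hL, fun R hR => NB.of_Bk (U := X.W R) (v := X.v R) (w0 _)
    (((W_vol (by linarith)).and (ev_fst X.sτ)).mono fun z h => ⟨h.1.1, h.1.2,
      (tsupport_smul_subset_left _ _).trans (ts_η h.2.1)⟩)
    (Bk.cut (bk_η' R k) ((w0 _).mono fun _ h _ => h) ?_)⟩
  refine (((h.comap lw_fst).mono (S' := X.W R) (lw_in.mono fun _ => W_bd)).wt
    (C := Real.exp (c * R)) ((ev_fst hw.2).mono fun z h x hx => ⟨(h 0 _).1.le,
      (h _ z.2).2.trans ?_⟩)).mono ((ev_fst X.sτ).mono fun _ h => ts_η h.1)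
  exact mul_le_mul_of_nonneg_right (Real.exp_le_exp.2 (mul_le_mul_of_nonneg_left hx hw.1))
    (h 0 _).1.le

theorem Hk.bd {g : ∀ d, M → V d} (h : X.Hk w (k + 4) g) : X.Bd w k g := by
  obtain ⟨L, hL, h⟩ := h.ext
  obtain ⟨K, hK, h⟩ := (h L 0 (by linarith) le_rfl).sup tame'
  refine ⟨L, hL, K, hK, (ev_lw.1 (h.and (ext_ev (R := 0) g))).mono fun d h x hx => ?_⟩
  have e := (h _ hx).2 x (by simp [W])
  have h1 := (h _ hx).1 x trivial
  exact ⟨h1.1, sa_congr h1.2.1 e, h1.2.2.congr e⟩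

theorem Bd.of_Bk (h : Bk (pre X.F) X.l (un 𝒟 M) 1 k f) : X.Bd 1 k f :=
  ⟨0, le_rfl, h.mono (.of_forall fun _ => subset_univ _)⟩

namespace Hk

theorem congr (h : X.Hk w k f) (e : X.Ev fun d x => f d x = g d x) : X.Hk w k g := by
  obtain ⟨L, hL, h⟩ := h
  obtain ⟨L', hL', e⟩ := e.win
  refine ⟨L + L', by positivity, fun R hR => ((h R hR).mono (by linarith)).congr
    (((e R).filter_mono (lw_mono (by linarith))).mono fun z h => funext fun x => ?_)⟩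
  by_cases hx : x ∈ X.W R z
  · rw [h x hx]
  · rw [η_zero hx, zero_smul, zero_smul]

theorem congr' (h : X.Hk w k f) (e : ∀ d x, f d x = g d x) : X.Hk w k g :=
  h.congr (.of_ev (.of_forall e))

theorem of_le {j : ℕ} (h : X.Hk w k f) (hj : j ≤ k) : X.Hk w j f :=
  let ⟨L, hL, h⟩ := h
  ⟨L, hL, fun R hR => (h R hR).of_le hj⟩

theorem sa (h : X.Hk w k f) : X.Ev fun d x => SA I (f d) x := by
  obtain ⟨L, hL, h⟩ := h.ext
  exact ⟨L, hL, (ev_lw.1 ((h L 0 (by linarith) le_rfl).sm.and (ext_ev (R := 0) f))).mono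
    fun d h x hx => sa_congr ((h _ hx).1 x) ((h _ hx).2 x (by simp [W]))⟩

theorem nn (h : X.Hk w k f) : ∃ L, 0 ≤ L ∧ ∀ᶠ z in X.lw L, 0 ≤ w z.1 z.2 :=
  let ⟨L, hL, h⟩ := h
  ⟨L + 0, by positivity, (h 0 le_rfl).nn⟩

theorem wt (h : X.Hk w k f) {c : ℝ} (hw : ∀ᶠ d in X.l, ∀ t, 0 ≤ w' d t ∧ w d t ≤ c * w' d t) :
    X.Hk w' k f :=
  let ⟨L, hL, h⟩ := h
  ⟨L, hL, fun R hR => (h R hR).wt (c := c) ((ev_fst hw).mono fun z h => h z.2)⟩

theorem of_Bk (h : Bk (pre X.F) X.l (un 𝒟 M) 1 k f) : X.Hk 1 k f := (Bd.of_Bk h).hk lw_one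

theorem of_CBs {C : ℕ → ℝ} (h : ∀ᶠ d in X.l, (X.F d).CBs (f d) C) : X.Hk 1 k f := of_Bk (.of_CBs h)

theorem const {c : ∀ d, N d} (h : Ub X.l fun d => ‖c d‖) : X.Hk 1 k fun d _ => c d :=
  of_Bk (.const h)

theorem dv (a : ι) : X.Hk (N := fun _ => ℝ) 1 k fun d => (X.F d).dv a :=
  of_CBs (X.tame.mono fun _ h => h.dv a)

theorem D (h : X.Hk w (k + 1) f) (a : ι) : X.Hk w k fun d => (X.F d).D a (f d) :=
  let ⟨_, hL, h⟩ := h.ext
  of_ext hL fun R hR => ⟨_, (h _ R le_rfl hR).D a, (ext_ev f).mono fun _ h x hx =>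
    (D_ev (h x hx) a).self_of_nhds⟩

theorem succ (h : X.Hk w k f) (h' : ∀ a, X.Hk w k fun d => (X.F d).D a (f d)) :
    X.Hk w (k + 1) f := by
  obtain ⟨L₀, hL₀, h0⟩ := id h
  obtain ⟨L₁, hL₁, h1⟩ := h.sa.win
  obtain ⟨L, hL, h⟩ := h.ext
  choose L' hL' h' using h'
  have h2 := fun a => Finset.single_le_sum (fun a _ => hL' a) (Finset.mem_univ a)
  have h3 : 0 ≤ ∑ a, L' a := Finset.sum_nonneg fun a _ => hL' a
  refine ⟨L₀ + L₁ + L + ∑ a, L' a, by positivity, fun R hR =>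
    NB.succ (((h0 R hR).mono (by linarith)).of_le k.zero_le) fun a =>
      (((h _ R (by linarith) hR).smul ((bk_η' R (k + 1)).D a)).add
        ((h' a R hR).mono (by linarith [h2 a]))).congr ?_⟩
  filter_upwards [(h1 R).filter_mono (lw_mono (by linarith)), ev_fst X.sτ,
    (bk_η' R 0).sa] with z h1 hτ hη
  funext x
  by_cases hx : x ∈ X.W R z
  · rw [η_one hx (show R + 1 ≤ R + 2 by linarith), one_smul]
    exact (dv_smul (hη x trivial).md (h1 x hx).md).symm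
  · have e := η_ev0 hτ.1 hx
    have e' : (fun x => X.η R z x • f z.1 x) =ᶠ[𝓝 x] fun _ => 0 := e.mono fun y hy => by simp [hy]
    rw [(D_ev e a).self_of_nhds, (D_ev e' a).self_of_nhds, η_zero hx]
    simp [Pre.D_def, dv_const]

theorem add (h : X.Hk w k f) (h' : X.Hk w k g) : X.Hk w k fun d x => f d x + g d x :=
  let ⟨L, hL, h⟩ := h; let ⟨L', hL', h'⟩ := h'
  ⟨L + L', by positivity, fun R hR => by
    simpa only [smul_add] using ((h R hR).mono (by linarith)).add ((h' R hR).mono (by linarith))⟩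

theorem bil {B : ∀ d, N d →L[ℝ] N' d →L[ℝ] N'' d} (hB : Ub X.l fun d => ‖B d‖) {i j : ℕ}
    (h : X.Hk w i f) {g : ∀ d, M → N' d} (h' : X.Hk w' j g) (hi : k ≤ i) (hj : k ≤ j)
    (hk : k + 1 ≤ (i - 3) + (j - 3)) :
    X.Hk (fun d t => w d t * w' d t) k fun d x => B d (f d x) (g d x) :=
  let ⟨L, hL, h⟩ := h.ext; let ⟨L', hL', h'⟩ := h'.ext; let ⟨c, hc, hB⟩ := hB
  of_ext (add_nonneg hL hL') fun R hR => ⟨_, NB.bil tame' (B := fun z => B z.1) ⟨c, hc, ev_fst hB⟩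
    (h _ R (by linarith) hR) (h' _ R (by linarith) hR) hi hj hk, .of_forall fun z x hx => by
      simp only [η_one hx (show R + 1 ≤ R + 2 by linarith), one_smul]⟩

section
variable {n : ℕ} (hn : 7 ≤ n) (hk : k ≤ n)
include hn hk

theorem bilR {B : ∀ d, N d →L[ℝ] N' d →L[ℝ] N'' d} (hB : Ub X.l fun d => ‖B d‖)
    (h : X.Hk 1 n f) {g : ∀ d, M → N' d} (h' : X.Hk w k g) :
    X.Hk w k fun d x => B d (f d x) (g d x) := by
  simpa only [Pi.one_apply, one_mul] using bil hB h h' hk le_rfl (by omega)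

theorem bilL {B : ∀ d, N d →L[ℝ] N' d →L[ℝ] N'' d} (hB : Ub X.l fun d => ‖B d‖)
    (h : X.Hk w k f) {g : ∀ d, M → N' d} (h' : X.Hk 1 n g) :
    X.Hk w k fun d x => B d (f d x) (g d x) := by
  simpa only [Pi.one_apply, mul_one] using bil hB h h' le_rfl hk (by omega)

theorem appR {T : ∀ d, M → N d →L[ℝ] N' d} (h : X.Hk 1 n T) (h' : X.Hk w k f) :
    X.Hk w k fun d x => T d x (f d x) :=
  bilR hn hk (B := fun d => ContinuousLinearMap.id ℝ (N d →L[ℝ] N' d))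
    (.of_le 1 fun _ => ContinuousLinearMap.norm_id_le) h h'

theorem appL {T : ∀ d, M → N d →L[ℝ] N' d} (h : X.Hk w k T) (h' : X.Hk 1 n f) :
    X.Hk w k fun d x => T d x (f d x) :=
  bilL hn hk (B := fun d => ContinuousLinearMap.id ℝ (N d →L[ℝ] N' d))
    (.of_le 1 fun _ => ContinuousLinearMap.norm_id_le) h h'

theorem smulR {r : 𝒟 → M → ℝ} (h : X.Hk (N := fun _ => ℝ) 1 n r) (h' : X.Hk w k f) :
    X.Hk w k fun d x => r d x • f d x :=
  bilR hn hk (B := fun d => ContinuousLinearMap.lsmul ℝ ℝ (E := N d))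
    (.of_le 1 fun _ => ContinuousLinearMap.opNorm_lsmul_le) h h'

end

theorem clm {T : ∀ d, N d →L[ℝ] N' d} (hT : Ub X.l fun d => ‖T d‖) (h : X.Hk w k f) :
    X.Hk w k fun d x => T d (f d x) := appR (n := k + 7) (by omega) (by omega) (const hT) h

theorem neg (h : X.Hk w k f) : X.Hk w k fun d x => -f d x :=
  h.clm (T := fun d => -ContinuousLinearMap.id ℝ (N d))
    (.of_le 1 fun _ => by simpa using ContinuousLinearMap.norm_id_le)

theorem sub (h : X.Hk w k f) (h' : X.Hk w k g) : X.Hk w k fun d x => f d x - g d x := by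
  simpa only [sub_eq_add_neg] using h.add h'.neg

theorem zero (h : X.Hk w k f) : X.Hk w k fun d _ => (0 : N' d) :=
  h.clm (T := fun _ => 0) (.of_le 0 fun _ => by simp)

theorem sum {κ : Type*} (s : Finset κ) {f : κ → ∀ d, M → N d} {g : ∀ d, M → N' d}
    (h0 : X.Hk w k g) (h : ∀ i ∈ s, X.Hk w k (f i)) : X.Hk w k fun d x => ∑ i ∈ s, f i d x := by
  classical
  induction s using Finset.induction_on with
  | empty => simpa using h0.zero
  | insert a s ha ih =>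
    simp only [Finset.sum_insert ha]
    exact (h a (Finset.mem_insert_self _ _)).add (ih fun i hi => h i (Finset.mem_insert_of_mem hi))

theorem nab {n : ℕ} (hn : 7 ≤ n) (hk : k ≤ n) {A : ∀ d, ι → M → N d →L[ℝ] N d}
    (hA : ∀ a, X.Hk 1 n fun d => A d a) (h : X.Hk w (k + 1) f) (a : ι) :
    X.Hk w k fun d => nab I (X.F d).e (A d) a (f d) :=
  (h.D a).add ((hA a).appR hn hk (h.of_le k.le_succ))

section comp
variable {P : Type} [NormedAddCommGroup P] [InnerProductSpace ℝ P] [FiniteDimensional ℝ P]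
  {u v : 𝒟 → M → P} {n : ℕ}

theorem comp (hn : 8 ≤ n) (h : X.Hk 1 n u) (k : ℕ) : ∀ {Q : Type} [NormedAddCommGroup Q]
    [NormedSpace ℝ Q] {φ : P → Q}, ContDiff ℝ ∞ φ → k ≤ n →
      X.Hk (N := fun _ => Q) 1 k fun d x => φ (u d x) := by
  obtain ⟨n, rfl⟩ : ∃ m, n = m + 1 := ⟨n - 1, by omega⟩
  induction k with
  | zero =>
    intro Q _ _ φ hφ _
    obtain ⟨L, hL, h⟩ := (h.of_le (j := 0 + 4) (by omega)).bd
    exact Bd.hk lw_one ⟨L, hL, Bk.comp 0 hφ h⟩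
  | succ k ih =>
    intro Q _ _ φ hφ hk
    exact (ih hφ (by omega)).succ fun a => (appL (by omega) (by omega)
      (ih (hφ.fderiv_right (m := ∞) le_rfl) (by omega)) (h.D a)).congr
        (h.sa.mono fun d x hx => (D_comp_ev hφ hx a).self_of_nhds)

theorem comp_sub {c : ℝ} (hw : X.Lw c w) (hn : 8 ≤ n) (h : X.Hk 1 n u) (h' : X.Hk 1 n v)
    (h'' : X.Hk w n fun d x => u d x - v d x) (k : ℕ) : ∀ {Q : Type} [NormedAddCommGroup Q]
    [NormedSpace ℝ Q] {φ : P → Q}, ContDiff ℝ ∞ φ → k ≤ n →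
      X.Hk (N := fun _ => Q) w k fun d x => φ (u d x) - φ (v d x) := by
  obtain ⟨n, rfl⟩ : ∃ m, n = m + 1 := ⟨n - 1, by omega⟩
  induction k with
  | zero =>
    intro Q _ _ φ hφ _
    obtain ⟨L, hL, h⟩ := (h.of_le (j := 0 + 4) (by omega)).bd
    obtain ⟨L', hL', h'⟩ := (h'.of_le (j := 0 + 4) (by omega)).bd
    obtain ⟨L'', hL'', h''⟩ := (h''.of_le (j := 0 + 4) (by omega)).bd
    have m : ∀ {L L'}, L ≤ L' → ∀ᶠ d in X.l, X.bd L' d ⊆ X.bd L d := fun h =>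
      .of_forall fun _ => preimage_mono (Nd18.Dp_mono h)
    exact Bd.hk hw ⟨L + L' + L'', by positivity, Bk.comp_sub 0 hφ (h.mono (m (by linarith)))
      (h'.mono (m (by linarith))) (h''.mono (m (by linarith)))⟩
  | succ k ih =>
    intro Q _ _ φ hφ hk
    have hφ' := hφ.fderiv_right (m := ∞) le_rfl
    refine (ih hφ (by omega)).succ fun a => ((appL (by omega) (by omega) (ih hφ' (by omega))
      (h.D a)).add (appR (by omega) (by omega) (comp hn h' _ hφ' le_rfl)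
        ((h''.D a).of_le (by omega)))).congr ((h.sa.and h'.sa).mono fun d x ⟨hx, hx'⟩ => ?_)
    have e3 : (X.F d).D a (fun y => u d y - v d y) x = _ := dv_sub hx.md hx'.md
    have e4 : (X.F d).D a (fun y => φ (u d y) - φ (v d y)) x = (X.F d).D a (fun y => φ (u d y)) x -
        (X.F d).D a (fun y => φ (v d y)) x := dv_sub
      (SA.md (hφ.contMDiff.contMDiffAt.comp x hx)) (SA.md (hφ.contMDiff.contMDiffAt.comp x hx'))
    rw [e4, e3, ← (D_comp_ev hφ hx a).self_of_nhds, ← (D_comp_ev hφ hx' a).self_of_nhds]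
    simp only [sub_apply, map_sub, Pre.D_def]
    abel

end comp

/-- **interior regularity** on a band, near the supports of the nested cut-offs `θ j` -/
theorem lr {A : ∀ d, ι → M → V d →L[ℝ] V d} {e s : ∀ d, M → V d} {θ : ℕ → 𝒟 → M → ℝ}
    (hθ : ∀ j k, Bk (N := fun _ => ℝ) (pre X.F) X.l (un 𝒟 M) 1 k (θ j))
    (h1 : ∀ j, ∀ᶠ d in X.l, ∀ x ∈ tsupport (θ (j + 1) d), θ j d =ᶠ[𝓝 x] fun _ => 1)
    (hs : X.Ev fun d x => ∀ a, Skew (A d a x)) (he : X.Ev fun d x => x ∈ tsupport (θ 0 d) →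
      e d x + lap I (X.F d).e (X.F d).dv (A d) (e d) x = s d x) (h0 : X.Hk w 0 e)
    {n : ℕ} (hn : 7 ≤ n) (hk : k ≤ n) (hA : ∀ a, X.Hk 1 (n + 1) fun d => A d a)
    (hf : X.Hk w k s) : X.Hk w (k + 2) fun d x => θ (k + 2) d x • e d x := by
  obtain ⟨L₀, hL₀, h0⟩ := h0.ext
  obtain ⟨L₁, hL₁, hf⟩ := hf.ext
  obtain ⟨L₂, hL₂, hs⟩ := (hs.and he).win
  choose L' hL' hA using fun a => (hA a).ext
  have h2 := fun a => Finset.single_le_sum (fun a _ => hL' a) (Finset.mem_univ a)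
  have h3 : 0 ≤ ∑ a, L' a := Finset.sum_nonneg fun a _ => hL' a
  refine ⟨L₀ + L₁ + L₂ + ∑ a, L' a + (2 * (k + 2) + 2), by positivity, fun R hR => ?_⟩
  set R' := R + 2 * (k + 2 : ℕ) with hR'
  have e0 : R' = R + 2 * (k + 2) := by rw [hR']; push_cast; ring
  have R0 : 0 ≤ R' := by positivity
  have hτ := ev_fst (L := L₀ + L₁ + L₂ + ∑ a, L' a + (2 * (k + 2) + 2) + R) X.sτ
  have sub : ∀ {r} {z : 𝒟 × ℝ} {θ : M → ℝ}, Sm I (X.τ z.1) → ∀ x ∈ tsupport fun x => X.η r z x * θ x,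
      x ∈ X.W r z ∧ x ∈ tsupport θ := fun h x hx =>
    ⟨ts_η h (tsupport_mul_subset_left hx), tsupport_mul_subset_right hx⟩
  have ch : Ch X.F' (X.lw (L₀ + L₁ + L₂ + ∑ a, L' a + (2 * (k + 2) + 2) + R))
      fun j z x => X.η (R' - 2 * j) z x * θ j z.1 x := by
    refine ⟨fun j k => (bk_η' _ k).smulR (Bk.comap lw_fst (hθ j k) :), fun j => ?_, X.v R', ?_⟩
    · filter_upwards [hτ, ev_fst (h1 j)] with z hτ h1 x hx
      filter_upwards [η_ev hτ.1 (sub hτ.1 x hx).1 (R' := R' - 2 * j) (by push_cast; linarith),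
        h1 x (sub hτ.1 x hx).2] with y e1 e2
      rw [e1, e2, one_mul]
    · filter_upwards [hτ, W_vol (R := R') (by linarith)] with z hτ h
      have : (tsupport fun x => X.η (R' - 2 * (0 : ℕ)) z x * θ 0 z.1 x) ⊆ X.W R' z := fun x hx => by
        simpa using (sub hτ.1 x hx).1
      exact ⟨h.1.of_isClosed_subset (isClosed_tsupport _) this,
        (measureReal_mono this h.1.measure_lt_top.ne).trans h.2⟩
  have hs' := (hs (R' + 2)).filter_mono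
    (lw_mono (L' := L₀ + L₁ + L₂ + ∑ a, L' a + (2 * (k + 2) + 2) + R) (by linarith))
  have h0' := h0 _ R' (show _ ≤ L₀ + L₁ + L₂ + ∑ a, L' a + (2 * (k + 2) + 2) + R by linarith) R0
  refine (ch.lr tame' (A := fun z a x => X.η (R' + 2) z x • A z.1 a x) (hs'.mono fun z h a x => ?_)
    ?_ h0' hn hk (fun a => hA a _ R' (by linarith [h2 a]) R0) (hf _ R' (by linarith) R0)).congr ?_
  · by_cases hx : x ∈ X.W (R' + 2) z
    · intro v v'
      simp only [smul_apply, real_inner_smul_left, real_inner_smul_right, (h x hx).1 a v v', mul_neg]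
    · intro v v'
      simp [η_zero hx]
  · filter_upwards [hs', h0'.sm, hτ, ext_ev (R := R') e] with z h h0 hτ he
    refine ⟨h0, fun x hx => ?_⟩
    have hx' : x ∈ X.W R' z := by simpa using (sub hτ.1 x hx).1
    rw [Eqv71.lap_congr (he x hx'), Eqv71.lap_congrA (A' := A z.1) _ ((η_ev hτ.1 hx' le_rfl).mono
      fun y hy a => by simp [hy]), η_one hx' (by linarith), one_smul, one_smul]
    exact (h x (W_mono (by linarith) hx')).2 (sub hτ.1 x hx).2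
  · refine .of_forall fun z => funext fun x => ?_
    rw [hR', add_sub_cancel_right, mul_smul]
    by_cases hx : x ∈ X.W R z
    · rw [η_one hx (R' := _ + 2) (by linarith), one_smul]
    · rw [η_zero hx, zero_smul, zero_smul]

theorem lr1 {A : ∀ d, ι → M → V d →L[ℝ] V d} {e s : ∀ d, M → V d}
    (hs : X.Ev fun d x => ∀ a, Skew (A d a x))
    (he : X.Ev fun d x => e d x + lap I (X.F d).e (X.F d).dv (A d) (e d) x = s d x)
    (h0 : X.Hk w 0 e) {n : ℕ} (hn : 7 ≤ n) (hk : k ≤ n) (hA : ∀ a, X.Hk 1 (n + 1) fun d => A d a)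
    (hf : X.Hk w k s) : X.Hk w (k + 2) e :=
  (lr (θ := fun _ _ _ => 1) (fun _ _ => .const (.const _)) (fun _ => .of_forall fun _ _ _ => .rfl)
    hs (he.mono fun _ _ h _ => h) h0 hn hk hA hf).congr' fun _ _ => one_smul _ _

end Hk
end Cx

end Crest.Agent.X212.Rsp69
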